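import Vale.Agent.P153.R2.SDAR.Pos
import Vale.Agent.P153.R2.RINS.Ext
import Vale.Agent.P153.R2.RINS.Fun

/-!
P153-R2, block GAPS (helper681), file 11: moments of the laws with exact bounded data, uniformly in
the domain; the functional `Wt`.
-/

namespace Vale.Agent.P153.R2.Gp

open Finset MeasureTheory Filter Topology Relation Vale.Agent.P153 Vale.Agent.P153.F
  Vale.Agent.P153.F.Gh Vale.Agent.P153.F.X Vale.Agent.P153.F.X.LE
open Vale.Agent.P153.GFF (Ht Pat hexa LocLim)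
open Vale.Agent.P153.Topo (Conn)
open Vale.Agent.P145.PT (Sm TestOn)
open Vale.Agent.P153.F.SD (Wd Lf PW)
open Vale.Agent.P153.F.Top (dp c1 c2)
open Vale.Agent.P153.R2.RINS (XC mem_XC XC_irr DepOn lip_min lip_max odd_min odd_max Wt Yv Wt_pow_le
  Xi abs_pow_eq)

variable {P : Measure (Pt → ℤ)} {F : Hg → ℝ}

/-- Extension of bounded data. -/
theorem exists_bd {D : Set Pt} {g : Hg} {M : ℕ} (hne : (XC D g).Nonempty)
    (hb : ∀ x, x ∉ D → |g x| ≤ 2 * M + 1)
    (hl : ∀ x y, x ∉ D → y ∉ D → Adj x y → |g x - g y| ≤ 2) :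
    ∃ g', SDAR.Bd M g' ∧ ∀ x, x ∉ D → g' x = g x := by
  obtain ⟨h, hh⟩ := hne
  rw [mem_XC] at hh
  obtain ⟨h1, h2, h3⟩ := hh
  have hL : ∀ x y, Adj x y → |h x - h y| ≤ 2 := by
    intro x y hxy
    by_cases hx : x ∈ D
    · exact h3 x y ⟨hxy, Or.inl hx⟩
    · by_cases hy : y ∈ D
      · exact h3 x y ⟨hxy, Or.inr hy⟩
      · rw [h2 x hx, h2 y hy]
        exact hl x y hx hy hxy
  have hodd : Odd (2 * (M : ℤ) + 1) := ⟨M, by ring⟩
  refine ⟨fun x => max (-(2 * (M : ℤ) + 1)) (min (2 * M + 1) (h x)),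
    ⟨⟨fun x => odd_max hodd.neg (odd_min hodd (h1 x)), fun x y hxy => ?_⟩, fun x => ?_⟩,
    fun x hx => ?_⟩
  · exact lip_max (by simp) (lip_min (by simp) (hL x y hxy))
  · rw [abs_le]
    exact ⟨le_max_left _ _, max_le (by omega) (min_le_left _ _)⟩
  · have h4 := abs_le.1 (hb x hx)
    dsimp only
    rw [h2 x hx, min_eq_right h4.2, max_eq_right h4.1]

theorem depOn_locF {D : Set Pt} (hD : D.Finite) (hF : DepOn D F) : LocF F :=
  ⟨hD.toFinset, fun h h' hh => hF h h' fun x hx => hh x (hD.mem_toFinset.2 hx)⟩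

/-- The law with exact data is the plane law given the data on a set around the domain. -/
theorem closed_int (hP : GFF.Plane P) {D : Set Pt} (hD : D.Finite) {g : Hg} (hg : ∀ x, Odd (g x))
    {S : Finset Pt} (hS : S.Nonempty) (hSD : ∀ x ∈ S, x ∉ D) (hbd : ∀ x ∈ ebd D, x ∈ S)
    (hF : DepOn D F) :
    ∫ h in On S (fun x => {g x}), F h ∂(muT P) =
      Ex (XC D g) F * (muT P).real (On S fun x => {g x}) := by
  obtain ⟨x₀, hx₀⟩ := hS
  obtain ⟨L, hL⟩ := exists_bL S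
  have hp := On.pin (I := fun x => {g x}) hL hx₀ (M := |g x₀|)
    (fun a ha => by rw [Set.mem_singleton_iff.1 ha])
  rw [dlr_Ex (V := hD.toFinset) hP (On.dep hL _) hp (fun a b hab => ?_) (depOn_locF hD hF)]
  · have e : ∀ᵐ ω ∂(muT P).restrict (On S fun x => {g x}),
        Ex (Cfg (hD.toFinset : Set Pt) (exa hD.toFinset ω)) F = Ex (XC D g) F := by
      rw [ae_restrict_iff' (on_meas S _)]
      filter_upwards [(gb_of_plane hP).lip] with ω hω hωA
      rw [hD.coe_toFinset]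
      exact XC_irr hω.1 hg (fun x hx => hωA x (hbd x hx)) hF
    rw [integral_congr_ae e, integral_const, smul_eq_mul, measureReal_restrict_apply_univ, mul_comm]
  · have : ∀ x ∈ S, a x = b x := fun x hx => hab x (by
      intro h
      exact hSD x hx (hD.mem_toFinset.1 h))
    constructor
    · intro h x hx
      rw [← this x hx]; exact h x hx
    · intro h x hx
      rw [this x hx]; exact h x hx

theorem on_pos (hP : GFF.Plane P) (hR : S_rsw P) (hF : S_conf) {M : ℕ} {η : Hg}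
    (hη : SDAR.Bd M η) {S : Finset Pt} (hS : S.Nonempty) :
    0 < (muT P).real (On S fun x => {η x}) := by
  rw [← gS_int_one]
  exact SDAR.pos_gS hP hR hF hη hS

theorem dp_norm_adj {δ : ℝ} (hδ : 0 < δ) {x y : Pt} (hxy : Adj x y) :
    dist (dp δ x) (dp δ y) ≤ 3 / 2 * δ := by
  have h := Topo.adj_iff.1 hxy
  have h1 : |((x.1 - y.1 : ℤ) : ℝ)| ≤ 1 := by
    have : |x.1 - y.1| ≤ 1 := by rw [abs_le]; omega
    exact_mod_cast this
  have h2 : |((x.2 - y.2 : ℤ) : ℝ)| ≤ 1 := by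
    have : |x.2 - y.2| ≤ 1 := by rw [abs_le]; omega
    exact_mod_cast this
  have := dp_dist_le hδ h1 h2
  rwa [mul_one] at this

/-- **Moments of the laws with exact bounded data**, uniformly in the domain. -/
theorem closed_mom (hP : GFF.Plane P) (hMom : S_mom P) (hE : S_emom P) (hR : S_rsw P)
    (hL : S_loc) (hF : S_conf) {f : ℝ × ℝ → ℝ} (hf : Sm f) (hc : HasCompactSupport f)
    {Rb : ℝ} (hRb : 0 ≤ Rb) (n M : ℕ) :
    ∃ d C : ℝ, 0 < d ∧ 0 ≤ C ∧ ∀ δ : ℝ, 0 < δ → δ ≤ d → ∀ (D : Set Pt) (g : Hg),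
      (∀ x ∈ D, dp δ x ∈ Metric.ball (0 : ℝ × ℝ) Rb) → (∀ x, f (dp δ x) ≠ 0 → x ∈ D) →
      (XC D g).Nonempty → (∀ x, x ∉ D → |g x| ≤ 2 * M + 1) →
      (∀ x y, x ∉ D → y ∉ D → Adj x y → |g x - g y| ≤ 2) →
      Ex (XC D g) (fun h => Lf δ f h ^ (2 * n)) ≤ C := by
  classical
  obtain ⟨d, C, hd, hC, hm⟩ := mom_fun hP hMom hE hR hL hF (ρ := 1 / 4) (by norm_num) hf hc
    (Rb + 1) n (2 * M + 1)
  obtain ⟨K, hK⟩ := SD.exists_csts hf hc
  refine ⟨min d (1 / 4), C, by positivity, hC, fun δ hδ hδd D g hDb hfD hne hb hl => ?_⟩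
  have hδ1 : δ ≤ 1 / 4 := hδd.trans (min_le_right _ _)
  have hfin : {x : Pt | dp δ x ∈ Metric.closedBall (0 : ℝ × ℝ) (Rb + 1)}.Finite := by
    refine (Top.lat_finite hδ (Rb + 2)).subset fun x hx => ?_
    have h1 : dp δ x ∈ Metric.ball (0 : ℝ × ℝ) (Rb + 2) :=
      Metric.closedBall_subset_ball (by linarith) hx
    exact h1
  have hD : D.Finite := hfin.subset fun x hx =>
    Metric.ball_subset_closedBall.trans (Metric.closedBall_subset_closedBall (by linarith))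
      (hDb x hx)
  obtain ⟨g', hg', hgg⟩ := exists_bd hne hb hl
  set S : Finset Pt := hfin.toFinset.filter fun x => x ∉ D with hS
  have memS : ∀ x, x ∈ S ↔ dp δ x ∈ Metric.closedBall (0 : ℝ × ℝ) (Rb + 1) ∧ x ∉ D := by
    intro x
    rw [hS, Finset.mem_filter, hfin.mem_toFinset]
    rfl
  set Q : ℝ × ℝ := (Rb + 1 / 2, 0) with hQ
  have hball : ∀ x, dp δ x ∈ Metric.closedBall Q (1 / 4) → x ∈ S := by
    intro x hx
    rw [Metric.mem_closedBall, dist_eq_norm, Prod.norm_def, sup_le_iff, Real.norm_eq_abs,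
      Real.norm_eq_abs] at hx
    simp only [hQ, Prod.fst_sub, Prod.snd_sub, sub_zero] at hx
    have h1 := abs_le.1 hx.1
    have h2 := abs_le.1 hx.2
    rw [memS]
    constructor
    · rw [mem_closedBall_zero_iff, Prod.norm_def, sup_le_iff, Real.norm_eq_abs, Real.norm_eq_abs,
        abs_le, abs_le]
      refine ⟨⟨?_, ?_⟩, ?_, ?_⟩ <;> linarith
    · intro h
      have h3 := hDb x h
      rw [mem_ball_zero_iff, Prod.norm_def, sup_lt_iff, Real.norm_eq_abs] at h3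
      have h4 := (abs_lt.1 h3.1).2
      linarith
  have hSne : S.Nonempty := by
    obtain ⟨p, hp⟩ := exists_near hδ Q
    exact ⟨p, hball p (Metric.mem_closedBall.2 (hp.trans hδ1))⟩
  have hebd : ∀ x ∈ ebd D, x ∈ S := by
    rintro x ⟨hx, y, hy, hyx⟩
    rw [memS]
    refine ⟨?_, hx⟩
    have h1 := dp_norm_adj hδ hyx
    have h2 := hDb y hy
    rw [mem_ball_zero_iff] at h2
    rw [mem_closedBall_zero_iff]
    have h3 : ‖dp δ x‖ ≤ ‖dp δ y‖ + dist (dp δ y) (dp δ x) := by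
      rw [dist_eq_norm]
      have := norm_sub_norm_le (dp δ x) (dp δ y)
      rw [norm_sub_rev] at this
      linarith
    linarith
  have hgirr : Ex (XC D g) (fun h => Lf δ f h ^ (2 * n)) =
      Ex (XC D g') (fun h => Lf δ f h ^ (2 * n)) := by
    unfold XC
    congr 2
    funext x
    unfold exa
    by_cases hx : x ∈ D
    · rw [if_pos hx, if_pos hx]
    · rw [if_neg hx, if_neg hx, hgg x hx]
  have hdep : DepOn D (fun h => Lf δ f h ^ (2 * n)) := by
    intro h h' hh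
    have : Lf δ f h = Lf δ f h' := by
      rw [lf_xu, lf_xu]
      unfold Xu Finsupp.sum
      refine Finset.sum_congr rfl fun x hx => ?_
      have h1 := SD.Wd_supp hK hδ (Finsupp.mem_support_iff.1 hx)
      rw [add_zero, ← X.Sdx.dp_pos] at h1
      dsimp only
      rw [hh x (hfD x h1)]
    simp only [this]
  have hpos := on_pos hP hR hF hg' hSne
  have h1 := closed_int hP hD hg'.1.1 hSne (fun x hx => ((memS x).1 hx).2) hebd hdep
  have h2 := hm Q (by
    rw [hQ, Prod.norm_def, sup_le_iff, Real.norm_eq_abs, Real.norm_eq_abs, abs_zero,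
      abs_of_nonneg (by linarith)]
    constructor <;> linarith) δ hδ (hδd.trans (min_le_left _ _)) S (fun x => {g' x})
    (fun x hx => ⟨hball x hx, by
      by_contra h
      exact ((memS x).1 (hball x hx)).2 (hfD x h)⟩)
    (fun x _ a ha => by
      rw [Set.mem_singleton_iff.1 ha]
      have := hg'.2 x
      push_cast
      exact this)
  rw [h1] at h2
  rw [hgirr]
  exact le_of_mul_le_mul_right h2 hpos

/-! ### The functional `Wt` -/

theorem Wt_le_lin {k : ℕ} (n : ℕ) (y z : Fin k → ℝ) (c : ℝ) (hc : 0 ≤ c)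
    (h : ∀ i, |y i| ≤ |z i| + c) :
    Wt y ^ (n + 1) ≤ ((k : ℝ) + 1) ^ n * (1 + k * (2 ^ (n + 1) * (1 + c ^ (n + 1)))) +
      ((k : ℝ) + 1) ^ n * 2 ^ (n + 1) * ∑ i, z i ^ (2 * (n + 1)) := by
  have h1 := Wt_pow_le n y
  have h2 : Xi (n + 1) y ≤ 1 + k * (2 ^ (n + 1) * (1 + c ^ (n + 1))) +
      2 ^ (n + 1) * ∑ i, z i ^ (2 * (n + 1)) := by
    unfold Xi
    have h3 : ∀ i, max (y i) 0 ^ (n + 1) + max (-y i) 0 ^ (n + 1) ≤
        2 ^ (n + 1) * (1 + c ^ (n + 1)) + 2 ^ (n + 1) * z i ^ (2 * (n + 1)) := by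
      intro i
      rw [← abs_pow_eq _ (Nat.succ_ne_zero n)]
      have h4 : |y i| ^ (n + 1) ≤ (|z i| + c) ^ (n + 1) :=
        pow_le_pow_left₀ (abs_nonneg _) (h i) _
      have h5 := add_pow_le (abs_nonneg (z i)) hc (n + 1)
      have h6 : |z i| ^ (n + 1) ≤ 1 + z i ^ (2 * (n + 1)) := by
        have h7 : z i ^ (2 * (n + 1)) = (|z i| ^ (n + 1)) ^ 2 := by
          rw [← pow_mul, mul_comm (n + 1) 2, (even_two_mul (n + 1)).pow_abs]
        rw [h7]
        nlinarith [sq_nonneg (|z i| ^ (n + 1) - 1), pow_nonneg (abs_nonneg (z i)) (n + 1)]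
      have h8 : (2 : ℝ) ^ (n + 1 - 1) ≤ 2 ^ (n + 1) := pow_le_pow_right₀ (by norm_num) (by omega)
      have h9 : 0 ≤ |z i| ^ (n + 1) + c ^ (n + 1) :=
        add_nonneg (pow_nonneg (abs_nonneg _) _) (pow_nonneg hc _)
      calc |y i| ^ (n + 1) ≤ 2 ^ (n + 1) * (|z i| ^ (n + 1) + c ^ (n + 1)) :=
            (h4.trans h5).trans (mul_le_mul_of_nonneg_right h8 h9)
        _ ≤ 2 ^ (n + 1) * ((1 + z i ^ (2 * (n + 1))) + c ^ (n + 1)) := by gcongr
        _ = _ := by ring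
    have h4 := Finset.sum_le_sum fun i (_ : i ∈ Finset.univ) => h3 i
    rw [Finset.sum_add_distrib (f := fun _ : Fin k => (2 : ℝ) ^ (n + 1) * (1 + c ^ (n + 1))),
      Finset.sum_const, Finset.card_univ, Fintype.card_fin, nsmul_eq_mul, ← Finset.mul_sum] at h4
    linarith
  calc Wt y ^ (n + 1) ≤ ((k : ℝ) + 1) ^ n * Xi (n + 1) y := h1
    _ ≤ ((k : ℝ) + 1) ^ n * (1 + k * (2 ^ (n + 1) * (1 + c ^ (n + 1))) +
      2 ^ (n + 1) * ∑ i, z i ^ (2 * (n + 1))) := mul_le_mul_of_nonneg_left h2 (by positivity)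
    _ = _ := by ring

end Vale.Agent.P153.R2.Gp
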