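import Vale.Agent.P153.R2.GAPS.Mom
import Vale.Agent.P153.R2.SDAR.Stmt
import Vale.Agent.P153.R2.SDAD.UnifJ

/-!
P153-R2, block GAPS (helper681), file 7: the moments `MomT` of the open laws, for the test functions
of any sign.
-/

namespace Vale.Agent.P153.R2.Gp

open Finset MeasureTheory Filter Topology Relation Vale.Agent.P153 Vale.Agent.P153.F
  Vale.Agent.P153.F.Gh Vale.Agent.P153.F.X Vale.Agent.P153.F.X.LE
open Vale.Agent.P153.GFF (Ht Pat hexa LocLim)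
open Vale.Agent.P153.Topo (Conn)
open Vale.Agent.P145.PT (Sm TestOn)
open Vale.Agent.P153.F.SD (Wd Lf PW)
open Vale.Agent.P153.F.Top (dp c1 c2)

variable {P : Measure (Pt → ℤ)} {F : Hg → ℝ}

/-- Moments of the open law, coefficients of any sign. -/
theorem mom_sgn (hP : GFF.Plane P) (hMom : S_mom P) (hE : S_emom P) (hR : S_rsw P) (hL : S_loc)
    (hF : S_conf) :
    ∀ (K : ℝ) (k : ℕ), 0 < K → ∃ C : ℝ, 0 ≤ C ∧ ∃ s₀ : ℤ, 1 ≤ s₀ ∧ ∀ s, s₀ ≤ s → ∀ (p : Pt)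
      (u : Pt →₀ ℝ), (∀ v, |u v| ≤ K / (s : ℝ) ^ 2) →
      (∀ v, u v ≠ 0 → |((v.1 - p.1 : ℤ) : ℝ)| ≤ K * s ∧ |((v.2 - p.2 : ℤ) : ℝ)| ≤ K * s) →
      (∀ v, u v ≠ 0 → v ∉ X.bx p (8 * s)) → ∀ S : Finset Pt, HasAnn S p (4 * s) →
      ∀ m : ℤ, 0 ≤ m → ∀ J : Pt → Set ℤ, (∀ x ∈ S, ∀ a ∈ J x, |a| ≤ m) →
      ∫ h in On S J, Xu u h ^ (2 * k) ∂(muT P) ≤
        C * (m + 1) ^ (2 * k) * (muT P).real (On S J) := by
  intro K k hK
  obtain ⟨C, hC, s₀, hs₀, hs⟩ := mom_open hP hMom hE hR hL hF K k hK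
  refine ⟨2 ^ (2 * k) * (2 * C), by positivity, s₀, hs₀,
    fun s hs1 p u hu hsupp haway S hS m hm J hJ => ?_⟩
  have hs4 : 1 ≤ s := hs₀.trans hs1
  obtain ⟨x₀, hx₀⟩ := hS.nonempty (by linarith)
  set u1 : Pt →₀ ℝ := u.mapRange (fun a => max a 0) (by simp) with hu1
  set u2 : Pt →₀ ℝ := u.mapRange (fun a => max (-a) 0) (by simp) with hu2
  have e1 : ∀ v, u1 v = max (u v) 0 := fun v => Finsupp.mapRange_apply ..
  have e2 : ∀ v, u2 v = max (-u v) 0 := fun v => Finsupp.mapRange_apply ..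
  have n1 : ∀ v, u1 v ≠ 0 → u v ≠ 0 := fun v hv h0 => hv (by rw [e1, h0, max_self])
  have n2 : ∀ v, u2 v ≠ 0 → u v ≠ 0 := fun v hv h0 => hv (by rw [e2, h0, neg_zero, max_self])
  have hsum : ∀ h, Xu u h = Xu u1 h - Xu u2 h := by
    intro h
    have a1 : Xu u1 h = ∑ v ∈ u.support, u1 v * (h v : ℝ) :=
      Finsupp.sum_of_support_subset _ (fun v hv => by
        rw [Finsupp.mem_support_iff] at hv ⊢; exact n1 v hv) _ (fun _ _ => zero_mul _)
    have a2 : Xu u2 h = ∑ v ∈ u.support, u2 v * (h v : ℝ) :=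
      Finsupp.sum_of_support_subset _ (fun v hv => by
        rw [Finsupp.mem_support_iff] at hv ⊢; exact n2 v hv) _ (fun _ _ => zero_mul _)
    rw [a1, a2, ← Finset.sum_sub_distrib]
    refine Finset.sum_congr rfl fun v _ => ?_
    rw [e1, e2, ← sub_mul]
    congr 1
    rcases le_total (u v) 0 with h1 | h1
    · rw [max_eq_right h1, max_eq_left (by linarith)]; ring
    · rw [max_eq_left h1, max_eq_right (by linarith)]; ring
  have b1 := hs s hs1 p u1 (fun v => ⟨by rw [e1]; exact le_max_right _ _, by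
      rw [e1]; exact max_le ((le_abs_self _).trans (hu v)) (by positivity)⟩)
    (fun v hv => hsupp v (n1 v hv)) (fun v hv => haway v (n1 v hv)) S hS m hm J hJ
  have b2 := hs s hs1 p u2 (fun v => ⟨by rw [e2]; exact le_max_right _ _, by
      rw [e2]; exact max_le ((neg_le_abs _).trans (hu v)) (by positivity)⟩)
    (fun v hv => hsupp v (n2 v hv)) (fun v hv => haway v (n2 v hv)) S hS m hm J hJ
  have hpow : ∀ h, Xu u h ^ (2 * k) ≤ 2 ^ (2 * k) * (Xu u1 h ^ (2 * k) + Xu u2 h ^ (2 * k)) := by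
    intro h
    have h1 : Xu u h ^ (2 * k) ≤ (|Xu u1 h| + |Xu u2 h|) ^ (2 * k) := by
      rw [← (even_two_mul k).pow_abs, hsum]
      exact pow_le_pow_left₀ (abs_nonneg _) (abs_sub _ _) _
    refine h1.trans ((add_pow_le (abs_nonneg _) (abs_nonneg _) _).trans ?_)
    rw [(even_two_mul k).pow_abs, (even_two_mul k).pow_abs]
    refine mul_le_mul_of_nonneg_right (pow_le_pow_right₀ (by norm_num) (by omega)) ?_
    exact add_nonneg ((even_two_mul k).pow_nonneg _) ((even_two_mul k).pow_nonneg _)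
  have i0 : ∀ w : Pt →₀ ℝ, IntegrableOn (fun h => Xu w h ^ (2 * k)) (On S J) (muT P) := fun w =>
    onS_integrable hP hx₀ (hJ x₀ hx₀) (xu_loc w fun y => y ^ (2 * k))
  have i1 : IntegrableOn (fun h => 2 ^ (2 * k) * (Xu u1 h ^ (2 * k) + Xu u2 h ^ (2 * k)))
      (On S J) (muT P) := ((i0 u1).add (i0 u2)).const_mul _
  calc ∫ h in On S J, Xu u h ^ (2 * k) ∂(muT P)
      ≤ ∫ h in On S J, 2 ^ (2 * k) * (Xu u1 h ^ (2 * k) + Xu u2 h ^ (2 * k)) ∂(muT P) :=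
        integral_mono (i0 u) i1 hpow
    _ = 2 ^ (2 * k) * (∫ h in On S J, Xu u1 h ^ (2 * k) ∂(muT P) +
          ∫ h in On S J, Xu u2 h ^ (2 * k) ∂(muT P)) := by
        rw [integral_const_mul, integral_add (i0 u1) (i0 u2)]
    _ ≤ 2 ^ (2 * k) * (C * (m + 1) ^ (2 * k) * (muT P).real (On S J) +
          C * (m + 1) ^ (2 * k) * (muT P).real (On S J)) :=
        mul_le_mul_of_nonneg_left (add_le_add b1 b2) (by positivity)
    _ = _ := by ring

theorem gS_eq (S : Finset Pt) (η h : Hg) :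
    SDAR.gS S η h = (On S fun x => {η x}).indicator (fun _ => (1 : ℝ)) h := by
  classical
  unfold SDAR.gS
  by_cases h1 : ∀ x ∈ S, h x = η x
  · rw [if_pos h1, Set.indicator_of_mem (show h ∈ On S fun x => {η x} from h1)]
  · rw [if_neg h1, Set.indicator_of_notMem (show h ∉ On S fun x => {η x} from h1)]

theorem on_meas (S : Finset Pt) (J : Pt → Set ℤ) : MeasurableSet (On S J) := by
  obtain ⟨L, hL⟩ := exists_bL S
  exact (On.dep hL J).measurable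

theorem gS_int (S : Finset Pt) (η : Hg) (G : Hg → ℝ) :
    ∫ h, G h * SDAR.gS S η h ∂(muT P) = ∫ h in On S (fun x => {η x}), G h ∂(muT P) := by
  rw [← integral_indicator (on_meas S _)]
  congr 1
  funext h
  rw [gS_eq]
  by_cases h1 : h ∈ On S fun x => {η x}
  · rw [Set.indicator_of_mem h1, Set.indicator_of_mem h1, mul_one]
  · rw [Set.indicator_of_notMem h1, Set.indicator_of_notMem h1, mul_zero]

theorem gS_int_one (S : Finset Pt) (η : Hg) :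
    ∫ h, SDAR.gS S η h ∂(muT P) = (muT P).real (On S fun x => {η x}) := by
  have h := gS_int (P := P) S η (fun _ => 1)
  simp only [one_mul] at h
  rw [h, integral_const, smul_eq_mul, mul_one, measureReal_restrict_apply_univ]

theorem gS_meas (S : Finset Pt) (η : Hg) : Measurable (SDAR.gS S η) := by
  have : SDAR.gS S η = (On S fun x => {η x}).indicator (fun _ => (1 : ℝ)) := by
    funext h; exact gS_eq S η h
  rw [this]
  exact measurable_const.indicator (on_meas S _)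

theorem gS_nonneg (S : Finset Pt) (η h : Hg) : 0 ≤ SDAR.gS S η h := by
  rw [gS_eq]; exact Set.indicator_nonneg (fun _ _ => zero_le_one) h

theorem gS_integrable (hP : GFF.Plane P) {S : Finset Pt} (hS : S.Nonempty) (η : Hg) {G : Hg → ℝ}
    (hG : LocF G) : Integrable (fun h => G h * SDAR.gS S η h) (muT P) := by
  obtain ⟨x₀, hx₀⟩ := hS
  have h1 := onS_integrable hP (J := fun x => {η x}) hx₀ (M := |η x₀|) (fun a ha => by
    rw [Set.mem_singleton_iff.1 ha]) hG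
  have h2 := (integrable_indicator_iff (on_meas S fun x => {η x})).2 h1
  refine h2.congr (Eventually.of_forall fun h => ?_)
  simp only [gS_eq]
  by_cases h3 : h ∈ On S fun x => {η x}
  · rw [Set.indicator_of_mem h3, Set.indicator_of_mem h3, mul_one]
  · rw [Set.indicator_of_notMem h3, Set.indicator_of_notMem h3, mul_zero]

theorem lf_xu (δ : ℝ) (f : ℝ × ℝ → ℝ) (h : Hg) : Lf δ f h = Xu (Wd δ f 0) h := rfl

theorem lf_loc (δ : ℝ) (f : ℝ × ℝ → ℝ) (g : ℝ → ℝ) : LocF fun h => g (Lf δ f h) :=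
  xu_loc (Wd δ f 0) g

/-- Distance of two vertices in the plane. -/
theorem dp_dist_le {δ : ℝ} (hδ : 0 < δ) {x p : Pt} {r : ℝ}
    (h1 : |((x.1 - p.1 : ℤ) : ℝ)| ≤ r) (h2 : |((x.2 - p.2 : ℤ) : ℝ)| ≤ r) :
    dist (dp δ x) (dp δ p) ≤ 3 / 2 * (δ * r) := by
  have hr : 0 ≤ r := (abs_nonneg _).trans h1
  have h3 : √3 ≤ 2 := by
    rw [show (2 : ℝ) = √4 by
      rw [show (4 : ℝ) = 2 ^ 2 by norm_num, Real.sqrt_sq (by norm_num)]]
    exact Real.sqrt_le_sqrt (by norm_num)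
  have h30 : 0 ≤ √3 := Real.sqrt_nonneg 3
  rw [dist_eq_norm, Prod.norm_def, sup_le_iff, Real.norm_eq_abs, Real.norm_eq_abs]
  unfold dp
  push_cast at h1 h2
  have a1 := abs_le.1 h1
  have a2 := abs_le.1 h2
  have hδr : 0 ≤ δ * r := by positivity
  constructor
  · have e : ((δ * ((x.1 : ℝ) + x.2 / 2), δ * (√3 / 2 * x.2)) -
        (δ * ((p.1 : ℝ) + p.2 / 2), δ * (√3 / 2 * p.2)) : ℝ × ℝ).1 =
        δ * ((x.1 - p.1 : ℝ) + (x.2 - p.2) / 2) := by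
      simp only [Prod.fst_sub]; ring
    rw [e, abs_mul, abs_of_pos hδ]
    calc δ * |(x.1 - p.1 : ℝ) + (x.2 - p.2) / 2| ≤ δ * (3 / 2 * r) := by
          refine mul_le_mul_of_nonneg_left (abs_le.2 ⟨by linarith, by linarith⟩) hδ.le
      _ = _ := by ring
  · have e : ((δ * ((x.1 : ℝ) + x.2 / 2), δ * (√3 / 2 * x.2)) -
        (δ * ((p.1 : ℝ) + p.2 / 2), δ * (√3 / 2 * p.2)) : ℝ × ℝ).2 =
        δ * (√3 / 2 * (x.2 - p.2 : ℝ)) := by
      simp only [Prod.snd_sub]; ring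
    rw [e, abs_mul, abs_of_pos hδ, abs_mul, abs_of_nonneg (by positivity : (0 : ℝ) ≤ √3 / 2)]
    calc δ * (√3 / 2 * |(x.2 - p.2 : ℝ)|) ≤ δ * (3 / 2 * r) := by
          refine mul_le_mul_of_nonneg_left ?_ hδ.le
          have : |(x.2 - p.2 : ℝ)| ≤ r := h2
          nlinarith [abs_nonneg (x.2 - p.2 : ℝ)]
      _ = _ := by ring

theorem exists_near {δ : ℝ} (hδ : 0 < δ) (Q : ℝ × ℝ) : ∃ p : Pt, dist (dp δ p) Q ≤ δ := by
  set b : ℤ := ⌊Q.2 / (δ * (√3 / 2))⌋ with hb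
  set a : ℤ := ⌊Q.1 / δ - b / 2⌋ with ha
  have h3 : (0 : ℝ) < √3 := by positivity
  have h4 : √3 ≤ 2 := by
    rw [show (2 : ℝ) = √4 by
      rw [show (4 : ℝ) = 2 ^ 2 by norm_num, Real.sqrt_sq (by norm_num)]]
    exact Real.sqrt_le_sqrt (by norm_num)
  have hc : 0 < δ * (√3 / 2) := by positivity
  refine ⟨(a, b), ?_⟩
  rw [dist_eq_norm, Prod.norm_def, sup_le_iff, Real.norm_eq_abs, Real.norm_eq_abs]
  unfold dp
  simp only [Prod.fst_sub, Prod.snd_sub]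
  have b1 := mul_le_mul_of_nonneg_left (Int.floor_le (Q.2 / (δ * (√3 / 2)))) hc.le
  have b2 := mul_le_mul_of_nonneg_left (Int.lt_floor_add_one (Q.2 / (δ * (√3 / 2)))).le hc.le
  have e1 : δ * (√3 / 2) * (Q.2 / (δ * (√3 / 2))) = Q.2 := by field_simp
  have a1 := mul_le_mul_of_nonneg_left (Int.floor_le (Q.1 / δ - b / 2)) hδ.le
  have a2 := mul_le_mul_of_nonneg_left (Int.lt_floor_add_one (Q.1 / δ - b / 2)).le hδ.le
  have e2 : δ * (Q.1 / δ - b / 2) = Q.1 - δ * (b / 2) := by field_simp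
  rw [e1, ← hb] at b1 b2
  rw [e2, ← ha] at a1 a2
  constructor <;> rw [abs_le] <;> constructor <;> nlinarith

/-- A box with data around a point, at the scale `r`. -/
theorem ann_of_ball {δ ρ : ℝ} (hδ : 0 < δ) {Q : ℝ × ℝ} {p : Pt}
    (hp : dist (dp δ p) Q ≤ δ) {s : ℤ} (hsr : 12 * (δ * s) + δ ≤ ρ) {S : Finset Pt}
    (hS : ∀ x, dp δ x ∈ Metric.closedBall Q ρ → x ∈ S) : HasAnn S p (4 * s) := by
  rintro x ⟨h1, h2⟩ -
  refine hS x (Metric.mem_closedBall.2 ?_)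
  have h3 := dp_dist_le hδ (x := x) (p := p) (r := 8 * s)
    (by exact_mod_cast (show |x.1 - p.1| ≤ 8 * s by linarith))
    (by exact_mod_cast (show |x.2 - p.2| ≤ 8 * s by linarith))
  have h4 := dist_triangle (dp δ x) (dp δ p) Q
  linarith

/-- Lattice distance from the distance in the plane. -/
theorem lat_dist_le {δ : ℝ} (hδ : 0 < δ) {x p : Pt} {r : ℝ} (h : dist (dp δ x) (dp δ p) ≤ r) :
    |((x.1 - p.1 : ℤ) : ℝ)| ≤ 2 * r / δ ∧ |((x.2 - p.2 : ℤ) : ℝ)| ≤ 2 * r / δ := by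
  have hr : 0 ≤ r := dist_nonneg.trans h
  rw [dist_eq_norm, Prod.norm_def, sup_le_iff, Real.norm_eq_abs, Real.norm_eq_abs] at h
  unfold dp at h
  simp only [Prod.fst_sub, Prod.snd_sub] at h
  have h3 : (1.6 : ℝ) ≤ √3 := by
    rw [show (1.6 : ℝ) = √(1.6 ^ 2) by rw [Real.sqrt_sq (by norm_num)]]
    exact Real.sqrt_le_sqrt (by norm_num)
  obtain ⟨h1, h2⟩ := h
  have e2 : δ * (√3 / 2 * (x.2 : ℝ)) - δ * (√3 / 2 * p.2) = √3 / 2 * (δ * (x.2 - p.2)) := by ring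
  have e1 : δ * ((x.1 : ℝ) + x.2 / 2) - δ * (p.1 + p.2 / 2) =
    δ * (x.1 - p.1) + δ * (x.2 - p.2) / 2 := by ring
  rw [e2, abs_mul, abs_of_pos (by positivity)] at h2
  rw [e1] at h1
  have h5 : |δ * ((x.2 : ℝ) - p.2)| ≤ 5 / 4 * r := by
    have := abs_nonneg (δ * ((x.2 : ℝ) - p.2))
    nlinarith
  rw [abs_le] at h1 h5
  push_cast
  rw [le_div_iff₀ hδ, le_div_iff₀ hδ]
  have q1 : |(x.1 : ℝ) - p.1| * δ = |δ * ((x.1 : ℝ) - p.1)| := by
    rw [abs_mul, abs_of_pos hδ, mul_comm]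
  have q2 : |(x.2 : ℝ) - p.2| * δ = |δ * ((x.2 : ℝ) - p.2)| := by
    rw [abs_mul, abs_of_pos hδ, mul_comm]
  rw [q1, q2, abs_le, abs_le]
  refine ⟨⟨?_, ?_⟩, ⟨?_, ?_⟩⟩ <;> linarith [h1.1, h1.2, h5.1, h5.2]

/-- The choice of the scale: `s` with `ρ / (48 δ) ≤ s ≤ ρ / (24 δ)`. -/
theorem exists_scale {ρ : ℝ} (hρ : 0 < ρ) (s₀ : ℤ) (hs₀ : 1 ≤ s₀) {δ : ℝ} (hδ : 0 < δ)
    (hδ1 : δ ≤ ρ / (24 * (s₀ + 1))) : ∃ s : ℤ, s₀ ≤ s ∧ 24 * (δ * s) ≤ ρ ∧ ρ ≤ 48 * (δ * s) := by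
  have hs0 : (1 : ℝ) ≤ s₀ := by exact_mod_cast hs₀
  have h1 : (s₀ : ℝ) + 1 ≤ ρ / (24 * δ) := by
    rw [le_div_iff₀ (by positivity)]
    rw [le_div_iff₀ (by positivity)] at hδ1
    linarith
  refine ⟨⌊ρ / (24 * δ)⌋, ?_, ?_, ?_⟩
  · rw [Int.le_floor]; linarith
  · have h2 := mul_le_mul_of_nonneg_left (Int.floor_le (ρ / (24 * δ)))
      (by positivity : 0 ≤ 24 * δ)
    have e : 24 * δ * (ρ / (24 * δ)) = ρ := by field_simp
    linarith
  · have h2 := Int.lt_floor_add_one (ρ / (24 * δ))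
    have h3 : (s₀ : ℝ) ≤ ⌊ρ / (24 * δ)⌋ := by
      exact_mod_cast Int.le_floor.2 (show (s₀ : ℝ) ≤ ρ / (24 * δ) by linarith)
    have h4 : ρ / (24 * δ) ≤ 2 * ⌊ρ / (24 * δ)⌋ := by linarith
    have h5 := mul_le_mul_of_nonneg_left h4 (by positivity : 0 ≤ 24 * δ)
    have e : 24 * δ * (ρ / (24 * δ)) = ρ := by field_simp
    linarith

/-- The moments of one test function under data which contain the ball `closedBall Q ρ`. The
vertices of `S` are not in `D`. -/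
theorem mom_fun (hP : GFF.Plane P) (hMom : S_mom P) (hE : S_emom P) (hR : S_rsw P) (hL : S_loc)
    (hF : S_conf) {ρ : ℝ} (hρ : 0 < ρ) {f : ℝ × ℝ → ℝ} (hf : Sm f) (hc : HasCompactSupport f)
    (R : ℝ) (k : ℕ) (M : ℕ) :
    ∃ d C : ℝ, 0 < d ∧ 0 ≤ C ∧ ∀ Q : ℝ × ℝ, ‖Q‖ ≤ R → ∀ δ : ℝ, 0 < δ → δ ≤ d →
      ∀ (S : Finset Pt) (J : Pt → Set ℤ),
      (∀ x, dp δ x ∈ Metric.closedBall Q ρ → x ∈ S ∧ f (dp δ x) = 0) →
      (∀ x ∈ S, ∀ a ∈ J x, |a| ≤ M) →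
      ∫ h in On S J, Lf δ f h ^ (2 * k) ∂(muT P) ≤ C * (muT P).real (On S J) := by
  obtain ⟨K, hK⟩ := SD.exists_csts hf hc
  have hK0 := hK.pos
  set K' : ℝ := K * ρ ^ 2 + 96 * (K + |R| + 2) / ρ with hK'
  have hK'0 : 0 < K' := by positivity
  obtain ⟨C, hC, s₀, hs₀, hs⟩ := mom_sgn hP hMom hE hR hL hF K' k hK'0
  have hs0 : (1 : ℝ) ≤ s₀ := by exact_mod_cast hs₀
  refine ⟨min 1 (min (ρ / 2) (ρ / (24 * (s₀ + 1)))), C * (M + 1) ^ (2 * k), by positivity,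
    by positivity, fun Q hQ δ hδ hδ1 S J hS hJ => ?_⟩
  obtain ⟨s, h1, h2, h3⟩ := exists_scale hρ s₀ hs₀ hδ
    (hδ1.trans ((min_le_right _ _).trans (min_le_right _ _)))
  have hd1 : δ ≤ 1 := hδ1.trans (min_le_left _ _)
  have hd2 : δ ≤ ρ / 2 := hδ1.trans ((min_le_right _ _).trans (min_le_left _ _))
  have hs1 : 1 ≤ s := hs₀.trans h1
  have hsR : (1 : ℝ) ≤ s := by exact_mod_cast hs1
  obtain ⟨p, hp⟩ := exists_near hδ Q
  have hann : HasAnn S p (4 * s) := ann_of_ball hδ hp (by linarith) fun x hx => (hS x hx).1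
  have key := hs s h1 p (Wd δ f 0) (fun v => ?_) (fun v hv => ?_) (fun v hv hb => ?_) S hann M
    (by positivity) J (by exact_mod_cast hJ)
  · simpa only [lf_xu, Int.cast_natCast] using key
  · rw [SD.Wd_apply hK hδ, add_zero, abs_mul, abs_of_nonneg (by positivity)]
    have h5 : √3 / 2 ≤ 1 := by
      have : √3 ≤ 2 := by
        rw [show (2 : ℝ) = √4 by
          rw [show (4 : ℝ) = 2 ^ 2 by norm_num, Real.sqrt_sq (by norm_num)]]
        exact Real.sqrt_le_sqrt (by norm_num)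
      linarith
    have h6 := hK.bdd (δ • GFF.pos v)
    have h7 : δ * s ≤ ρ := by
      have : 0 ≤ δ * s := by positivity
      linarith
    rw [le_div_iff₀ (by positivity)]
    calc √3 / 2 * δ ^ 2 * |f (δ • GFF.pos v)| * (s : ℝ) ^ 2
        ≤ 1 * δ ^ 2 * K * (s : ℝ) ^ 2 := by gcongr
      _ = K * (δ * s) ^ 2 := by ring
      _ ≤ K * ρ ^ 2 := by gcongr
      _ ≤ K' := by
        have : 0 ≤ 96 * (K + |R| + 2) / ρ := by positivity
        linarith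
  · have h5 := SD.Wd_supp hK hδ hv
    rw [add_zero, ← X.Sdx.dp_pos] at h5
    have h6 : ‖dp δ v‖ ≤ K := by
      rw [Prod.norm_def, sup_le_iff, Real.norm_eq_abs, Real.norm_eq_abs]
      constructor
      · by_contra hcon
        exact h5 (hK.zero _ (Or.inl (not_le.1 hcon)))
      · by_contra hcon
        exact h5 (hK.zero _ (Or.inr (not_le.1 hcon)))
    have h7 : dist (dp δ v) (dp δ p) ≤ K + |R| + 2 := by
      have a1 := dist_triangle (dp δ v) Q (dp δ p)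
      have a2 : dist (dp δ v) Q ≤ ‖dp δ v‖ + ‖Q‖ := dist_le_norm_add_norm _ _
      rw [dist_comm Q] at a1
      linarith [le_abs_self R]
    have h8 : 2 * (K + |R| + 2) / δ ≤ K' * s := by
      have a1 : 96 * (K + |R| + 2) / ρ * s ≤ K' * s := by
        refine mul_le_mul_of_nonneg_right ?_ (by positivity)
        have : 0 ≤ K * ρ ^ 2 := by positivity
        linarith
      refine le_trans ?_ a1
      rw [div_mul_eq_mul_div, div_le_div_iff₀ hδ hρ]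
      have : 0 ≤ K + |R| + 2 := by positivity
      nlinarith
    obtain ⟨a1, a2⟩ := lat_dist_le hδ h7
    exact ⟨a1.trans h8, a2.trans h8⟩
  · have h5 := SD.Wd_supp hK hδ hv
    rw [add_zero, ← X.Sdx.dp_pos] at h5
    apply h5
    refine (hS v (Metric.mem_closedBall.2 ?_)).2
    obtain ⟨a1, a2⟩ := hb
    have h3 := dp_dist_le hδ (x := v) (p := p) (r := 8 * s)
      (by exact_mod_cast a1) (by exact_mod_cast a2)
    have h4 := dist_triangle (dp δ v) (dp δ p) Q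
    linarith

/-- **MomT for the open laws** (435: UnifJ). -/
theorem momT_open (hP : GFF.Plane P) (hMom : S_mom P) (hE : S_emom P) (hR : S_rsw P) (hL : S_loc)
    (hF : S_conf) {ρ : ℝ} (hρ : 0 < ρ) (Q : ℝ × ℝ) (D : Set (ℝ × ℝ)) (M : ℕ) :
    ∃ dm CM : (ℝ × ℝ → ℝ) → ℕ → ℝ, (∀ f k, 0 < dm f k) ∧ ∀ δ : ℝ, 0 < δ →
      ∀ (S : Finset Pt) (η : Hg), SDAR.Bd M η → (∀ x ∈ S, dp δ x ∉ D) →
      (∀ x, dp δ x ∈ Metric.closedBall Q ρ → x ∈ S) →
      SDAD.MomT P D dm CM δ (SDAR.gS S η) := by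
  classical
  have key : ∀ (f : ℝ × ℝ → ℝ) (k : ℕ), ∃ d C : ℝ, 0 < d ∧ (TestOn D f → 0 ≤ C ∧
      ∀ Q' : ℝ × ℝ, ‖Q'‖ ≤ ‖Q‖ → ∀ δ : ℝ, 0 < δ → δ ≤ d → ∀ (S : Finset Pt) (J : Pt → Set ℤ),
      (∀ x, dp δ x ∈ Metric.closedBall Q' ρ → x ∈ S ∧ f (dp δ x) = 0) →
      (∀ x ∈ S, ∀ a ∈ J x, |a| ≤ ((2 * M + 1 : ℕ) : ℤ)) →
      ∫ h in On S J, Lf δ f h ^ (2 * k) ∂(muT P) ≤ C * (muT P).real (On S J)) := by
    intro f k
    by_cases hf : TestOn D f
    · obtain ⟨d, C, h1, h2, h3⟩ := mom_fun hP hMom hE hR hL hF hρ hf.1 hf.2.1 ‖Q‖ k (2 * M + 1)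
      exact ⟨d, C, h1, fun _ => ⟨h2, h3⟩⟩
    · exact ⟨1, 1, one_pos, fun h => absurd h hf⟩
  choose d C h1 h2 using key
  refine ⟨fun f k => min (d f k) ρ, C, fun f k => lt_min (h1 f k) hρ,
    fun δ hδ S η hη hSD hS f hf k hk => ?_⟩
  obtain ⟨-, h3⟩ := h2 f k hf
  have hne : S.Nonempty := by
    obtain ⟨p, hp⟩ := exists_near hδ Q
    exact ⟨p, hS p (Metric.mem_closedBall.2 (hp.trans (hk.trans (min_le_right _ _))))⟩
  refine ⟨gS_integrable hP hne η (lf_loc δ f fun y => y ^ (2 * k)), ?_⟩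
  rw [gS_int, gS_int_one]
  refine h3 Q le_rfl δ hδ (hk.trans (min_le_left _ _)) S _ (fun x hx => ⟨hS x hx, ?_⟩)
    fun x _ a ha => ?_
  · by_contra h4
    exact hSD x (hS x hx) (hf.2.2 (subset_tsupport _ h4))
  · rw [Set.mem_singleton_iff.1 ha]
    have := hη.2 x
    push_cast
    exact this

end Vale.Agent.P153.R2.Gp
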