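import Vale.Agent.P153.R2.GAPS.GapsF
import Vale.Agent.P153.R2.RDEC.Final
import Vale.Agent.P153.R2.LOC.Link

/-!
P153-R2, block GAPS (helper681), file 21: **S_gaps** from the plane hypotheses.
-/

namespace Vale.Agent.P153.R2.Gp

open Set MeasureTheory
open Vale.Agent.P153 Vale.Agent.P153.R2 Vale.Agent.P153.F.X

theorem s_gaps_full {Q : Measure A.Om} {κ : ℝ} (hQ : A.IsQ Q) (hP : GFF.Plane (Q.map A.rc))
    (hS : GFF.SpecOut (Q.map A.rc) κ) (hC : GFF.RowCLT (Q.map A.rc) κ) (hκ : 0 < κ) :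
    SDAR.S_gaps (Q.map A.rc) := by
  have hprob := hP.prob
  have lvl := F.lvl_of hQ hP hS hC hκ
  have hcnt : S_cnt (Q.map A.rc) := s_cnt hP.shift lvl.rsw lvl.momJ
  have hgap : S_gap (Q.map A.rc) := s_gap lvl.ext hcnt s_conf s_loc (s_int hP) lvl.rsw
  exact s_gaps hP hgap lvl.mom (s_emom lvl.ext s_conf s_loc) lvl.rsw s_loc s_conf fun j =>
    LOC.s_land_of (by omega) (RD.s_land hQ hP hS hC hκ (j + 1))

end Vale.Agent.P153.R2.Gp
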