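import Vale.Agent.P153.R2.GAPS.Esc

/-!
P153-R2, block GAPS (helper681), part (C), file 3: one-sided circuits for the measure `muT P`
conditioned on data bounded from one side on a finite set which contains a small annulus.
-/

namespace Vale.Agent.P153.R2.Gp

open Finset MeasureTheory Filter Topology Relation Vale.Agent.P153 Vale.Agent.P153.F
  Vale.Agent.P153.F.Gh Vale.Agent.P153.F.X Vale.Agent.P153.F.X.LE
open Vale.Agent.P153.GFF (Ht Pat hexa LocLim)
open Vale.Agent.P153.Topo (Conn)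

/-- Cylinders of constant height one have positive mass. -/
theorem cyl_one_pos {P : Measure (Pt → ℤ)} (hP : GFF.Plane P) (hR : S_rsw P) (hF : S_conf)
    (B : Finset Pt) : 0 < muT P (Cyl B fun _ => 1) := by
  classical
  have hGb := gb_of_plane hP
  obtain ⟨c₁, hc₁, r₀, hr₀, hr⟩ := hR
  obtain ⟨L, hL⟩ := exists_bL B
  set r : ℤ := max r₀ L with hrd
  have hr1 : 1 ≤ r := hr₀.trans (le_max_left _ _)
  set p : Pt := (0, 0) with hp
  have hLr : ∀ x ∈ bL L, x ∈ F.X.bx p r := by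
    intro x hx
    rw [mem_bL] at hx
    have h1 : (L : ℤ) ≤ r := le_max_right _ _
    refine ⟨?_, ?_⟩
    · rw [hp, abs_le]
      constructor <;> linarith [hx.1.1, hx.1.2]
    · rw [hp, abs_le]
      constructor <;> linarith [hx.2.1, hx.2.2]
  set B1 : Finset Pt := bL (2 * r + 2).toNat with hB1
  have hB1m : ∀ x, x ∈ F.X.bx p (2 * r + 1) → x ∈ B1 := by
    rintro x ⟨h1, h2⟩
    rw [hp, abs_le] at h1 h2
    simp only [sub_zero] at h1 h2
    rw [hB1, mem_bL]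
    have h3 : (((2 * r + 2).toNat : ℕ) : ℤ) = 2 * r + 2 := Int.toNat_of_nonneg (by linarith)
    rw [h3]
    omega
  -- some pattern with a circuit has positive mass
  obtain ⟨a, ⟨ha, haz⟩, hpos⟩ : ∃ a ∈ {h : Hg | Lip h ∧ Zr p r (bl h)}, muT P (Cyl B1 a) ≠ 0 := by
    by_contra hcon
    push Not at hcon
    have h0 : muT P {h : Hg | Lip h ∧ Zr p r (bl h)} = 0 := by
      have h1 : {h : Hg | Lip h ∧ Zr p r (bl h)} ⊆ ⋃ ζ : {x // x ∈ B1} → ℤ,
          {h | (Lip h ∧ Zr p r (bl h)) ∧ (fun x : {x // x ∈ B1} => h x.1) = ζ} := by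
        intro h hh
        exact Set.mem_iUnion.2 ⟨_, hh, rfl⟩
      refine measure_mono_null h1 (measure_iUnion_null fun ζ => ?_)
      by_cases h2 : ∃ b, (Lip b ∧ Zr p r (bl b)) ∧ (fun x : {x // x ∈ B1} => b x.1) = ζ
      · obtain ⟨b, hb, hbζ⟩ := h2
        refine measure_mono_null ?_ (hcon b hb)
        rintro h ⟨-, hh⟩ x hx
        have h3 := congrFun (hh.trans hbζ.symm) ⟨x, hx⟩
        exact h3
      · have h3 : {h : Hg | (Lip h ∧ Zr p r (bl h)) ∧ (fun x : {x // x ∈ B1} => h x.1) = ζ} = ∅ := by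
          rw [Set.eq_empty_iff_forall_notMem]
          exact fun b hb => h2 ⟨b, hb⟩
        rw [h3]
        exact measure_empty
    have h1 := (hr r (le_max_left _ _) p).1
    have h2 : II P (F.X.ind (Zr p r)) (fun _ => 1) = 0 := by
      unfold II
      refine integral_eq_zero_of_ae ?_
      have h3 : ∀ᵐ h ∂(muT P), ¬ (Lip h ∧ Zr p r (bl h)) := by
        rw [ae_iff]
        simpa using h0
      filter_upwards [h3, hGb.lip] with h h4 h5
      have h6 : ¬ Zr p r (bl h) := fun h7 => h4 ⟨h5, h7⟩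
      rw [ind_zero h6, zero_mul]
      rfl
    rw [h2] at h1
    exact absurd h1 (not_le.2 hc₁)
  -- flatten the clusters of the box
  set K : Set Pt := Clu (F.X.bx p r) a with hK
  have hKb : ∀ x ∈ K, x ∈ F.X.bx p (2 * r) := by
    rintro x ⟨x₀, hx₀, h1⟩
    refine hF p r (bl a) hr1 haz x₀ hx₀ x (ReflTransGen.mono ?_ _ _ h1)
    intro u v huv
    exact ⟨huv.1, fun hw => huv.2 ((mem_bl huv.1).1 hw)⟩
  set Lf : Finset Pt := B1.filter fun x => x ∈ K with hLf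
  have hLfm : ∀ x, x ∈ Lf ↔ x ∈ K := by
    intro x
    rw [hLf, Finset.mem_filter]
    exact ⟨fun h => h.2, fun h => ⟨hB1m x (bx_mono (by linarith) (hKb x h)), h⟩⟩
  set b : Hg := comb K (fun _ => 1) a with hb
  have hbL : Lip b := (comb_mem_right ha fun x y hx hy hxy => closed_of_cross hx hy hxy).1
  have h1 : muT P (Cyl B1 a) = muT P (Cyl B1 b) := by
    refine hGb.eq Lf B1 a b (Finset.filter_subset _ _) (fun x hx y hxy => ?_) ha hbL fun x hx => ?_
    · exact hB1m y (bx_step (hKb x ((hLfm x).1 hx)) hxy)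
    · rw [hb, comb_out fun h => hx ((hLfm x).2 h)]
  rw [h1] at hpos
  refine lt_of_lt_of_le (pos_iff_ne_zero.2 hpos) (measure_mono fun h hh x hx => ?_)
  have h2 : x ∈ F.X.bx p r := hLr x (hL hx)
  rw [hh x (hB1m x (bx_mono (by linarith) h2)), hb]
  exact comb_in (subset_clu h2)

/-- The closed event. -/
def ClE (S : Finset Pt) : Set Hg := {h | ClS S (bl h)}

theorem dep_cle {S : Finset Pt} {L : ℕ} (hL : ∀ x ∈ S, ∀ y, Adj x y → y ∈ bL L) (hS : S ⊆ bL L) :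
    DepS L (ClE S) := by
  intro h h' hh
  have key : ∀ h h' : Hg, (∀ x ∈ bL L, h x = h' x) → h ∈ ClE S → h' ∈ ClE S := by
    intro h h' hh h1
    have h2 := cls_bl.1 h1
    refine cls_bl.2 ⟨fun x hx => ?_, fun x hx => ?_⟩
    · rw [← hh x (hS hx)]; exact h2.1 x hx
    · obtain ⟨y, hy, h3⟩ := h2.2 x hx
      exact ⟨y, hy, by rw [← hh y (hL x hx y hy)]; exact h3⟩
  exact ⟨key h h' hh, key h' h fun x hx => (hh x hx).symm⟩

theorem exists_L (S : Finset Pt) (p : Pt) (R : ℤ) (Λ : Finset Pt) : ∃ L : ℕ, S ⊆ bL L ∧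
    (∀ x ∈ S, ∀ y, Adj x y → y ∈ bL L) ∧ (∀ x ∈ F.X.bx p R, x ∈ bL L) ∧ Λ ⊆ bL L := by
  classical
  obtain ⟨L₁, hL₁⟩ := exists_bx_sub p R
  obtain ⟨L₂, hL₂⟩ := exists_bL (S ∪ S.biUnion nei ∪ Λ)
  have m : ∀ x, x ∈ bL L₁ ∨ x ∈ bL L₂ → x ∈ bL (max L₁ L₂) := by
    intro x hx
    have e1 : (L₁ : ℤ) ≤ ((max L₁ L₂ : ℕ) : ℤ) := by exact_mod_cast le_max_left _ _
    have e2 : (L₂ : ℤ) ≤ ((max L₁ L₂ : ℕ) : ℤ) := by exact_mod_cast le_max_right _ _
    rw [mem_bL, mem_bL] at hx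
    rw [mem_bL]
    omega
  refine ⟨max L₁ L₂, fun x hx => m x (Or.inr (hL₂ ?_)), fun x hx y hxy => m y (Or.inr (hL₂ ?_)),
    fun x hx => m x (Or.inl (hL₁ x hx)), fun x hx => m x (Or.inr (hL₂ ?_))⟩
  · exact Finset.mem_union_left _ (Finset.mem_union_left _ hx)
  · exact Finset.mem_union_left _ (Finset.mem_union_right _
      (Finset.mem_biUnion.2 ⟨x, hx, mem_nei hxy⟩))
  · exact Finset.mem_union_right _ hx

theorem cle_pos {P : Measure (Pt → ℤ)} (hP : GFF.Plane P) (hR : S_rsw P) (hF : S_conf)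
    {S : Finset Pt} (hS : S.Nonempty) : 0 < (muT P).real (ClE S) := by
  classical
  have h1 : Cyl (S ∪ S.biUnion nei) (fun _ => 1) ⊆ ClE S := by
    intro h hh
    refine cls_bl.2 ⟨fun x hx => ?_, fun x hx => ⟨(x.1 + 1, x.2), ?_, ?_⟩⟩
    · rw [hh x (Finset.mem_union_left _ hx)]; rfl
    · unfold Adj; simp
    · have h2 : Adj x (x.1 + 1, x.2) := by unfold Adj; simp
      rw [hh _ (Finset.mem_union_right _ (Finset.mem_biUnion.2 ⟨x, hx, mem_nei h2⟩))]
      rfl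
  have h2 := lt_of_lt_of_le (cyl_one_pos hP hR hF (S ∪ S.biUnion nei)) (measure_mono h1)
  obtain ⟨x, hx⟩ := hS
  obtain ⟨L, hL1, hL2, -, -⟩ := exists_L S x 0 ∅
  have h3 : muT P (ClE S) ≠ ⊤ := finite_pin hP (dep_cle hL2 hL1) (M := 1)
    fun h hh _ => ⟨x, hL1 hx, ((cls_bl.1 hh).1 x hx).le⟩
  exact ENNReal.toReal_pos h2.ne' h3

/-- The set `S` contains the annulus. -/
def HasAnn (S : Finset Pt) (p : Pt) (r : ℤ) : Prop :=
  ∀ x, x ∈ F.X.bx p (2 * r) → x ∉ F.X.bx p (r - 2) → x ∈ S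

theorem HasAnn.nonempty {S : Finset Pt} {p : Pt} {r : ℤ} (hr : 1 ≤ r) (h : HasAnn S p r) :
    S.Nonempty := by
  refine ⟨(p.1 + 2 * r, p.2), h _ ⟨?_, ?_⟩ ?_⟩
  · rw [show (p.1 + 2 * r, p.2).1 - p.1 = 2 * r by ring, abs_of_nonneg (by linarith)]
  · simp only [sub_self, abs_zero]; linarith
  · rintro ⟨h1, -⟩
    rw [show (p.1 + 2 * r, p.2).1 - p.1 = 2 * r by ring, abs_of_nonneg (by linarith)] at h1
    linarith

/-- The core: given the closed event, open paths rarely escape. -/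
theorem circ_core {P : Measure (Pt → ℤ)} (hP : GFF.Plane P) (hG : S_gap P) (hR : S_rsw P)
    (hL : S_loc) (hF : S_conf) :
    ∀ η : ℝ, 0 < η → ∀ N : ℕ, ∃ n : ℕ, N ≤ n ∧ ∃ s₀ : ℤ, 1 ≤ s₀ ∧ ∀ s, s₀ ≤ s → ∃ j < n,
      ∀ (p : Pt) (S : Finset Pt), HasAnn S p (4 ^ (j + 1) * s) → ∀ T : Set ℤ,
        (∀ a ∈ T, |a| ≠ 1) →
        (muT P).real (ClE S ∩ {h | Esc {x | h x ∈ T} p (4 ^ (j + 4) * s) (2 * (4 ^ (2 * n) * s))})
          ≤ η * (muT P).real (ClE S) := by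
  intro η hη N
  obtain ⟨r₀, hr₀, hzr⟩ := exists_zr hR hL
  obtain ⟨n, hn, s₀, hs₀, hs⟩ := hG η hη (max N 3)
  have hNn : N ≤ n := (le_max_left _ _).trans hn
  have h2n : 3 ≤ n := (le_max_right _ _).trans hn
  refine ⟨n, hNn, max s₀ r₀, le_max_of_le_left hs₀, fun s h1 => ?_⟩
  have hs1 : s₀ ≤ s := (le_max_left _ _).trans h1
  have hs2 : r₀ ≤ s := (le_max_right _ _).trans h1
  have hs3 : 1 ≤ s := hs₀.trans hs1
  obtain ⟨j, hj, h2⟩ := hs s hs1
  refine ⟨j, hj, fun p S hS T hT => ?_⟩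
  have hpow : ∀ i : ℕ, 1 ≤ (4 : ℤ) ^ i := fun i => one_le_pow₀ (by norm_num)
  have hps : ∀ i : ℕ, 1 ≤ 4 ^ i * s := fun i => by nlinarith [hpow i]
  have hps' : ∀ i : ℕ, s ≤ 4 ^ i * s := fun i => by nlinarith [hpow i]
  have hSn : S.Nonempty := hS.nonempty (hps _)
  have hfn := fn_cls hSn
  have key := h2 p (F.X.ind (ClS S)) hfn (ind_mono' fun B B' hB => cls_mono hB) fun B hB =>
    hzr _ (hs2.trans (hps' _)) p B (zr_of_cls (ind_ne hB) hS)
  have hle : 4 ^ (j + 4) * s ≤ 2 * (4 ^ (2 * n) * s) := by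
    have h5 : (4 : ℤ) ^ (j + 4) ≤ 4 ^ (2 * n) := pow_le_pow_right₀ (by norm_num) (by omega)
    have h6 := mul_le_mul_of_nonneg_right h5 (by linarith : (0 : ℤ) ≤ s)
    have h7 := hps (2 * n)
    linarith
  obtain ⟨L, hL1, hL2, hL3, -⟩ := exists_L S p (2 * (4 ^ (2 * n) * s) + 1) ∅
  have hdA := dep_cle hL2 hL1
  have hdE := dep_esc hle hL3 T
  have hpin : PinB L 1 (ClE S) := by
    obtain ⟨x, hx⟩ := hSn
    exact fun h hh _ => ⟨x, hL1 hx, ((cls_bl.1 hh).1 x hx).le⟩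
  have e1 : II P (F.X.ind (ClS S)) (fun _ => 1) = (muT P).real (ClE S) := by
    unfold II
    have h3 : (fun h : Hg => F.X.ind (ClS S) (bl h) * (fun _ : Top.Om => (1 : ℝ)) (vm h)) =
        (ClE S).indicator fun _ => 1 := by
      funext h
      by_cases h4 : h ∈ ClE S
      · rw [Set.indicator_of_mem h4, ind_one (show ClS S (bl h) from h4), mul_one]
      · rw [Set.indicator_of_notMem h4, ind_zero (show ¬ ClS S (bl h) from h4), zero_mul]
    rw [h3, integral_indicator hdA.measurable, integral_const, smul_eq_mul, mul_one,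
      measureReal_restrict_apply_univ]
  have e2 : (muT P).real (ClE S ∩ {h | Esc {x | h x ∈ T} p (4 ^ (j + 4) * s)
      (2 * (4 ^ (2 * n) * s))}) ≤ II P (fun B => F.X.ind (ClS S) B *
        F.X.ind (fun B => ∀ i, j + 4 ≤ i → i ≤ 2 * n → ¬ Zr p (4 ^ i * s) B) B) (fun _ => 1) := by
    have hmE : MeasurableSet (ClE S ∩ {h | Esc {x | h x ∈ T} p (4 ^ (j + 4) * s)
      (2 * (4 ^ (2 * n) * s))}) := (hdA.inter hdE).measurable
    have h3 : (muT P).real (ClE S ∩ {h | Esc {x | h x ∈ T} p (4 ^ (j + 4) * s)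
        (2 * (4 ^ (2 * n) * s))}) = ∫ h, (ClE S ∩ {h | Esc {x | h x ∈ T} p (4 ^ (j + 4) * s)
        (2 * (4 ^ (2 * n) * s))}).indicator (fun _ => (1 : ℝ)) h ∂(muT P) := by
      rw [integral_indicator hmE, integral_const, smul_eq_mul, mul_one,
        measureReal_restrict_apply_univ]
    rw [h3]
    unfold II
    have hint : ∀ {A : Set Hg}, A ⊆ ClE S → MeasurableSet A →
        Integrable (A.indicator fun _ => (1 : ℝ)) (muT P) := by
      intro A hA hmA
      rw [integrable_indicator_iff hmA]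
      exact (integrableOn_loc hP hdA hpin (F := fun _ => 1) fun _ _ _ => rfl).mono_set hA
    have hno : MeasurableSet {h : Hg | ClS S (bl h) ∧ ∀ i, j + 4 ≤ i → i ≤ 2 * n →
        ¬ Zr p (4 ^ i * s) (bl h)} := by
      have hd : ∃ L', DepS L' {h : Hg | ∀ i, j + 4 ≤ i → i ≤ 2 * n → ¬ Zr p (4 ^ i * s) (bl h)} := by
        choose Λ hΛ1 hΛ2 using fun i : ℕ => (hL p (4 ^ i * s) (hps i)).2.loc
        classical
        obtain ⟨L', hL'⟩ := exists_bL (eb ((Finset.range (2 * n + 1)).biUnion Λ))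
        refine ⟨L', fun h h' hh => ?_⟩
        have h5 : ∀ i, i ≤ 2 * n → (Zr p (4 ^ i * s) (bl h) ↔ Zr p (4 ^ i * s) (bl h')) := by
          intro i hi
          have h6 := hΛ2 i (bl h) (bl h') fun w hw => bl_congr hL' hh
            (Finset.mem_biUnion.2 ⟨i, Finset.mem_range.2 (by omega), hw⟩)
          constructor
          · intro h7
            rw [ind_one h7] at h6
            exact ind_ne (by rw [← h6]; exact one_ne_zero)
          · intro h7
            rw [ind_one h7] at h6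
            exact ind_ne (by rw [h6]; exact one_ne_zero)
        exact forall_congr' fun i => forall_congr' fun _ => forall_congr' fun hi =>
          not_congr (h5 i hi)
      obtain ⟨L', hd⟩ := hd
      exact hdA.measurable.inter hd.measurable
    have e3 : (fun h : Hg => (F.X.ind (ClS S) (bl h) * F.X.ind (fun B => ∀ i, j + 4 ≤ i →
        i ≤ 2 * n → ¬ Zr p (4 ^ i * s) B) (bl h)) * (fun _ : Top.Om => (1 : ℝ)) (vm h)) =
        {h : Hg | ClS S (bl h) ∧ ∀ i, j + 4 ≤ i → i ≤ 2 * n →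
        ¬ Zr p (4 ^ i * s) (bl h)}.indicator fun _ => (1 : ℝ) := by
      funext h
      by_cases h4 : ClS S (bl h)
      · by_cases h5 : ∀ i, j + 4 ≤ i → i ≤ 2 * n → ¬ Zr p (4 ^ i * s) (bl h)
        · rw [Set.indicator_of_mem (show h ∈ {h : Hg | ClS S (bl h) ∧ ∀ i, j + 4 ≤ i → i ≤ 2 * n →
            ¬ Zr p (4 ^ i * s) (bl h)} from ⟨h4, h5⟩), ind_one h4,
            ind_one (Q := fun B => ∀ i, j + 4 ≤ i → i ≤ 2 * n → ¬ Zr p (4 ^ i * s) B) h5]
          norm_num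
        · rw [Set.indicator_of_notMem (fun h6 : h ∈ {h : Hg | ClS S (bl h) ∧ ∀ i, j + 4 ≤ i →
            i ≤ 2 * n → ¬ Zr p (4 ^ i * s) (bl h)} => h5 h6.2),
            ind_zero (Q := fun B => ∀ i, j + 4 ≤ i → i ≤ 2 * n → ¬ Zr p (4 ^ i * s) B) h5]
          norm_num
      · rw [Set.indicator_of_notMem (fun h6 : h ∈ {h : Hg | ClS S (bl h) ∧ ∀ i, j + 4 ≤ i →
            i ≤ 2 * n → ¬ Zr p (4 ^ i * s) (bl h)} => h4 h6.1), ind_zero h4]
        norm_num
    rw [e3]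
    refine integral_mono (hint Set.inter_subset_left hmE) (hint (fun h hh => hh.1) hno) fun h => ?_
    refine Set.indicator_le_indicator_of_subset ?_ (fun _ => zero_le_one) h
    rintro h ⟨h4, h5⟩
    refine ⟨h4, fun i hi1 hi2 hz => ?_⟩
    have h6 : (4 : ℤ) ^ (j + 4) * s ≤ 4 ^ i * s :=
      mul_le_mul_of_nonneg_right (pow_le_pow_right₀ (by norm_num) hi1) (by linarith)
    have h7 : 2 * ((4 : ℤ) ^ i * s) ≤ 2 * (4 ^ (2 * n) * s) := by
      have := mul_le_mul_of_nonneg_right (pow_le_pow_right₀ (by norm_num : (1 : ℤ) ≤ 4) hi2)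
        (by linarith : (0 : ℤ) ≤ s)
      linarith
    exact not_esc hF (hps i) hz h6 h7 hT h5
  rw [e1] at key
  exact e2.trans key

end Vale.Agent.P153.R2.Gp
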