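import Vale.Agent.P153.R2.GAPS.WinG

/-!
P153-R2, block GAPS (helper681), file 18: the closed law and the open law of one configuration.
-/

namespace Vale.Agent.P153.R2.Gp

open Finset MeasureTheory Filter Topology Relation Vale.Agent.P153 Vale.Agent.P153.F
  Vale.Agent.P153.F.Gh Vale.Agent.P153.F.X Vale.Agent.P153.F.X.LE
open Vale.Agent.P153.Topo (Conn)
open Vale.Agent.P153.F.SD (PW Lf)
open Vale.Agent.P153.F.Top (dp c1 c2)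
open Vale.Agent.P145.PT (Sm)
open Vale.Agent.P153.R2.LOC (ds ds_adj)
open Vale.Agent.P153.R2.SDAR (vv uu pt ts ls t0 l0 sbx ov tcell corr Bd Dmn Win pin NT gS FF Few
  Un S_gaps)
open Vale.Agent.P153.R2.RINS (XC Wt Yv Gib Bdy Qk Pk exists_least)

variable {P : Measure (Pt → ℤ)}

/-- The hypotheses on the lattice data. -/
structure Hy (b : PW) (K : Set (ℝ × ℝ)) (Rb r : ℝ) (lf : Fin 3 → ℝ) (M : ℕ) (w Rp δ : ℝ)
    (U : Set Pt) (η : Hg) (σ : Fin 3 → ℤ) (S : Finset Pt) : Prop where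
  dmn : Dmn δ Rb (K ∪ tcell b w) U
  bd : Bd M η
  sg : ∀ i, σ i = 1 ∨ σ i = -1
  win : ∀ i, Win b δ i (lf i) w r (σ i) U η
  pin : (S : Set Pt) = pin b δ w Rp U

/-- The closed law is close to the open law for the observable `F`. -/
def Ok (P : Measure (Pt → ℤ)) (b : PW) (K : Set (ℝ × ℝ)) (Rb r : ℝ) (lf : Fin 3 → ℝ) (M : ℕ)
    (F : ℝ → Hg → ℝ) : Prop := ∀ e : ℝ, 0 < e → ∃ w₁ : ℝ, 0 < w₁ ∧ ∀ w : ℝ, 0 < w → w ≤ w₁ →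
  ∀ Rp : ℝ, Rb + 1 ≤ Rp → ∃ δ₀ : ℝ, 0 < δ₀ ∧ ∀ δ : ℝ, 0 < δ → δ < δ₀ →
  ∀ (U : Set Pt) (η : Hg) (σ : Fin 3 → ℤ) (S : Finset Pt), Hy b K Rb r lf M w Rp δ U η σ S →
    S.Nonempty ∧ |∫ h, F δ h * gS S η h ∂(muT P) -
      Ex (Cfg U (exa U η)) (F δ) * ∫ h, gS S η h ∂(muT P)| ≤ e * ∫ h, gS S η h ∂(muT P)

/-- The product of the shifted functionals. -/
noncomputable def Ys (M : ℕ) {k : ℕ} (f : Fin k → ℝ × ℝ → ℝ) (δ : ℝ) (h : Hg) : ℝ :=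
  ∏ i, Yv (-(2 * (M : ℤ) + 3 + 1)) (Zf δ f) (ph δ f) h i

theorem zf_mem {k : ℕ} {δ : ℝ} (hδ : 0 < δ) {f : Fin k → ℝ × ℝ → ℝ} (hs : ∀ i, Sm (f i))
    (hc : ∀ i, HasCompactSupport (f i)) {i : Fin k} {x : Pt} (hx : f i (dp δ x) ≠ 0) :
    x ∈ Zf δ f := by
  obtain ⟨K, hK⟩ := SD.exists_csts (hs i) (hc i)
  refine Finset.mem_biUnion.2 ⟨i, Finset.mem_univ _, Finsupp.mem_support_iff.2 ?_⟩
  rw [SD.Wd_apply hK hδ, add_zero, ← X.Sdx.dp_pos]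
  have h3 : (0 : ℝ) < √3 := by positivity
  have : √3 / 2 * δ ^ 2 ≠ 0 := by positivity
  exact mul_ne_zero this hx

/-- The lattice scales. -/
theorem scales {r' w δ : ℝ} (M : ℕ) {s₀ s₁ T₀ A₂ : ℤ} (hr0 : 0 < r') (hw0 : 0 < w)
    (hδ : 0 < δ) (hs₀ : 1 ≤ s₀) (hs₁ : 1 ≤ s₁) (hT₀ : 1 ≤ T₀) (hA₂ : 1 ≤ A₂)
    (hw : w ≤ r' / (16 * (T₀ + A₂))) (q3 : δ * (16 * ((T₀ + A₂) * (2 * M + 6) + 1)) < r')
    (q4 : δ * (s₀ + s₁) < w) (q5 : δ < r' / 32) :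
    ∃ R s : ℤ, 1 ≤ R ∧ δ * R ≤ r' / 8 ∧ s₀ + s₁ ≤ s ∧ T₀ * s ≤ R ∧ A₂ * s ≤ R ∧
      w < δ * (s - 1) ∧ w / δ + 1 + ((2 * M + 4 : ℤ) : ℝ) ≤ s := by
  have hT₀R : (1 : ℝ) ≤ T₀ := by exact_mod_cast hT₀
  have hA₂R : (1 : ℝ) ≤ A₂ := by exact_mod_cast hA₂
  set T : ℝ := T₀ + A₂ with hT
  have hT0 : 0 < T := by linarith
  set R : ℤ := ⌊r' / (8 * δ)⌋ with hRd
  set s : ℤ := ⌈w / δ⌉ + 2 * M + 5 with hsd
  have g1 : (R : ℝ) ≤ r' / (8 * δ) := Int.floor_le _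
  have g1' : δ * R ≤ r' / 8 := by
    have := mul_le_mul_of_nonneg_left g1 hδ.le
    refine this.trans (le_of_eq ?_)
    field_simp
  have g2 : 1 ≤ R := by
    rw [hRd, Int.le_floor]
    push_cast
    rw [le_div_iff₀ (by positivity)]
    linarith
  have c1 := Int.le_ceil (w / δ)
  have c2 := Int.ceil_lt_add_one (w / δ)
  have hsR : (s : ℝ) = ⌈w / δ⌉ + 2 * M + 5 := by rw [hsd]; push_cast; ring
  have hMn : (0 : ℝ) ≤ M := by positivity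
  have g3 : (s : ℝ) ≤ w / δ + 2 * M + 6 := by rw [hsR]; linarith
  have g4 : s₀ + s₁ ≤ s := by
    have h1 : ((s₀ + s₁ : ℤ) : ℝ) ≤ s := by
      push_cast
      have h2 : (s₀ + s₁ : ℝ) ≤ w / δ := by
        rw [le_div_iff₀ hδ]; linarith
      rw [hsR]
      linarith
    exact_mod_cast h1
  have hs0 : (0 : ℝ) ≤ s := by
    have : (0 : ℤ) ≤ s := by omega
    exact_mod_cast this
  have g5 : T * s ≤ r' / (8 * δ) := by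
    have h1 : T * s ≤ T * (w / δ + 2 * M + 6) := mul_le_mul_of_nonneg_left g3 hT0.le
    have h2 : T * (w / δ) ≤ r' / (16 * δ) := by
      calc T * (w / δ) ≤ T * (r' / (16 * T) / δ) := by gcongr
        _ = r' / (16 * δ) := by field_simp
    have h3 : T * (2 * M + 6) ≤ r' / (16 * δ) := by
      rw [le_div_iff₀ (by positivity)]
      nlinarith
    have h4 : r' / (16 * δ) + r' / (16 * δ) = r' / (8 * δ) := by field_simp; ring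
    linarith
  refine ⟨R, s, g2, g1', g4, ?_, ?_, ?_, ?_⟩
  · rw [hRd, Int.le_floor]
    push_cast
    refine le_trans ?_ g5
    rw [hT]
    nlinarith
  · rw [hRd, Int.le_floor]
    push_cast
    refine le_trans ?_ g5
    rw [hT]
    nlinarith
  · have h1 : w = δ * (w / δ) := by field_simp
    have h2 : δ * (w / δ) < δ * (s - 1) := by
      refine mul_lt_mul_of_pos_left ?_ hδ
      rw [hsR]
      linarith
    linarith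
  · rw [hsR]
    push_cast
    linarith

/-- The conclusion for one configuration. -/
theorem one_conf {k : ℕ} {f : Fin k → ℝ × ℝ → ℝ} {C₁ C₂ C e : ℝ} {M : ℕ} {R s s₀ s₁ T₀ A₂ : ℤ}
    {b : PW} {K : Set (ℝ × ℝ)} {Rb r w Rp δ ε : ℝ} {lf : Fin 3 → ℝ} {U : Set Pt} {η : Hg}
    {σ : Fin 3 → ℤ} {S : Finset Pt} {Q : ℝ × ℝ}
    (hs : ∀ i, Sm (f i)) (hc : ∀ i, HasCompactSupport (f i)) (hts : ∀ i, tsupport (f i) ⊆ K)
    (h0 : ∀ i z, 0 ≤ f i z) (H : Hy b K Rb r lf M w Rp δ U η σ S) (hδ : 0 < δ)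
    (hbs : b.x0 + b.y0 < b.s0) (hδb : 2 * δ ≤ b.s0 - b.x0 - b.y0) (hlf : ∀ i, l0 b i + r < lf i)
    (hK : ∀ i, Disjoint K (sbx i (t0 b i) (lf i) r)) (hRp : Rb + 1 ≤ Rp)
    (hw0 : 0 ≤ w) (hw1 : w ≤ 1 / 16) (hw2 : w ≤ r / 5) (hδw : δ ≤ w) (hδ2 : δ ≤ 1 / 64)
    (g2 : 1 ≤ R) (g4 : s₀ + s₁ ≤ s) (hs₀ : 1 ≤ s₀) (hs₁ : 1 ≤ s₁) (g6 : T₀ * s ≤ R)
    (g7 : A₂ * s ≤ R) (g8 : δ * (5 * (R + 1) + 3) ≤ r) (g9 : δ * (R + 1) ≤ 1 / 2)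
    (g10 : w < δ * (s - 1)) (g11 : w / δ + 1 + ((2 * M + 4 : ℤ) : ℝ) ≤ s)
    (hball : ∀ z ∈ Metric.closedBall Q (1 / 64), Rb ≤ ‖z‖ ∧ ‖z‖ ≤ Rb + 1 ∧
      1 / 16 < |c1 z - b.x0| ∧ 2 * Rb / √3 < c2 z)
    (hC1 : C₁ ≤ C) (hC2 : C₂ ≤ C)
    (hm₁ : ∀ (D : Set Pt) (g : Hg), (∀ x ∈ D, dp δ x ∈ Metric.ball (0 : ℝ × ℝ) Rb) →
      (∀ i x, f i (dp δ x) ≠ 0 → x ∈ D) → (XC D g).Nonempty →
      (∀ x, x ∉ D → |g x| ≤ 2 * ((M + 4 : ℕ) : ℤ) + 1) →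
      (∀ x y, x ∉ D → y ∉ D → Adj x y → |g x - g y| ≤ 2) →
      Ex (XC D g) (fun h => Wt (Yv (-(2 * (M : ℤ) + 3 + 1)) (Zf δ f) (ph δ f) h) ^ (k + 2)) ≤ C₁)
    (hm₂ : ∀ (S : Finset Pt) (η : Hg),
      (∀ i x, dp δ x ∈ Metric.closedBall Q (1 / 64) → x ∈ S ∧ f i (dp δ x) = 0) →
      (∀ x, dp δ x ∈ Metric.closedBall Q (1 / 64) → x ∈ S) →
      (∀ x, |η x| ≤ ((2 * M + 1 : ℕ) : ℤ)) →
      ∫ h in On S (fun x => {η x}),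
        Wt (Yv (-(2 * (M : ℤ) + 3 + 1)) (Zf δ f) (ph δ f) h) ^ (k + 2) ∂(muT P) ≤
        C₂ * (muT P).real (On S fun x => {η x}))
    (hopen : ∀ (V : Set Pt) (x₀ : Fin 3 → Pt) (σ : Fin 3 → ℤ)
      (η l u : Hg) (R s : ℤ) (M k : ℕ) (Z : Finset Pt) (φ : Fin k → Pt → ℝ) (C : ℝ)
      (S : Finset Pt), Ws V x₀ R σ η → SDAR.Bd M η → s₀ ≤ s → A₂ * s ≤ R →
      IsLeast (RINS.Sm V η (2 * M + 3)) l → IsLeast (RINS.Sm V (-η) (2 * M + 3)) (-u) →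
      (∀ x ∈ S, x ∉ V) → (∀ y ∈ ebd V, y ∈ S ∨ ∃ i, ds (x₀ i) y + 1 + (2 * M + 3) ≤ s) →
      (∀ i, ∀ x ∈ Bh i (x₀ i) s R, x ∈ S) →
      ∫ h in On S (fun x => {η x}), Wt (Yv (-(2 * M + 3 + 1)) Z φ h) ^ (k + 2) ∂(muT P) ≤
        C * (muT P).real (On S fun x => {η x}) →
      ∃ Q : Measure Hg, Qk V η (2 * M + 3) l u (Dk V x₀ s) (Dk V x₀ (A₂ * s)) Z φ C ε Q ∧
        ∀ F : Hg → ℝ, LocF F → (∫ h, F h ∂Q) * (muT P).real (On S fun x => {η x}) =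
          ∫ h in On S (fun x => {η x}), F h ∂(muT P))
    (hcore : ∀ (V : Set Pt) (x₀ : Fin 3 → Pt) (σ : Fin 3 → ℤ) (η l u : Hg) (R s : ℤ)
      (Z : Finset Pt) (φ : Fin k → Pt → ℝ) (Q : Measure Hg), Ws V x₀ R σ η → SDAR.Bd M η →
      s₁ ≤ s → T₀ * s ≤ R → (∀ x ∈ Z, x ∈ V ∧ ∀ i, R < ds (x₀ i) x) → (∀ i x, 0 ≤ φ i x) →
      MB (M + 4) V Z (fun h => Wt (Yv (-(2 * M + 3 + 1)) Z φ h) ^ (k + 2)) C →
      IsLeast (RINS.Sm V η (2 * M + 3)) l → IsLeast (RINS.Sm V (-η) (2 * M + 3)) (-u) →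
      Qk V η (2 * M + 3) l u (Dk V x₀ s) (Dk V x₀ (A₂ * s)) Z φ C ε Q →
      |∫ h, ∏ i, Yv (-(2 * M + 3 + 1)) Z φ h i ∂Q -
        Ex (XC V η) (fun h => ∏ i, Yv (-(2 * M + 3 + 1)) Z φ h i)| ≤ e) :
    S.Nonempty ∧ |∫ h, Ys M f δ h * gS S η h ∂(muT P) -
      Ex (Cfg U (exa U η)) (Ys M f δ) * ∫ h, gS S η h ∂(muT P)| ≤ e * ∫ h, gS S η h ∂(muT P) := by
  have hSm : ∀ x, x ∈ S ↔ x ∈ pin b δ w Rp U := fun x => by rw [← H.pin]; rfl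
  have W : Ws U (xc b δ lf) R σ η := ws_mk hδ hbs hlf (by omega) g8 H.dmn H.sg H.win
  have hSU : ∀ x ∈ S, x ∉ U := fun x hx => ((hSm x).1 hx).2.1
  have hebd : ∀ y ∈ ebd U, y ∈ S ∨ ∃ i, ds (xc b δ lf i) y + 1 + (2 * (M : ℤ) + 3) ≤ s := by
    intro y hy
    rcases ebd_pin (lf := lf) hδ (by linarith) hδw H.dmn H.win hRp (by omega) g11 hy with h | ⟨i, hi⟩
    · exact Or.inl ((hSm y).2 h)
    · exact Or.inr ⟨i, by omega⟩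
  have hBh : ∀ i, ∀ x ∈ Bh i (xc b δ lf i) s R, x ∈ S := fun i x hx => (hSm x).2
    (bh_mem hδ hbs hlf g2 g8 hw2 g9 H.dmn H.win hRp g10 hx)
  have hbS : ∀ x, dp δ x ∈ Metric.closedBall Q (1 / 64) → x ∈ S := fun x hx => (hSm x).2
    (ball_pin hδ hbs hδb hw0 hw1 H.dmn hRp (hball _ hx) rfl)
  have hfU : ∀ i x, f i (dp δ x) ≠ 0 → x ∈ U ∧ dp δ x ∈ K := fun i x hx =>
    have h1 : dp δ x ∈ K := hts i (subset_tsupport _ hx)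
    ⟨H.dmn.sub (Or.inl h1), h1⟩
  have hZ : ∀ x ∈ Zf δ f, x ∈ U ∧ ∀ i, R < ds (xc b δ lf i) x := by
    intro x hx
    obtain ⟨i, hi⟩ := mem_Zf hδ hs hc hx
    obtain ⟨h1, h2⟩ := hfU i x hi
    exact ⟨h1, z_far hδ (by omega) g8 hK h2⟩
  have hφ : ∀ i x, 0 ≤ ph δ f i x := fun i x => ph_nonneg hδ hs hc h0 i x
  have hbd : ∀ x, |η x| ≤ ((2 * M + 1 : ℕ) : ℤ) := fun x => by
    have := H.bd.2 x
    push_cast
    exact this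
  have hMB : MB (M + 4) U (Zf δ f)
      (fun h => Wt (Yv (-(2 * (M : ℤ) + 3 + 1)) (Zf δ f) (ph δ f) h) ^ (k + 2)) C := by
    intro D g hD hZD hne hb hlip
    exact (hm₁ D g (fun x hx => H.dmn.bdd x (hD hx))
      (fun i x hx => hZD (zf_mem hδ hs hc hx)) hne hb hlip).trans hC1
  have hmo := hm₂ S η (fun i x hx => ⟨hbS x hx, by
      by_contra h
      exact hSU x (hbS x hx) (hfU i x h).1⟩) hbS hbd
  have hpos : 0 ≤ (muT P).real (On S fun x => {η x}) := measureReal_nonneg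
  have hmo' := hmo.trans (mul_le_mul_of_nonneg_right hC2 hpos)
  have hne1 : (RINS.Sm U η (2 * M + 3)).Nonempty :=
    ⟨η, sm_self H.bd.1 fun x => (H.bd.2 x).trans (by omega)⟩
  have hne2 : (RINS.Sm U (-η) (2 * M + 3)).Nonempty :=
    ⟨-η, sm_self (neg_lip H.bd.1) fun x => by
      rw [Pi.neg_apply, abs_neg]
      exact (H.bd.2 x).trans (by omega)⟩
  obtain ⟨lo, hlo⟩ := exists_least W.fin hne1
  obtain ⟨v, hv⟩ := exists_least W.fin hne2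
  have hup : IsLeast (RINS.Sm U (-η) (2 * M + 3)) (- -v) := by rwa [neg_neg]
  obtain ⟨Qm, hQm, hQi⟩ := hopen U (xc b δ lf) σ η lo (-v) R s M k (Zf δ f) (ph δ f) C S W H.bd
    (by omega) g7 hlo hup hSU hebd hBh hmo'
  have key := hcore U (xc b δ lf) σ η lo (-v) R s (Zf δ f) (ph δ f) Qm W H.bd (by omega) g6 hZ hφ
    hMB hlo hup hQm
  have hSne : S.Nonempty := by
    obtain ⟨p, hp⟩ := exists_near hδ Q
    exact ⟨p, hbS p (Metric.mem_closedBall.2 (hp.trans hδ2))⟩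
  refine ⟨hSne, ?_⟩
  have h2 := hQi (Ys M f δ) (wt_locF δ f _ (G := fun y => ∏ i, y i))
  rw [gS_int, gS_int_one, ← h2, ← sub_mul, abs_mul, abs_of_nonneg hpos]
  exact mul_le_mul_of_nonneg_right key hpos

end Vale.Agent.P153.R2.Gp
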