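import Vale.Agent.P153.R2.GAPS.Gap

/-!
P153-R2, block GAPS (helper681), file 15: a law with the Gibbs property off the half boxes is close
to the closed law.
-/

namespace Vale.Agent.P153.R2.Gp

open Set Relation MeasureTheory Vale.Agent.P153
open Vale.Agent.P153.Topo (Conn)
open Vale.Agent.P153.R2.LOC (ds ds_adj mem_bx_iff NO)
open Vale.Agent.P153.R2.SDAR (vv conn_seg)
open Vale.Agent.P153.R2.RINS

variable {V : Set Pt} {x₀ : Fin 3 → Pt} {R a : ℤ} {σ : Fin 3 → ℤ} {η l l' l'' u u' ω h g : Hg}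
  {m : ℤ} {k M : ℕ} {Z : Finset Pt} {φ : Fin k → Pt → ℝ} {C γ ε : ℝ} {Q : Measure Hg}

/-- The extremal extensions. -/
structure Ls (V : Set Pt) (η : Hg) (M : ℕ) (l l' l'' u u' : Hg) : Prop where
  hl : IsLeast (Sm V η (2 * M + 3)) l
  hl' : IsLeast (Sm V η (2 * M + 3 + 2)) l'
  hl'' : IsLeast (Sm V η (2 * M + 3 + 2 + 2)) l''
  hu : IsLeast (Sm V (-η) (2 * M + 3)) (-u)
  hu' : IsLeast (Sm V (-η) (2 * M + 3 + 2)) (-u')

theorem exists_ls (hV : V.Finite) (hη : SDAR.Bd M η) (hl : IsLeast (Sm V η (2 * M + 3)) l)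
    (hu : IsLeast (Sm V (-η) (2 * M + 3)) (-u)) : ∃ l' l'' u', Ls V η M l l' l'' u u' := by
  have h1 : ∀ n : ℤ, 2 * M + 1 ≤ n → (Sm V η n).Nonempty := fun n hn =>
    ⟨η, sm_self hη.1 fun x => (hη.2 x).trans hn⟩
  have h2 : ∀ n : ℤ, 2 * M + 1 ≤ n → (Sm V (-η) n).Nonempty := fun n hn =>
    ⟨-η, sm_self (neg_lip hη.1) fun x => by
      rw [Pi.neg_apply, abs_neg]
      exact (hη.2 x).trans hn⟩
  obtain ⟨l', hl'⟩ := exists_least hV (h1 (2 * M + 3 + 2) (by omega))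
  obtain ⟨l'', hl''⟩ := exists_least hV (h1 (2 * M + 3 + 2 + 2) (by omega))
  obtain ⟨v, hv⟩ := exists_least hV (h2 (2 * M + 3 + 2) (by omega))
  exact ⟨l', l'', -v, hl, hl', hl'', hu, by rwa [neg_neg]⟩

theorem dk_dom3 (W : Ws V x₀ R σ η) {a₁ a₂ a₃ : ℤ} (h12 : a₁ ≤ a₂) (h23 : a₂ < a₃)
    (h3 : a₃ ≤ R + 1) : Dom3 V (Dk V x₀ a₁) (Dk V x₀ a₂) (Dk V x₀ a₃) := by
  refine ⟨dk_subV, dk_sub h12, fun x hx hxV => ?_⟩
  rcases hx with hx | hx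
  · exact dk_sub h23.le hx
  · refine ⟨hxV, fun h1 => ?_⟩
    obtain ⟨i, hi⟩ := mem_Hb.1 h1
    have := ebd_far W h3 hx i
    have := hi.2.1
    omega

theorem z_dk (hZ : ∀ x ∈ Z, x ∈ V ∧ ∀ i, R < ds (x₀ i) x) (haR : a ≤ R) :
    (Z : Set Pt) ⊆ Dk V x₀ a := fun x hx => ⟨(hZ x hx).1, fun h1 => by
  obtain ⟨i, hi⟩ := mem_Hb.1 h1
  have := (hZ x hx).2 i
  have := hi.2.1
  omega⟩

theorem pk_mk (W : Ws V x₀ R σ η) (hη : SDAR.Bd M η) (L : Ls V η M l l' l'' u u') {a₁ a₂ a₃ : ℤ}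
    (h12 : a₁ ≤ a₂) (h23 : a₂ < a₃) (h3R : a₃ ≤ R)
    (hZ : ∀ x ∈ Z, x ∈ V ∧ ∀ i, R < ds (x₀ i) x) (hφ : ∀ i x, 0 ≤ φ i x)
    (hmb : MB (M + 4) V Z (fun h => Wt (Yv (-(2 * M + 3 + 1)) Z φ h) ^ (k + 2)) C)
    (hgap : ∀ i, Ex (XC (Dk V x₀ a₃) u') (fun h => Yv (-(2 * M + 3 + 1)) Z φ h i) -
      Ex (XC (Dk V x₀ a₃) l'') (fun h => Yv (-(2 * M + 3 + 1)) Z φ h i) ≤ γ) :
    Pk V η (2 * M + 3) l l' l'' u u' (Dk V x₀ a₁) (Dk V x₀ a₂) (Dk V x₀ a₃) Z φ C γ := by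
  have hmo : Odd (2 * (M : ℤ) + 3) := ⟨M + 1, by ring⟩
  have hmo' : Odd (2 * (M : ℤ) + 3 + 2) := ⟨M + 2, by ring⟩
  have hZD := z_dk (V := V) (x₀ := x₀) (a := a₃) hZ h3R
  have b0 : ∀ n : ℤ, 2 * M + 1 ≤ n → ∀ x, |η x| ≤ n := fun n hn x => (hη.2 x).trans hn
  have b1 : ∀ n : ℤ, 2 * M + 1 ≤ n → ∀ x, |(-η) x| ≤ n := fun n hn x => by
    rw [Pi.neg_apply, abs_neg]
    exact b0 n hn x
  have uL : Lip u' := by
    have := neg_lip (sm_lip (neg_lip hη.1) L.hu'.1)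
    rwa [neg_neg] at this
  have uB : ∀ x, |u' x| ≤ 2 * M + 3 + 2 := fun x => by
    have := sm_bd L.hu'.1 (b1 _ (by omega)) x
    rwa [Pi.neg_apply, abs_neg] at this
  refine ⟨⟨W.fin, hmo, by omega, fun x _ => b0 _ (by omega) x, L.hl, L.hl'⟩,
    ⟨W.fin, hmo', by omega, fun x _ => b0 _ (by omega) x, L.hl', L.hl''⟩,
    ⟨W.fin, hmo, by omega, fun x _ => b1 _ (by omega) x, L.hu, L.hu'⟩,
    dk_dom3 W h12 h23 (by omega), dk_subV, fun x hx => hZD hx, fun i x _ => hφ i x,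
    fun D hD hD1 => ?_, fun D hD hD1 => ?_, ?_, ?_, hgap⟩
  · exact hmb.lip (hD1.trans dk_subV) (hZD.trans hD) (sm_lip hη.1 L.hl.1) fun x =>
      (sm_bd L.hl.1 (b0 _ (by omega)) x).trans (by push_cast; omega)
  · exact hmb.lip (hD1.trans dk_subV) (hZD.trans hD) (sm_lip hη.1 L.hl'.1) fun x =>
      (sm_bd L.hl'.1 (b0 _ (by omega)) x).trans (by push_cast; omega)
  · exact hmb.lip dk_subV hZD (sm_lip hη.1 L.hl''.1) fun x =>
      (sm_bd L.hl''.1 (b0 _ (by omega)) x).trans (by push_cast; omega)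
  · exact hmb.lip dk_subV hZD uL fun x => (uB x).trans (by push_cast; omega)

/-- Boundary values of the closed law. -/
theorem bdy_closed {D₁ : Set Pt} (hmo : Odd m) (hD : D₁ ⊆ V) (hl : IsLeast (Sm V η m) l)
    (hu : IsLeast (Sm V (-η) m) (-u)) (hω : ω ∈ XC V η) : Bdy V D₁ η m l u ω := by
  have h1 := mem_XC.1 hω
  have hoff : ∀ y, y ∉ V → u y = η y := fun y hy => by
    have := IsLeast.off hu hy
    rw [Pi.neg_apply, Pi.neg_apply] at this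
    linarith
  refine ⟨h1.1, h1.2.2.mono hD, fun y _ hyV => h1.2.1 y hyV, fun y _ => ?_, fun y _ => ?_⟩
  · by_cases hyV : y ∈ V
    · refine least_le hmo hl subset_rfl h1.1 h1.2.2 (fun z hz => ?_) hyV
      rw [IsLeast.off hl hz.1, h1.2.1 z hz.1]
    · rw [IsLeast.off hl hyV, h1.2.1 y hyV]
      exact le_max_left _ _
  · by_cases hyV : y ∈ V
    · have h2 := least_le (h := -ω) hmo hu subset_rfl (fun x => (h1.1 x).neg) h1.2.2.neg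
        (fun z hz => by
          rw [IsLeast.off hu hz.1, Pi.neg_apply, Pi.neg_apply, h1.2.1 z hz.1]) hyV
      rw [Pi.neg_apply, Pi.neg_apply, max_neg_neg] at h2
      linarith
    · rw [hoff y hyV, h1.2.1 y hyV]
      exact min_le_left _ _

theorem gd_mono {ℓ : ℤ} {D₁ D₂ D₂' : Set Pt} (h : D₂' ⊆ D₂) : gd ℓ V D₁ D₂ ⊆ gd ℓ V D₁ D₂' :=
  fun _ hg x hx hx' => hg x hx (h hx')

theorem Wt_sq {y : Fin k → ℝ} (i : Fin k) : y i ^ 2 ≤ Wt y ^ (k + 2) := by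
  have h1 := abs_le_Wt y i
  calc y i ^ 2 = |y i| ^ 2 := (sq_abs _).symm
    _ ≤ Wt y ^ 2 := pow_le_pow_left₀ (abs_nonneg _) h1 2
    _ ≤ _ := Wt_le_pow y (by omega)

/-- **CORE.** -/
theorem core (hS : ∀ j, LOC.S_land (j + 1)) (M k : ℕ) {C e : ℝ} (hC : 0 ≤ C) (he : 0 < e) :
    ∃ ε : ℝ, 0 < ε ∧ ∀ A₂ : ℤ, 1 ≤ A₂ → ∃ T₀ : ℤ, 1 ≤ T₀ ∧ ∃ s₁ : ℤ, 1 ≤ s₁ ∧
      ∀ (V : Set Pt) (x₀ : Fin 3 → Pt) (σ : Fin 3 → ℤ) (η l u : Hg) (R s : ℤ) (Z : Finset Pt)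
      (φ : Fin k → Pt → ℝ) (Q : Measure Hg), Ws V x₀ R σ η → SDAR.Bd M η → s₁ ≤ s → T₀ * s ≤ R →
      (∀ x ∈ Z, x ∈ V ∧ ∀ i, R < ds (x₀ i) x) → (∀ i x, 0 ≤ φ i x) →
      MB (M + 4) V Z (fun h => Wt (Yv (-(2 * M + 3 + 1)) Z φ h) ^ (k + 2)) C →
      IsLeast (Sm V η (2 * M + 3)) l → IsLeast (Sm V (-η) (2 * M + 3)) (-u) →
      Qk V η (2 * M + 3) l u (Dk V x₀ s) (Dk V x₀ (A₂ * s)) Z φ C ε Q →
      |∫ h, ∏ i, Yv (-(2 * M + 3 + 1)) Z φ h i ∂Q -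
        Ex (XC V η) (fun h => ∏ i, Yv (-(2 * M + 3 + 1)) Z φ h i)| ≤ e := by
  obtain ⟨K, L, t, hK, hL, ht, her⟩ := er_small k hC (half_pos he)
  obtain ⟨t₁, ht₁, ρ₁, hρ₁, hcr⟩ := closed_cross hS (2 * M + 3) (ε := t / 3) (by positivity)
  obtain ⟨t₂, ht₂, ρ₂, hρ₂, hgp⟩ := gap_le hS M hC ht
  refine ⟨t, ht, fun A₂ hA₂ => ?_⟩
  set A : ℤ := A₂ + (2 * t₁ + 3) with hA
  set A₄ : ℤ := t₁ * (A + 2) + (A + 3) with hA₄
  have hAA₄ : A + 3 ≤ A₄ := by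
    have : 0 ≤ t₁ * (A + 2) := by positivity
    omega
  refine ⟨(t₂ + 1) * (A₄ + 3) + (2 * M + 9), by nlinarith, max ρ₁ ρ₂, le_max_of_le_left hρ₁,
    fun V x₀ σ η l u R s Z φ Q W hη hs hR hZ hφ hmb hl hu hQ => ?_⟩
  have hs1 : ρ₁ ≤ s := (le_max_left _ _).trans hs
  have hs2 : ρ₂ ≤ s := (le_max_right _ _).trans hs
  have hs0 : 1 ≤ s := hρ₁.trans hs1
  obtain ⟨l', l'', u', Lz⟩ := exists_ls W.fin hη hl hu
  -- the radii
  set a₂ : ℤ := A * s with ha₂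
  set a₃ : ℤ := (A + 1) * s with ha₃
  set a₄ : ℤ := A₄ * s with ha₄
  set a₅ : ℤ := (A₄ + 1) * s with ha₅
  have e3 : a₃ = a₂ + s := by rw [ha₃, ha₂]; ring
  have e5 : a₅ = a₄ + s := by rw [ha₅, ha₄]; ring
  have f2 : 5 * s ≤ a₂ := by
    rw [ha₂]
    exact mul_le_mul_of_nonneg_right (by omega) (by omega)
  have f2' : A₂ * s ≤ a₂ := mul_le_mul_of_nonneg_right (by omega) (by omega)
  have f2'' : t₁ * (s + 1) ≤ a₂ := by
    have h1 : (2 * t₁) * s ≤ A * s := mul_le_mul_of_nonneg_right (by omega) (by omega)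
    nlinarith
  have f4 : a₃ + 2 * s ≤ a₄ := by
    have h1 : (A + 3) * s ≤ A₄ * s := mul_le_mul_of_nonneg_right hAA₄ (by omega)
    rw [ha₃, ha₄]
    linarith
  have f4' : t₁ * (a₃ + 1) ≤ a₄ := by
    have h1 : t₁ * (a₃ + 1) ≤ t₁ * ((A + 2) * s) := by
      refine mul_le_mul_of_nonneg_left ?_ (by omega)
      rw [ha₃]; linarith
    have h2 : t₁ * ((A + 2) * s) ≤ A₄ * s := by
      have : 0 ≤ (A + 3) * s := by nlinarith
      rw [hA₄]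
      linarith
    exact h1.trans h2
  have f5 : a₅ + 1 < R ∧ t₂ * (a₅ + 1) ≤ R ∧ a₅ + 2 * M + 8 ≤ R := by
    have h0 : a₅ + 1 ≤ (A₄ + 2) * s := by rw [ha₅]; linarith
    have h00 : 0 ≤ (A₄ + 3) * s := by nlinarith
    have h1 : t₂ * (a₅ + 1) ≤ t₂ * ((A₄ + 3) * s) :=
      mul_le_mul_of_nonneg_left (by linarith) (by omega)
    have h2 : 0 ≤ t₂ * ((A₄ + 3) * s) := by positivity
    have h3 : 2 * (M : ℤ) + 9 ≤ (2 * M + 9) * s := by nlinarith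
    have h4 : ((t₂ + 1) * (A₄ + 3) + (2 * M + 9)) * s =
      t₂ * ((A₄ + 3) * s) + (A₄ + 2) * s + s + (2 * M + 9) * s := by ring
    rw [h4] at hR
    have h5 : 0 ≤ (A₄ + 2) * s := by nlinarith
    refine ⟨by omega, ?_, by omega⟩
    have h6 : t₂ * ((A₄ + 3) * s) ≤ R := by omega
    exact h1.trans h6
  have f3 : t₂ * (a₃ + 1) ≤ R :=
    (mul_le_mul_of_nonneg_left (by omega) (by omega)).trans f5.2.1
  have b0 : ∀ x, |η x| ≤ 2 * M + 3 := fun x => (hη.2 x).trans (by omega)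
  have lL : Lip l := sm_lip hη.1 hl.1
  -- the packages
  have hYmb : ∀ i, MB (M + 4) V Z (fun h => Yv (-(2 * M + 3 + 1)) Z φ h i ^ 2) C := fun i =>
    hmb.mono fun h => Wt_sq i
  have hl7 : IsLeast (Sm V η (2 * M + 7)) l'' := by
    have := Lz.hl''
    rwa [show (2 * (M : ℤ) + 3 + 2 + 2) = 2 * M + 7 by ring] at this
  have hu5 : IsLeast (Sm V (-η) (2 * M + 5)) (-u') := by
    have := Lz.hu'
    rwa [show (2 * (M : ℤ) + 3 + 2) = 2 * M + 5 by ring] at this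
  have hgap : ∀ a, 0 ≤ a → ρ₂ ≤ a + 1 → a + 1 < R → t₂ * (a + 1) ≤ R → a + 2 * M + 8 ≤ R →
      ∀ i, Ex (XC (Dk V x₀ a) u') (fun h => Yv (-(2 * M + 3 + 1)) Z φ h i) -
        Ex (XC (Dk V x₀ a) l'') (fun h => Yv (-(2 * M + 3 + 1)) Z φ h i) ≤ t :=
    fun a h0 h1 h2 h3 h4 i => hgp V Z x₀ σ η l'' u' a R W hη hl7 hu5 h0 h1 h2 h3 h4 hZ _
      (Yv_dep_comp fun y => y i) (Yv_mono (fun i x _ => hφ i x) i) (hYmb i)
  have p1 := pk_mk (a₁ := s) (a₂ := a₂) (a₃ := a₃) W hη Lz (by omega) (by omega) (by omega) hZ hφ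
    hmb (hgap a₃ (by omega) (by omega) (by omega) f3 (by omega))
  have p2 := pk_mk (a₁ := a₃) (a₂ := a₄) (a₃ := a₅) W hη Lz (by omega) (by omega) (by omega) hZ hφ
    hmb (hgap a₅ (by omega) (by omega) f5.1 f5.2.1 f5.2.2)
  -- crossings under `l`
  have hl0 := hcr V x₀ σ η l s a₃ a₄ R (-(2 * M + 3 + 2)) W ⟨l, lip_mem lL⟩ (by omega) (by omega)
    (by omega) (by omega) f4' (by omega) (fun y hy => IsLeast.off hl hy)
    (fun y _ => sm_bd hl.1 b0 y) (by omega)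
  have e0 : 3 * (t / 3) = t := by ring
  rw [e0] at hl0
  -- the given law
  have q : Qk V η (2 * M + 3) l u (Dk V x₀ s) (Dk V x₀ a₂) Z φ C t Q := by
    have hprob := hQ.G.prob
    refine ⟨hQ.G, hQ.int, hQ.mom, (measureReal_mono ?_).trans hQ.low,
      (measureReal_mono ?_).trans hQ.up⟩
    · intro h hh hg
      exact hh (gd_mono (dk_sub f2') hg)
    · intro h hh hg
      exact hh (gd_mono (dk_sub f2') hg)
  have c1 := compare p1 p2 hl0.1 hl0.2 q ht.le hK hL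
  -- the closed law
  have hηne : (XC V η).Nonempty := ⟨η, lip_mem hη.1⟩
  obtain ⟨Q', hQ', hae, hint, hPr⟩ := exists_ulaw (XC_finite W.fin η) hηne
  have hV0 : Dk V x₀ 0 = V := dk_zero
  have hl1 := hcr V x₀ σ η η 0 s a₂ R (-(2 * M + 3 + 2)) W (by rw [hV0]; exact hηne) le_rfl
    (by omega) (by omega) (by omega) f2'' (by omega) (fun y hy => rfl)
    (fun y _ => b0 y) (by omega)
  rw [e0, hV0] at hl1
  have hmo : Odd (2 * (M : ℤ) + 3) := ⟨M + 1, by ring⟩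
  have q' : Qk V η (2 * M + 3) l u (Dk V x₀ s) (Dk V x₀ a₂) Z φ C t Q' := by
    refine ⟨gib_ulaw W.fin dk_subV hae hint fun ω hω => bdy_closed hmo dk_subV hl hu hω,
      (hint _).1, ?_, ?_, ?_⟩
    · rw [(hint _).2]
      refine hmb V η subset_rfl (fun x hx => (hZ x hx).1) hηne (fun x _ => ?_)
        fun x y _ _ hxy => hη.1.2 x y hxy
      have := hη.2 x
      push_cast
      linarith
    · rw [hPr _ (Pk.meas_gd W.fin dk_subV)]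
      exact hl1.1
    · rw [hPr _ (Pk.meas_gdU W.fin dk_subV)]
      exact hl1.2
  have c2 := compare p1 p2 hl0.1 hl0.2 q' ht.le hK hL
  rw [(hint _).2] at c2
  have h3 := her t t ht.le le_rfl ht.le le_rfl
  have h4 := abs_le.1 (c1.trans h3)
  have h5 := abs_le.1 (c2.trans h3)
  rw [abs_le]
  constructor <;> linarith

end Vale.Agent.P153.R2.Gp
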