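import Vale.Agent.P153.R2.GAPS.Holley

/-!
P153-R2, block GAPS (helper681), part (C), file 2: one-sided circuits for the measure `muT P`
conditioned on bounded data on a finite set which contains a small annulus.
-/

namespace Vale.Agent.P153.R2.Gp

open Finset MeasureTheory Filter Topology Relation Vale.Agent.P153 Vale.Agent.P153.F
  Vale.Agent.P153.F.Gh Vale.Agent.P153.F.X Vale.Agent.P153.F.X.LE
open Vale.Agent.P153.GFF (Ht Pat hexa LocLim)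
open Vale.Agent.P153.Topo (Conn)

/-- The box `bx p r` is joined to the complement of the box `bx p R` in `K`. -/
def Esc (K : Set Pt) (p : Pt) (r R : ℤ) : Prop :=
  ∃ x ∈ F.X.bx p r, ∃ y, y ∉ F.X.bx p R ∧ Conn K x y

/-- All the edges with both ends in `S` are in `B`, and every vertex of `S` is on an edge of `B`. -/
def ClS (S : Finset Pt) (B : Set Pt) : Prop :=
  (∀ x ∈ S, ∃ y, Adj x y ∧ x + y ∈ B) ∧ ∀ x ∈ S, ∀ y ∈ S, Adj x y → x + y ∈ B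

theorem Esc.mono {K K' : Set Pt} (h : K ⊆ K') {p : Pt} {r R : ℤ} (hE : Esc K p r R) :
    Esc K' p r R := by
  obtain ⟨x, hx, y, hy, h1⟩ := hE
  exact ⟨x, hx, y, hy, h1.mono h⟩

theorem bx_mono {p : Pt} {r r' : ℤ} (h : r ≤ r') : F.X.bx p r ⊆ F.X.bx p r' := by
  rintro f ⟨h1, h2⟩
  exact ⟨h1.trans h, h2.trans h⟩

theorem bx_step {p x y : Pt} {r : ℤ} (hx : x ∈ F.X.bx p r) (h : Adj x y) :
    y ∈ F.X.bx p (r + 1) := by
  obtain ⟨h1, h2⟩ := hx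
  have h3 := adj_cases h
  rw [abs_le] at h1 h2
  refine ⟨?_, ?_⟩ <;> rw [abs_le] <;> omega

/-- Escape within the next larger box. -/
theorem esc_loc {K : Set Pt} {p : Pt} {r R : ℤ} (hr : r ≤ R) (hE : Esc K p r R) :
    Esc (K ∩ F.X.bx p (R + 1)) p r R := by
  obtain ⟨x, hx, y, hy, hxy⟩ := hE
  have key : ∀ z, Conn K x z →
      Conn (K ∩ F.X.bx p (R + 1)) x z ∨ ∃ w, w ∉ F.X.bx p R ∧ Conn (K ∩ F.X.bx p (R + 1)) x w := by
    intro z hz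
    refine hz.ind (fun z => Conn (K ∩ F.X.bx p (R + 1)) x z ∨
      ∃ w, w ∉ F.X.bx p R ∧ Conn (K ∩ F.X.bx p (R + 1)) x w) ?_ ?_
    · exact Or.inl (Conn.refl ⟨hz.left_mem, bx_mono (by omega) hx⟩)
    · rintro u v hu huv hv (h1 | h1)
      · by_cases h2 : u ∈ F.X.bx p R
        · exact Or.inl (h1.tail huv ⟨hv, bx_step h2 huv⟩)
        · exact Or.inr ⟨u, h2, h1⟩
      · exact Or.inr h1
  rcases key y hxy with h1 | ⟨w, hw, h1⟩
  · exact ⟨x, hx, y, hy, h1⟩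
  · exact ⟨x, hx, w, hw, h1⟩

theorem esc_iff {K : Set Pt} {p : Pt} {r R : ℤ} (hr : r ≤ R) :
    Esc K p r R ↔ Esc (K ∩ F.X.bx p (R + 1)) p r R :=
  ⟨esc_loc hr, Esc.mono Set.inter_subset_left⟩

theorem exists_bx_sub (p : Pt) (r : ℤ) : ∃ L : ℕ, ∀ x ∈ F.X.bx p r, x ∈ bL L := by
  refine ⟨(|p.1| + |p.2| + |r|).toNat, fun x hx => ?_⟩
  obtain ⟨h1, h2⟩ := hx
  rw [mem_bL]
  rw [abs_le] at h1 h2
  have h3 := abs_le.1 (le_refl |p.1|)
  have h4 := abs_le.1 (le_refl |p.2|)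
  have h5 := abs_le.1 (le_refl |r|)
  have h6 : 0 ≤ |p.1| := abs_nonneg _
  have h7 : 0 ≤ |p.2| := abs_nonneg _
  omega

/-- The escape of `{h ∈ T}` is a local event. -/
theorem dep_esc {p : Pt} {r R : ℤ} (hr : r ≤ R) {L : ℕ} (hL : ∀ x ∈ F.X.bx p (R + 1), x ∈ bL L)
    (T : Set ℤ) : DepS L {h | Esc {x | h x ∈ T} p r R} := by
  intro h h' hh
  have e : {x | h x ∈ T} ∩ F.X.bx p (R + 1) = {x | h' x ∈ T} ∩ F.X.bx p (R + 1) := by
    ext x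
    constructor
    · rintro ⟨h1, h2⟩
      refine ⟨?_, h2⟩
      show h' x ∈ T
      rw [← hh x (hL x h2)]
      exact h1
    · rintro ⟨h1, h2⟩
      refine ⟨?_, h2⟩
      show h x ∈ T
      rw [hh x (hL x h2)]
      exact h1
  show Esc _ p r R ↔ Esc _ p r R
  rw [esc_iff hr, e, ← esc_iff hr]

theorem mem_bl {h : Hg} {x y : Pt} (hxy : Adj x y) :
    x + y ∈ bl h ↔ |h x| = 1 ∧ |h y| = 1 := by
  constructor
  · rintro ⟨x', y', h1, h2, h3, h4⟩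
    rcases edge_eq hxy h1 h2 with ⟨rfl, rfl⟩ | ⟨rfl, rfl⟩
    · exact ⟨h3, h4⟩
    · exact ⟨h4, h3⟩
  · rintro ⟨h1, h2⟩
    exact ⟨x, y, hxy, rfl, h1, h2⟩

/-- The closed event. -/
theorem cls_bl {S : Finset Pt} {h : Hg} : ClS S (bl h) ↔
    (∀ x ∈ S, |h x| = 1) ∧ ∀ x ∈ S, ∃ y, Adj x y ∧ |h y| = 1 := by
  constructor
  · rintro ⟨h1, h2⟩
    refine ⟨fun x hx => ?_, fun x hx => ?_⟩
    · obtain ⟨y, hy, h3⟩ := h1 x hx
      exact ((mem_bl hy).1 h3).1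
    · obtain ⟨y, hy, h3⟩ := h1 x hx
      exact ⟨y, hy, ((mem_bl hy).1 h3).2⟩
  · rintro ⟨h1, h2⟩
    refine ⟨fun x hx => ?_, fun x hx y hy hxy => ?_⟩
    · obtain ⟨y, hy, h3⟩ := h2 x hx
      exact ⟨y, hy, (mem_bl hy).2 ⟨h1 x hx, h3⟩⟩
    · exact (mem_bl hxy).2 ⟨h1 x hx, h1 y hy⟩

open Classical in
theorem ind_one {Q : Set Pt → Prop} {B : Set Pt} (h : Q B) : F.X.ind Q B = 1 := if_pos h

open Classical in
theorem ind_zero {Q : Set Pt → Prop} {B : Set Pt} (h : ¬ Q B) : F.X.ind Q B = 0 := if_neg h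

theorem ind_ne {Q : Set Pt → Prop} {B : Set Pt} (h : F.X.ind Q B ≠ 0) : Q B := by
  by_contra hcon
  exact h (ind_zero hcon)

theorem ind_nonneg' (Q : Set Pt → Prop) (B : Set Pt) : 0 ≤ F.X.ind Q B := by
  by_cases h : Q B
  · rw [ind_one h]; exact zero_le_one
  · rw [ind_zero h]

theorem ind_mono' {Q : Set Pt → Prop} (h : ∀ B B' : Set Pt, B ⊆ B' → Q B → Q B') :
    Monotone (F.X.ind Q) := by
  intro B B' hBB
  by_cases h1 : Q B
  · rw [ind_one h1, ind_one (h B B' hBB h1)]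
  · rw [ind_zero h1]; exact ind_nonneg' _ _

theorem cls_mono {S : Finset Pt} {B B' : Set Pt} (h : B ⊆ B') (hB : ClS S B) : ClS S B' :=
  ⟨fun x hx => by
    obtain ⟨y, hy, h1⟩ := hB.1 x hx
    exact ⟨y, hy, h h1⟩, fun x hx y hy hxy => h (hB.2 x hx y hy hxy)⟩

/-- The neighbours. -/
noncomputable def nei (x : Pt) : Finset Pt :=
  (Finset.Icc (x.1 - 1) (x.1 + 1)) ×ˢ (Finset.Icc (x.2 - 1) (x.2 + 1))

theorem mem_nei {x y : Pt} (h : Adj x y) : y ∈ nei x := by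
  have h3 := adj_cases h
  unfold nei
  rw [Finset.mem_product, Finset.mem_Icc, Finset.mem_Icc]
  omega

theorem fn_cls {S : Finset Pt} (hS : S.Nonempty) : Fn Set.univ (F.X.ind (ClS S)) := by
  classical
  refine ⟨ind_nonneg' _, ⟨S.biUnion fun x => (nei x).image fun y => x + y, fun _ _ => Set.mem_univ _,
    fun B B' hB => ?_⟩, ?_⟩
  · have hw : ∀ x ∈ S, ∀ y, Adj x y → (x + y ∈ B ↔ x + y ∈ B') := fun x hx y hxy =>
      hB _ (Finset.mem_biUnion.2 ⟨x, hx, Finset.mem_image.2 ⟨y, mem_nei hxy, rfl⟩⟩)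
    have e : ClS S B ↔ ClS S B' := by
      refine and_congr (forall_congr' fun x => forall_congr' fun hx => exists_congr fun y =>
        and_congr_right fun hxy => hw x hx y hxy) ?_
      exact forall_congr' fun x => forall_congr' fun hx => forall_congr' fun y =>
        forall_congr' fun _ => forall_congr' fun hxy => hw x hx y hxy
    by_cases h1 : ClS S B
    · rw [ind_one h1, ind_one (e.1 h1)]
    · rw [ind_zero h1, ind_zero fun h2 => h1 (e.2 h2)]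
  · refine ind_zero fun h => ?_
    obtain ⟨x, hx⟩ := hS
    obtain ⟨y, -, h1⟩ := h.1 x hx
    exact h1

/-- A closed annulus contains a circuit. -/
theorem exists_zr {P : Measure (Pt → ℤ)} (hR : S_rsw P) (hL : S_loc) :
    ∃ r₀ : ℤ, 1 ≤ r₀ ∧ ∀ r, r₀ ≤ r → ∀ (p : Pt) (B : Set Pt),
      (∀ x y, Adj x y → x ∈ F.X.bx p (2 * r) → y ∈ F.X.bx p (2 * r) →
        ¬ (x ∈ F.X.bx p (r - 1) ∧ y ∈ F.X.bx p (r - 1)) → x + y ∈ B) → Zr p r B := by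
  obtain ⟨c₁, hc₁, r₀, hr₀, hr⟩ := hR
  refine ⟨r₀, hr₀, fun r hr1 p B hB => ?_⟩
  obtain ⟨hm, hfn⟩ := hL p r (hr₀.trans hr1)
  obtain ⟨B0, hB0⟩ : ∃ B0, Zr p r B0 := by
    by_contra hcon
    push Not at hcon
    have h1 := (hr r hr1 p).1
    have h2 : II P (F.X.ind (Zr p r)) (fun _ => 1) = 0 := by
      unfold II
      simp only [ind_zero (hcon _), zero_mul, integral_zero]
    rw [h2] at h1
    exact absurd h1 (not_le.2 hc₁)
  obtain ⟨Λ, hΛ, h3⟩ := hfn.loc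
  set E : Set Pt := {w | w ∈ iE (F.X.bx p (2 * r)) ∧ w ∉ iE (F.X.bx p (r - 1))} with hE
  have h4 : F.X.ind (Zr p r) (B0 ∩ E) = F.X.ind (Zr p r) B0 := h3 _ _ fun w hw =>
    ⟨fun h => h.1, fun h => ⟨h, hΛ w hw⟩⟩
  have h5 : B0 ∩ E ⊆ B := by
    rintro w ⟨-, ⟨x, hx, y, hy, hxy, rfl⟩, h6⟩
    refine hB x y hxy hx hy ?_
    rintro ⟨h7, h8⟩
    exact h6 ⟨x, h7, y, h8, hxy, rfl⟩
  have h6 := hm h5
  rw [h4, ind_one hB0] at h6
  by_contra hcon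
  rw [ind_zero hcon] at h6
  exact absurd h6 (not_le.2 zero_lt_one)

theorem zr_of_cls {S : Finset Pt} {B : Set Pt} (hB : ClS S B) {p : Pt} {r : ℤ}
    (hS : ∀ x, x ∈ F.X.bx p (2 * r) → x ∉ F.X.bx p (r - 2) → x ∈ S) :
    ∀ x y, Adj x y → x ∈ F.X.bx p (2 * r) → y ∈ F.X.bx p (2 * r) →
        ¬ (x ∈ F.X.bx p (r - 1) ∧ y ∈ F.X.bx p (r - 1)) → x + y ∈ B := by
  intro x y hxy hx hy h
  have hx2 : x ∉ F.X.bx p (r - 2) := fun h1 =>
    h ⟨bx_mono (by omega) h1, by have := bx_step h1 hxy; rwa [show r - 2 + 1 = r - 1 by ring] at this⟩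
  have hy2 : y ∉ F.X.bx p (r - 2) := fun h1 =>
    h ⟨by have := bx_step h1 hxy.symm; rwa [show r - 2 + 1 = r - 1 by ring] at this,
      bx_mono (by omega) h1⟩
  exact hB.2 x (hS x hx hx2) y (hS y hy hy2) hxy

/-- A closed circuit stops the open paths. -/
theorem not_esc {h : Hg} {p : Pt} {ρ r R : ℤ} (hF : S_conf) (hρ : 1 ≤ ρ) (hz : Zr p ρ (bl h))
    (h1 : r ≤ ρ) (h2 : 2 * ρ ≤ R) {T : Set ℤ} (hT : ∀ a ∈ T, |a| ≠ 1) :
    ¬ Esc {x | h x ∈ T} p r R := by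
  rintro ⟨x, hx, y, hy, hxy⟩
  apply hy
  refine bx_mono h2 (hF p ρ (bl h) hρ hz x (bx_mono h1 hx) y ?_)
  refine ReflTransGen.mono ?_ _ _ (?_ : ReflTransGen (fun u v => Adj u v ∧ |h v| ≠ 1) x y)
  · intro u v huv
    exact ⟨huv.1, fun hw => huv.2 ((mem_bl huv.1).1 hw).2⟩
  · exact ReflTransGen.mono (fun u v huv => ⟨huv.1, hT _ huv.2⟩) _ _ hxy.2

end Vale.Agent.P153.R2.Gp
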