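import Vale.Agent.P153.R2.LOC.Mult
import Vale.Agent.P153.R2.RINS.Refl
import Vale.Agent.P153.R2.SDAR.Strand

/-!
P153-R2, block GAPS (helper681), file 8: crossings of half annuli at a flat front, from MULT.
-/

namespace Vale.Agent.P153.R2.Gp

open Set Relation Vale.Agent.P153
open Vale.Agent.P153.Topo (Conn)
open Vale.Agent.P153.R2.LOC (ds ds_adj mem_bx_iff NO)
open Vale.Agent.P153.R2.SDAR (vv conn_seg)
open Vale.Agent.P153.R2.RINS (XC rf rf_bij rf_rf rf_odd mem_XC)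

/-- The vertex with the first coordinate `u` and the longitudinal coordinate `v`. -/
def pq (i : Fin 3) (u v : ℤ) : Pt := if i = 0 then (u, v) else (u, -v)

theorem pq_fst (i : Fin 3) (u v : ℤ) : (pq i u v).1 = u := by
  unfold pq; split_ifs <;> rfl

theorem vv_pq (i : Fin 3) (u v : ℤ) : vv i (pq i u v) = v := by
  unfold vv pq
  split_ifs <;> simp

theorem pq_vv (i : Fin 3) (x : Pt) : pq i x.1 (vv i x) = x := by
  obtain ⟨a, b⟩ := x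
  unfold vv pq
  split_ifs <;> simp

theorem adj_pq_u (i : Fin 3) (u v : ℤ) : Adj (pq i u v) (pq i (u + 1) v) := by
  rw [Topo.adj_iff]
  unfold pq
  split_ifs <;> simp

theorem adj_pq_v (i : Fin 3) (u v : ℤ) : Adj (pq i u v) (pq i u (v + 1)) := by
  rw [Topo.adj_iff]
  unfold pq
  split_ifs
  · simp
  · dsimp only
    omega

theorem ds_eq (i : Fin 3) (x₀ x : Pt) : ds x₀ x = max |x.1 - x₀.1| |vv i x - vv i x₀| := by
  unfold ds vv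
  split_ifs
  · rfl
  · congr 1
    rw [show -x.2 - -x₀.2 = -(x.2 - x₀.2) by ring, abs_neg]

theorem ds_pq (i : Fin 3) (x₀ : Pt) (u v : ℤ) :
    ds x₀ (pq i u v) = max |u - x₀.1| |v - vv i x₀| := by
  rw [ds_eq i, pq_fst, vv_pq]

/-- Half ring at a flat front. -/
def HR (i : Fin 3) (x₀ : Pt) (a R : ℤ) : Set Pt :=
  {x | a < ds x₀ x ∧ ds x₀ x ≤ R ∧ vv i x < vv i x₀}

theorem hr_conn (i : Fin 3) (x₀ : Pt) {a R : ℤ} (h0 : 0 ≤ a) (ha : a < R) : Cn (HR i x₀ a R) := by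
  have key : ∀ x ∈ HR i x₀ a R, Conn (HR i x₀ a R) x (pq i (x₀.1 - R) (vv i x₀ - R)) := by
    intro x hx
    obtain ⟨h1, h2, h3⟩ := hx
    rw [ds_eq i] at h1 h2
    have h4 := max_le_iff.1 h2
    have h5 := abs_le.1 h4.1
    have h6 := abs_le.1 h4.2
    have c1 : Conn (HR i x₀ a R) (pq i x.1 (vv i x)) (pq i x.1 (vv i x₀ - R)) := by
      refine conn_seg (f := fun n => pq i x.1 n) (fun n => adj_pq_v i _ n) fun z hz hz' => ?_
      have hz1 : vv i x₀ - R ≤ z ∧ z ≤ vv i x := by omega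
      refine ⟨?_, ?_, ?_⟩
      · rw [ds_pq]
        rcases lt_max_iff.1 h1 with h7 | h7
        · exact lt_max_of_lt_left h7
        · apply lt_max_of_lt_right
          rw [lt_abs] at h7 ⊢
          omega
      · rw [ds_pq]
        refine max_le h4.1 ?_
        rw [abs_le]
        omega
      · rw [vv_pq]
        omega
    have c2 : Conn (HR i x₀ a R) (pq i x.1 (vv i x₀ - R)) (pq i (x₀.1 - R) (vv i x₀ - R)) := by
      refine conn_seg (f := fun n => pq i n (vv i x₀ - R)) (fun n => adj_pq_u i n _)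
        fun z hz hz' => ?_
      have hz1 : x₀.1 - R ≤ z ∧ z ≤ x.1 := by omega
      refine ⟨?_, ?_, ?_⟩
      · rw [ds_pq]
        apply lt_max_of_lt_right
        rw [lt_abs]
        omega
      · rw [ds_pq]
        refine max_le ?_ ?_ <;> rw [abs_le] <;> omega
      · rw [vv_pq]
        omega
    have := c1.trans c2
    rwa [pq_vv] at this
  intro x hx y hy
  exact (key x hx).trans (key y hy).symm

/-- The domain is flat near `x₀` and the half box of radius `a` is removed. -/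
def Fl (i : Fin 3) (x₀ : Pt) (a R : ℤ) (D : Set Pt) : Prop :=
  ∀ x, ds x₀ x ≤ R → (x ∈ D ↔ a < ds x₀ x ∧ vv i x < vv i x₀)

/-- A path from `ds ≤ R` to `R < ds` visits `ds = R + 1`. -/
theorem first_out {S : Set Pt} {x₀ x y : Pt} {R : ℤ} (hx : ds x₀ x ≤ R) (hy : R < ds x₀ y)
    (h : Conn S x y) : ∃ z, ds x₀ z = R + 1 ∧ Conn S x z := by
  have key : (ds x₀ y ≤ R ∧ Conn S x y) ∨ ∃ z, ds x₀ z = R + 1 ∧ Conn S x z := by
    refine Conn.ind (S := S) (fun y => (ds x₀ y ≤ R ∧ Conn S x y) ∨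
      ∃ z, ds x₀ z = R + 1 ∧ Conn S x z) (Or.inl ⟨hx, Conn.refl h.left_mem⟩) ?_ h
    rintro u v hu huv hv (⟨ih1, ih2⟩ | ih)
    · have h2 := ds_adj (x₀ := x₀) huv
      rw [abs_le] at h2
      rcases lt_or_ge R (ds x₀ v) with h3 | h3
      · exact Or.inr ⟨v, by omega, ih2.tail huv hv⟩
      · exact Or.inl ⟨h3, ih2.tail huv hv⟩
    · exact Or.inr ih
  rcases key with h1 | h1
  · omega
  · exact h1

/-- The event that `{h ≤ ℓ}` crosses the half annulus. -/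
def Crs (D : Set Pt) (x₀ : Pt) (ρ R ℓ : ℤ) : Set Hg :=
  {h | ∃ x ∈ D, ds x₀ x ≤ ρ ∧ ∃ y ∈ D, R < ds x₀ y ∧ Conn (D ∩ dn h ℓ) x y}

/-- The event that `{h ≥ ℓ}` crosses the half annulus. -/
def Cru (D : Set Pt) (x₀ : Pt) (ρ R ℓ : ℤ) : Set Hg :=
  {h | ∃ x ∈ D, ds x₀ x ≤ ρ ∧ ∃ y ∈ D, R < ds x₀ y ∧ Conn (D ∩ up h ℓ) x y}

theorem rf_crs {D : Set Pt} {x₀ : Pt} {ρ R ℓ w : ℤ} {h : Hg} :
    rf w h ∈ Crs D x₀ ρ R ℓ ↔ h ∈ Cru D x₀ ρ R (2 * w - ℓ) := by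
  have e : dn (rf w h) ℓ = up h (2 * w - ℓ) := by
    ext x
    simp only [dn, up, rf, mem_ofPred_eq]
    constructor <;> intro h1 <;> linarith
  simp only [Crs, Cru, mem_ofPred_eq, e]

theorem rf_cru {D : Set Pt} {x₀ : Pt} {ρ R ℓ w : ℤ} {h : Hg} :
    rf w h ∈ Cru D x₀ ρ R ℓ ↔ h ∈ Crs D x₀ ρ R (2 * w - ℓ) := by
  have e : up (rf w h) ℓ = dn h (2 * w - ℓ) := by
    ext x
    simp only [dn, up, rf, mem_ofPred_eq]
    constructor <;> intro h1 <;> linarith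
  simp only [Crs, Cru, mem_ofPred_eq, e]

theorem Pr_rf (w : ℤ) {D : Set Pt} (hD : D.Finite) (g : Hg) (A : Set Hg) :
    Pr (XC D (rf w g)) A = Pr (XC D g) {h | rf w h ∈ A} := by
  rw [Pr_eq_Ex (RINS.XC_finite hD _), Pr_eq_Ex (RINS.XC_finite hD _), RINS.XC_rf]
  rfl

theorem Pr_rf' (w : ℤ) {D : Set Pt} (hD : D.Finite) (g : Hg) (A : Set Hg) :
    Pr (XC D g) A = Pr (XC D (rf w g)) {h | rf w h ∈ A} := by
  rw [Pr_rf w hD]
  simp only [mem_ofPred_eq, rf_rf, ofPred_mem_eq]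

/-- Crossings at the level `-1`. -/
theorem cross_aux (hS : ∀ j, LOC.S_land (j + 1)) (j : ℕ) {ε : ℝ} (hε : 0 < ε) :
    ∃ t : ℤ, 1 ≤ t ∧ ∃ ρ₀ : ℤ, 1 ≤ ρ₀ ∧ ∀ (D : Set Pt) (g : Hg) (i : Fin 3) (x₀ : Pt) (a ρ R : ℤ),
      D.Finite → CC D → (XC D g).Nonempty → 0 ≤ a → a < ρ → ρ₀ ≤ ρ → ρ < R → t * ρ ≤ R →
      Fl i x₀ a (R + 1) D → (∀ y ∈ ebd D, -(2 * (j : ℤ) + 1) ≤ g y) →
      (∀ y ∈ ebd D, ρ ≤ ds x₀ y → ds x₀ y ≤ R → 1 ≤ g y) →
      Pr (XC D g) (Crs D x₀ ρ R (-1)) ≤ ε := by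
  classical
  obtain ⟨t, ht, ρ₀, hρ₀, hm⟩ := LOC.mult (hS j) ε hε
  refine ⟨t, ht, ρ₀, hρ₀, fun D g i x₀ a ρ R hfin hcc hne ha haρ hρ hρR htR hfl hw hwA => ?_⟩
  have hx₀ : x₀ ∉ D := by
    intro h
    have h1 : ds x₀ x₀ = 0 := by unfold ds; simp
    have := ((hfl x₀ (by omega)).1 h).1
    omega
  have memD : ∀ u v, |u - x₀.1| ≤ R + 1 → |v - vv i x₀| ≤ R + 1 →
      (pq i u v ∈ D ↔ a < max |u - x₀.1| |v - vv i x₀| ∧ v < vv i x₀) := by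
    intro u v h1 h2
    rw [hfl _ (by rw [ds_pq]; exact max_le h1 h2), ds_pq, vv_pq]
  set p : Pt := pq i (x₀.1 + ρ) (vv i x₀ - 1) with hp
  set q : Pt := pq i (x₀.1 + (R + 1)) (vv i x₀ - 1) with hq
  have hNsub : HR i x₀ a ρ ⊆ D := fun x hx => (hfl x (by linarith [hx.2.1])).2 ⟨hx.1, hx.2.2⟩
  have hQsub : HR i x₀ R (R + 1) ⊆ D := fun x hx => (hfl x hx.2.1).2 ⟨by linarith [hx.1], hx.2.2⟩
  have e1 : |x₀.1 + ρ - x₀.1| = ρ := by
    rw [add_sub_cancel_left, abs_of_pos (by omega)]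
  have e2 : |x₀.1 + (R + 1) - x₀.1| = R + 1 := by
    rw [add_sub_cancel_left, abs_of_pos (by omega)]
  have e3 : |vv i x₀ - 1 - vv i x₀| = 1 := by
    rw [show vv i x₀ - 1 - vv i x₀ = -1 by ring]; rfl
  have hpN : p ∈ HR i x₀ a ρ := by
    refine ⟨?_, ?_, ?_⟩
    · rw [ds_pq, e1, e3]; exact lt_max_of_lt_left haρ
    · rw [ds_pq, e1, e3]; exact max_le le_rfl (by omega)
    · rw [vv_pq]; omega
  have hqQ : q ∈ HR i x₀ R (R + 1) := by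
    refine ⟨?_, ?_, ?_⟩
    · rw [ds_pq, e2, e3]; exact lt_max_of_lt_left (by omega)
    · rw [ds_pq, e2, e3]; exact max_le le_rfl (by omega)
    · rw [vv_pq]; omega
  have hNO : ∀ u, |u - x₀.1| ≤ R + 1 → pq i u (vv i x₀ - 1) ∈ D → NO D (pq i u (vv i x₀ - 1)) := by
    intro u hu h
    refine ⟨h, pq i u (vv i x₀), ?_, fun h1 => ?_⟩
    · have := adj_pq_v i u (vv i x₀ - 1)
      rwa [sub_add_cancel] at this
    · have h2 := (memD u (vv i x₀) hu (by simp; omega)).1 h1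
      exact lt_irrefl _ h2.2
  have hthk : LOC.Thk j D x₀ ρ R (exa D g) := by
    refine ⟨RINS.dat_exa hfin g, hne, fun x hx _ => ?_, fun x hx => Or.inl ?_, fun x hx b hb => ?_,
      fun x hx h1 h2 b hb => ?_⟩
    · unfold exa; rw [if_pos hx]
    · unfold exa; rw [if_pos hx]
    · unfold exa at hb
      rw [if_neg hx.1] at hb
      rw [mem_singleton_iff.1 hb]; exact hw x hx
    · unfold exa at hb
      rw [if_neg hx.1] at hb
      rw [mem_singleton_iff.1 hb]; exact hwA x hx h1 h2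
  have key := hm D (exa D g) x₀ ρ R p q (HR i x₀ a ρ) (HR i x₀ R (R + 1)) hcc hx₀ hρ htR
    (hNO _ (by rw [e1]; omega) (hNsub hpN)) (hNO _ (by rw [e2]) (hQsub hqQ)) hthk hNsub
    (fun x hx => mem_bx_iff.2 hx.2.1) (fun x hx => hr_conn i x₀ ha haρ p hpN x hx) hpN hQsub
    (Set.disjoint_left.2 fun x hx h1 => by
      have := mem_bx_iff.1 h1
      have := hx.1
      omega)
    (fun x hx => hr_conn i x₀ (by omega) (by omega) q hqQ x hx) hqQ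
  refine (Pr_mono fun h _ hh => ?_).trans key
  obtain ⟨x, hx, hxρ, y, hy, hyR, hxy⟩ := hh
  obtain ⟨z, hz, hxz⟩ := first_out (R := R) (by omega) hyR hxy
  refine ⟨x, ?_, z, ?_, hxz⟩
  · have := (hfl x (by omega)).1 hx
    exact ⟨this.1, hxρ, this.2⟩
  · have := (hfl z (by omega)).1 hxz.right_mem.1
    exact ⟨by omega, by omega, this.2⟩

/-- Crossings of `{h ≤ w - 2}`, flat walls at least `w`. -/
theorem cross_dn (hS : ∀ j, LOC.S_land (j + 1)) (j : ℕ) {ε : ℝ} (hε : 0 < ε) :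
    ∃ t : ℤ, 1 ≤ t ∧ ∃ ρ₀ : ℤ, 1 ≤ ρ₀ ∧ ∀ (D : Set Pt) (g : Hg) (w : ℤ) (i : Fin 3) (x₀ : Pt)
      (a ρ R : ℤ), Odd w →
      D.Finite → CC D → (XC D g).Nonempty → 0 ≤ a → a < ρ → ρ₀ ≤ ρ → ρ < R → t * ρ ≤ R →
      Fl i x₀ a (R + 1) D → (∀ y ∈ ebd D, w - (2 * (j : ℤ) + 2) ≤ g y) →
      (∀ y ∈ ebd D, ρ ≤ ds x₀ y → ds x₀ y ≤ R → w ≤ g y) →
      Pr (XC D g) (Crs D x₀ ρ R (w - 2)) ≤ ε := by
  obtain ⟨t, ht, ρ₀, hρ₀, hm⟩ := cross_aux hS j hε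
  refine ⟨t, ht, ρ₀, hρ₀, fun D g w i x₀ a ρ R hwo hfin hcc hne ha haρ hρ hρR htR hfl hw hwA => ?_⟩
  obtain ⟨k, hk⟩ := hwo
  have h1 := hm D (rf (-k) (rf 0 g)) i x₀ a ρ R hfin hcc ?_ ha haρ hρ hρR htR hfl ?_ ?_
  · rw [Pr_rf _ hfin, Pr_rf _ hfin] at h1
    refine (le_of_eq ?_).trans h1
    congr 1
    ext h
    simp only [mem_ofPred_eq]
    rw [rf_crs, rf_cru, show 2 * 0 - (2 * -k - -1) = w - 2 by omega]
  · obtain ⟨h, hh⟩ := hne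
    exact ⟨_, RINS.rf_mem (RINS.rf_mem hh)⟩
  · intro y hy
    have := hw y hy
    unfold rf
    omega
  · intro y hy h2 h3
    have := hwA y hy h2 h3
    unfold rf
    omega

/-- Crossings of `{h ≥ w + 2}`, flat walls at most `w`. -/
theorem cross_up (hS : ∀ j, LOC.S_land (j + 1)) (j : ℕ) {ε : ℝ} (hε : 0 < ε) :
    ∃ t : ℤ, 1 ≤ t ∧ ∃ ρ₀ : ℤ, 1 ≤ ρ₀ ∧ ∀ (D : Set Pt) (g : Hg) (w : ℤ) (i : Fin 3) (x₀ : Pt)
      (a ρ R : ℤ), Odd w →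
      D.Finite → CC D → (XC D g).Nonempty → 0 ≤ a → a < ρ → ρ₀ ≤ ρ → ρ < R → t * ρ ≤ R →
      Fl i x₀ a (R + 1) D → (∀ y ∈ ebd D, g y ≤ w + (2 * (j : ℤ) + 2)) →
      (∀ y ∈ ebd D, ρ ≤ ds x₀ y → ds x₀ y ≤ R → g y ≤ w) →
      Pr (XC D g) (Cru D x₀ ρ R (w + 2)) ≤ ε := by
  obtain ⟨t, ht, ρ₀, hρ₀, hm⟩ := cross_dn hS j hε
  refine ⟨t, ht, ρ₀, hρ₀, fun D g w i x₀ a ρ R hwo hfin hcc hne ha haρ hρ hρR htR hfl hw hwA => ?_⟩
  have h1 := hm D (rf w g) w i x₀ a ρ R hwo hfin hcc ?_ ha haρ hρ hρR htR hfl ?_ ?_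
  · rw [Pr_rf _ hfin] at h1
    refine (le_of_eq ?_).trans h1
    congr 1
    ext h
    simp only [mem_ofPred_eq]
    rw [rf_crs, show 2 * w - (w - 2) = w + 2 by ring]
  · obtain ⟨h, hh⟩ := hne
    exact ⟨_, RINS.rf_mem hh⟩
  · intro y hy
    have := hw y hy
    unfold rf
    omega
  · intro y hy h2 h3
    have := hwA y hy h2 h3
    unfold rf
    omega

end Vale.Agent.P153.R2.Gp
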