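import Vale.Agent.P153.R2.GAPS.Lw

/-!
P153-R2, block GAPS (helper681), file 14: crossings under the closed laws near flat windows; the gap
of the means between the extremal data.
-/

namespace Vale.Agent.P153.R2.Gp

open Set Relation Vale.Agent.P153
open Vale.Agent.P153.Topo (Conn)
open Vale.Agent.P153.R2.LOC (ds ds_adj mem_bx_iff NO)
open Vale.Agent.P153.R2.SDAR (vv conn_seg)
open Vale.Agent.P153.R2.RINS

variable {V : Set Pt} {x₀ : Fin 3 → Pt} {R a : ℤ} {σ : Fin 3 → ℤ} {η l l' l'' u u' ω h g : Hg}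
  {m : ℤ}

theorem crs_mono {D D' : Set Pt} (hD : D ⊆ D') {x₀ : Pt} {ρ R ℓ ℓ' : ℤ} (hℓ : ℓ ≤ ℓ') :
    Crs D x₀ ρ R ℓ ⊆ Crs D' x₀ ρ R ℓ' := by
  rintro h ⟨x, hx, h1, y, hy, h2, h3⟩
  exact ⟨x, hD hx, h1, y, hD hy, h2, h3.mono
    (Set.inter_subset_inter hD fun z (hz : h z ≤ ℓ) => (hz.trans hℓ : h z ≤ ℓ'))⟩

theorem cru_mono {D D' : Set Pt} (hD : D ⊆ D') {x₀ : Pt} {ρ R ℓ ℓ' : ℤ} (hℓ : ℓ' ≤ ℓ) :
    Cru D x₀ ρ R ℓ ⊆ Cru D' x₀ ρ R ℓ' := by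
  rintro h ⟨x, hx, h1, y, hy, h2, h3⟩
  exact ⟨x, hD hx, h1, y, hD hy, h2, h3.mono
    (Set.inter_subset_inter hD fun z (hz : ℓ ≤ h z) => (hℓ.trans hz : ℓ' ≤ h z))⟩

theorem dk_sub {a a' : ℤ} (haa : a ≤ a') : Dk V x₀ a' ⊆ Dk V x₀ a := fun x hx => ⟨hx.1, fun h1 => by
  obtain ⟨i, hi⟩ := mem_Hb.1 h1
  exact hx.2 (mem_Hb.2 ⟨i, hi.1, hi.2.1.trans haa, hi.2.2⟩)⟩

theorem dk_subV : Dk V x₀ a ⊆ V := fun _ hx => hx.1

theorem dk_zero : Dk V x₀ 0 = V := by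
  ext x
  refine ⟨fun h => h.1, fun h => ⟨h, fun h1 => ?_⟩⟩
  obtain ⟨i, hi⟩ := mem_Hb.1 h1
  have := hi.1
  have := hi.2.1
  omega

theorem Pr_three {S : Set Hg} {A : Set Hg} {B : Fin 3 → Set Hg} {e : ℝ}
    (hAB : ∀ h ∈ S, h ∈ A → ∃ i, h ∈ B i) (hB : ∀ i, Pr S (B i) ≤ e) : Pr S A ≤ 3 * e := by
  have h1 : Pr S A ≤ Pr S (B 0 ∪ (B 1 ∪ B 2)) := Pr_mono fun h hh hA => by
    obtain ⟨i, hi⟩ := hAB h hh hA
    fin_cases i
    · exact Or.inl hi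
    · exact Or.inr (Or.inl hi)
    · exact Or.inr (Or.inr hi)
  have h2 := Pr_union_le S (B 0) (B 1 ∪ B 2)
  have h3 := Pr_union_le S (B 1) (B 2)
  linarith [hB 0, hB 1, hB 2]

theorem sg_odd (W : Ws V x₀ R σ η) (i : Fin 3) : Odd (σ i) := by
  rcases W.sg i with h | h <;> rw [h]
  · exact odd_one
  · exact ⟨-1, by norm_num⟩

theorem sg_bd (W : Ws V x₀ R σ η) (i : Fin 3) : -1 ≤ σ i ∧ σ i ≤ 1 := by
  rcases W.sg i with h | h <;> rw [h] <;> norm_num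

/-- The walls in the half annuli. -/
theorem wall_ann (W : Ws V x₀ R σ η) {a₀ : ℤ} (haR : a₀ ≤ R + 1) (hg : ∀ y, y ∉ V → g y = η y)
    {y : Pt} (hy : y ∈ ebd (Dk V x₀ a₀)) {i : Fin 3} (h1 : a₀ < ds (x₀ i) y)
    (h2 : ds (x₀ i) y ≤ R + 1) : g y = σ i := by
  rcases W.dk_ebd hy with h3 | ⟨k, hk⟩
  · rw [hg y h3]
    exact W.wall i y h3 h2
  · by_cases hki : k = i
    · subst hki
      have := hk.2.1
      omega
    · have := W.far k i hki y (hk.2.1.trans haR)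
      omega

/-- Crossings under the closed laws. -/
theorem closed_cross (hS : ∀ j, LOC.S_land (j + 1)) (M : ℤ) {ε : ℝ} (hε : 0 < ε) :
    ∃ t : ℤ, 1 ≤ t ∧ ∃ ρ₀ : ℤ, 1 ≤ ρ₀ ∧ ∀ (V : Set Pt) (x₀ : Fin 3 → Pt) (σ : Fin 3 → ℤ)
      (η g : Hg) (a₀ a a' R ℓ : ℤ), Ws V x₀ R σ η → (XC (Dk V x₀ a₀) g).Nonempty →
      0 ≤ a₀ → a₀ ≤ a → ρ₀ ≤ a + 1 → a + 1 < a' → t * (a + 1) ≤ a' → a' ≤ R →
      (∀ y, y ∉ V → g y = η y) → (∀ y ∈ ebd (Dk V x₀ a₀), |g y| ≤ M) → ℓ ≤ -3 →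
      Pr (XC (Dk V x₀ a₀) g) {h | h ∉ gd ℓ V (Dk V x₀ a) (Dk V x₀ a')} ≤ 3 * ε ∧
      Pr (XC (Dk V x₀ a₀) g) {h | -h ∉ gd ℓ V (Dk V x₀ a) (Dk V x₀ a')} ≤ 3 * ε := by
  obtain ⟨t₁, ht₁, ρ₁, hρ₁, hm₁⟩ := cross_dn hS M.toNat hε
  obtain ⟨t₂, ht₂, ρ₂, hρ₂, hm₂⟩ := cross_up hS M.toNat hε
  have hMn : M ≤ M.toNat := Int.self_le_toNat M
  refine ⟨max t₁ t₂, le_max_of_le_left ht₁, max ρ₁ ρ₂, le_max_of_le_left hρ₁,
    fun V x₀ σ η g a₀ a a' R ℓ W hne h0 haa hρ hlt ht hR hg hM hℓ => ?_⟩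
  have hρ0 : 0 ≤ a + 1 := by omega
  have ht1 : t₁ * (a + 1) ≤ a' := (mul_le_mul_of_nonneg_right (le_max_left _ _) hρ0).trans ht
  have ht2 : t₂ * (a + 1) ≤ a' := (mul_le_mul_of_nonneg_right (le_max_right _ _) hρ0).trans ht
  have hfl : ∀ i, Fl i (x₀ i) a₀ (a' + 1) (Dk V x₀ a₀) := fun i => W.dk_fl h0 (by omega) i hR
  have hcc : CC (Dk V x₀ a₀) := W.dk_cc (by omega)
  constructor
  · refine Pr_three (fun h _ hh => crs_of_gd W (by omega) (by omega) hh) fun i => ?_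
    refine (Pr_mono fun h _ hh => crs_mono (dk_sub haa) ?_ hh).trans
      (hm₁ (Dk V x₀ a₀) g (σ i) i (x₀ i) a₀ (a + 1) a' (sg_odd W i) W.dk_fin hcc hne h0
        (by omega) ((le_max_left _ _).trans hρ) hlt ht1 (hfl i) (fun y hy => ?_)
        fun y hy h1 h2 => (wall_ann W (by omega) hg hy (by omega) (by omega)).ge)
    · have := sg_bd W i; omega
    · have := sg_bd W i
      have := abs_le.1 (hM y hy)
      omega
  · refine Pr_three (fun h _ hh => cru_of_gd W (by omega) (by omega) hh) fun i => ?_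
    refine (Pr_mono fun h _ hh => cru_mono (dk_sub haa) ?_ hh).trans
      (hm₂ (Dk V x₀ a₀) g (σ i) i (x₀ i) a₀ (a + 1) a' (sg_odd W i) W.dk_fin hcc hne h0
        (by omega) ((le_max_right _ _).trans hρ) hlt ht2 (hfl i) (fun y hy => ?_)
        fun y hy h1 h2 => (wall_ann W (by omega) hg hy (by omega) (by omega)).le)
    · have := sg_bd W i; omega
    · have := sg_bd W i
      have := abs_le.1 (hM y hy)
      omega

/-! ### Lipschitz extensions -/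

theorem lip_of_XC (hη : Lip η) (hh : h ∈ XC V η) : Lip h := by
  obtain ⟨h1, h2, h3⟩ := mem_XC.1 hh
  refine ⟨h1, fun x y hxy => ?_⟩
  by_cases hx : x ∈ V
  · exact h3 x y ⟨hxy, Or.inl hx⟩
  · by_cases hy : y ∈ V
    · exact h3 x y ⟨hxy, Or.inr hy⟩
    · rw [h2 x hx, h2 y hy]
      exact hη.2 x y hxy

theorem neg_lip (hη : Lip η) : Lip (-η) := by
  refine ⟨fun x => (hη.1 x).neg, fun x y hxy => ?_⟩
  rw [Pi.neg_apply, Pi.neg_apply, show -η x - -η y = -(η x - η y) by ring, abs_neg]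
  exact hη.2 x y hxy

theorem sm_lip (hη : Lip η) (hl : l ∈ Sm V η m) : Lip l := lip_of_XC hη hl.1

theorem sm_bd (hl : l ∈ Sm V η m) (hη : ∀ x, |η x| ≤ m) (x : Pt) : |l x| ≤ m := by
  by_cases hx : x ∈ V
  · exact hl.2 x hx
  · rw [(mem_XC.1 hl.1).2.1 x hx]
    exact hη x

theorem sm_off (hl : l ∈ Sm V η m) {x : Pt} (hx : x ∉ V) : l x = η x := (mem_XC.1 hl.1).2.1 x hx

theorem sm_self (hη : Lip η) (hb : ∀ x, |η x| ≤ m) : η ∈ Sm V η m :=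
  ⟨mem_XC.2 ⟨hη.1, fun _ _ => rfl, fun x y hxy => hη.2 x y hxy.1⟩, fun x _ => hb x⟩

theorem lip_mem {D : Set Pt} (hl : Lip l) : l ∈ XC D l :=
  mem_XC.2 ⟨hl.1, fun _ _ => rfl, fun x y hxy => hl.2 x y hxy.1⟩

/-- The reflected data are Lipschitz off the domain. -/
theorem gf_lip (W : Ws V x₀ R σ η) (haR : a ≤ R) (hl : Lip l) (hlη : ∀ y, y ∉ V → l y = η y)
    {x y : Pt} (hx : x ∉ Dk V x₀ a) (hy : y ∉ Dk V x₀ a) (hxy : Adj x y) :
    |gf x₀ a σ l Finset.univ x - gf x₀ a σ l Finset.univ y| ≤ 2 := by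
  have haR' : a ≤ R + 1 := by omega
  have key : ∀ x, x ∉ Dk V x₀ a → (∃ i, x ∈ HR i (x₀ i) 0 a) ∨ x ∉ V := by
    intro x hx
    by_cases hV : x ∈ V
    · left
      have : x ∈ Hb x₀ a := by
        by_contra h
        exact hx ⟨hV, h⟩
      exact mem_Hb.1 this
    · exact Or.inr hV
  have mixed : ∀ x y, Adj x y → (∃ i, x ∈ HR i (x₀ i) 0 a) → y ∉ V →
      |gf x₀ a σ l Finset.univ x - gf x₀ a σ l Finset.univ y| ≤ 2 := by
    rintro x y hxy ⟨i, hi⟩ hyV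
    have h1 := abs_le.1 (ds_adj (x₀ := x₀ i) hxy)
    have h2 := hi.2.1
    have h3 : η y = σ i := W.wall i y hyV (by omega)
    have h4 := abs_le.1 (hl.2 x y hxy)
    rw [gf_in W haR' (Finset.mem_univ i) hi, gf_out fun k _ h => hyV (W.hr_sub haR' k h),
      hlη y hyV, h3, abs_le]
    rw [hlη y hyV, h3] at h4
    omega
  rcases key x hx with h1 | h1
  · rcases key y hy with h2 | h2
    · obtain ⟨i, hi⟩ := h1
      obtain ⟨k, hk⟩ := h2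
      have h3 := abs_le.1 (ds_adj (x₀ := x₀ i) hxy)
      have h4 := hi.2.1
      have hik : i = k := by
        by_contra hik
        have := W.far i k hik y (by omega)
        have := hk.2.1
        omega
      subst hik
      have h5 := abs_le.1 (hl.2 x y hxy)
      rw [gf_in W haR' (Finset.mem_univ i) hi, gf_in W haR' (Finset.mem_univ i) hk, abs_le]
      omega
    · exact mixed x y hxy h1 h2
  · rcases key y hy with h2 | h2
    · rw [abs_sub_comm]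
      exact mixed y x (Topo.adj_symm hxy) h2 h1
    · rw [gf_out fun k _ h => h1 (W.hr_sub haR' k h), gf_out fun k _ h => h2 (W.hr_sub haR' k h)]
      exact hl.2 x y hxy

/-! ### The gap -/

/-- Moment bound for all the laws with bounded data on subdomains which contain `Z`. -/
def MB (M : ℕ) (V Z : Set Pt) (F : Hg → ℝ) (C : ℝ) : Prop :=
  ∀ (D : Set Pt) (g : Hg), D ⊆ V → Z ⊆ D → (XC D g).Nonempty → (∀ x, x ∉ D → |g x| ≤ 2 * M + 1) →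
    (∀ x y, x ∉ D → y ∉ D → Adj x y → |g x - g y| ≤ 2) → Ex (XC D g) F ≤ C

theorem MB.lip {M : ℕ} {Z : Set Pt} {F : Hg → ℝ} {C : ℝ} (H : MB M V Z F C) {D : Set Pt}
    (hD : D ⊆ V) (hZ : Z ⊆ D) (hl : Lip l) (hb : ∀ x, |l x| ≤ 2 * M + 1) : Ex (XC D l) F ≤ C :=
  H D l hD hZ ⟨l, lip_mem hl⟩ (fun x _ => hb x) fun x y _ _ hxy => hl.2 x y hxy

theorem MB.mono {M : ℕ} {Z : Set Pt} {F G : Hg → ℝ} {C : ℝ} (H : MB M V Z F C)
    (hG : ∀ h, G h ≤ F h) : MB M V Z G C := fun D g h1 h2 h3 h4 h5 =>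
  (Ex_mono fun h _ => hG h).trans (H D g h1 h2 h3 h4 h5)

/-- The gap between the means. -/
theorem gap_le (hS : ∀ j, LOC.S_land (j + 1)) (M : ℕ) {C γ : ℝ} (hC : 0 ≤ C) (hγ : 0 < γ) :
    ∃ t : ℤ, 1 ≤ t ∧ ∃ ρ₀ : ℤ, 1 ≤ ρ₀ ∧ ∀ (V Z : Set Pt) (x₀ : Fin 3 → Pt) (σ : Fin 3 → ℤ)
      (η l'' u' : Hg) (a R : ℤ), Ws V x₀ R σ η → SDAR.Bd M η →
      IsLeast (Sm V η (2 * M + 7)) l'' → IsLeast (Sm V (-η) (2 * M + 5)) (-u') →
      0 ≤ a → ρ₀ ≤ a + 1 → a + 1 < R → t * (a + 1) ≤ R → a + 2 * M + 8 ≤ R →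
      (∀ x ∈ Z, x ∈ V ∧ ∀ i, R < ds (x₀ i) x) → ∀ Y : Hg → ℝ, DepOn Z Y → Monotone Y →
      MB (M + 4) V Z (fun h => Y h ^ 2) C →
      Ex (XC (Dk V x₀ a) u') Y - Ex (XC (Dk V x₀ a) l'') Y ≤ γ := by
  set K : ℝ := 4 * C / γ + 1 with hK
  have hK0 : 0 < K := by positivity
  set ε : ℝ := min (1 / 2) (γ / (24 * K)) with hε
  have hε0 : 0 < ε := by positivity
  have hε1 : ε < 1 := lt_of_le_of_lt (min_le_left _ _) (by norm_num)
  obtain ⟨t, ht, ρ₀, hρ₀, H⟩ := three_tv hS (2 * M + 7) hε0 hε1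
  refine ⟨t, ht, ρ₀, hρ₀, fun V Z x₀ σ η l'' u' a R W hη hl hu h0 hρ hlt htR hMR hZ Y hY hmono
    hmb => ?_⟩
  have haR : a ≤ R + 1 := by omega
  have hηM : ∀ x, |η x| ≤ 2 * M + 7 := fun x => (hη.2 x).trans (by omega)
  have hηM' : ∀ x, |(-η) x| ≤ 2 * M + 5 := fun x => by
    rw [Pi.neg_apply, abs_neg]
    exact (hη.2 x).trans (by omega)
  have lL : Lip l'' := sm_lip hη.1 hl.1
  have lB : ∀ x, |l'' x| ≤ 2 * M + 7 := sm_bd hl.1 hηM
  have lO : ∀ y, y ∉ V → l'' y = η y := fun y hy => sm_off hl.1 hy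
  have uL : Lip u' := by
    have := neg_lip (sm_lip (neg_lip hη.1) hu.1)
    rwa [neg_neg] at this
  have uB : ∀ x, |u' x| ≤ 2 * M + 5 := fun x => by
    have := sm_bd hu.1 hηM' x
    rwa [Pi.neg_apply, abs_neg] at this
  have uO : ∀ y, y ∉ V → u' y = η y := fun y hy => by
    have := sm_off hu.1 hy
    rw [Pi.neg_apply, Pi.neg_apply] at this
    linarith
  have uX : u' ∈ XC V η := mem_XC.2 ⟨uL.1, uO, fun x y hxy => uL.2 x y hxy.1⟩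
  have hmo : Odd (2 * (M : ℤ) + 7) := ⟨M + 3, by ring⟩
  have hwall : ∀ i, ∀ x ∈ HR i (x₀ i) 0 a, ∀ y ∈ ebd V, ds x y < 2 * M + 7 → η y = σ i := by
    intro i x hx y hy hxy
    refine W.wall i y hy.1 ?_
    have h1 := ds_tri (x₀ i) x y
    have := hx.2.1
    omega
  have hlow : ∀ i, ∀ x ∈ HR i (x₀ i) 0 a, l'' x ≤ σ i - 2 := fun i x hx =>
    least_wall hmo hl (sg_odd W i) (by have := sg_bd W i; omega)
      (fun y _ => (abs_le.1 (hηM y)).2) (W.hr_sub haR i hx) (hwall i x hx)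
  set g : Hg := gf x₀ a σ l'' Finset.univ with hg
  have hZD : Z ⊆ Dk V x₀ a := fun x hx => ⟨(hZ x hx).1, fun h1 => by
    obtain ⟨i, hi⟩ := mem_Hb.1 h1
    have := (hZ x hx).2 i
    have := hi.2.1
    omega⟩
  obtain ⟨gne, htv⟩ := H V Z x₀ σ η l'' a (a + 1) R W lL.1 ⟨l'', lip_mem lL⟩ h0 (by omega) hρ
    (by omega) htR lO (fun y _ => lB y) hlow (fun x hx i => (hZ x hx).2 i) Finset.univ
  have hDY : DepOn (Dk V x₀ a) Y := hY.mono hZD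
  -- domination
  have hdom : Ex (XC (Dk V x₀ a) u') Y ≤ Ex (XC (Dk V x₀ a) g) Y := by
    refine XC_le W.dk_fin uL.1 (gf_odd lL.1 _) (fun y hy => ?_) ⟨u', lip_mem uL⟩ gne hDY hmono
    rcases W.dk_ebd hy with h1 | ⟨i, hi⟩
    · rw [gf_out fun k _ h => h1 (W.hr_sub haR k h), lO y h1, uO y h1]
    · rw [gf_in W haR (Finset.mem_univ i) hi]
      have := sum_wall (m := 2 * M + 5) hmo hl uX (fun x _ => (abs_le.1 (uB x)).2)
        (by omega) (sg_bd W i).1 (W.hr_sub haR i hi) (hwall i y hi)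
      linarith
  -- total variation
  have hcl : |Ex (XC (Dk V x₀ a) g) (fun h => cl K (Y h)) -
      Ex (XC (Dk V x₀ a) l'') (fun h => cl K (Y h))| ≤ K * (12 * ε) := by
    have h1 := htv (fun h => K⁻¹ * cl K (Y h)) (fun h h' hh => by
      dsimp only
      rw [hY h h' hh]) fun h => by
        rw [abs_mul, abs_of_pos (inv_pos.2 hK0)]
        have := abs_cl hK0.le (Y h)
        rw [inv_mul_le_iff₀ hK0, mul_one]
        exact this
    rw [Ex_const_mul, Ex_const_mul, ← mul_sub, abs_mul, abs_of_pos (inv_pos.2 hK0),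
      inv_mul_le_iff₀ hK0] at h1
    refine h1.trans (le_of_eq ?_)
    rw [Finset.card_univ, Fintype.card_fin]
    push_cast
    ring
  have h1 := mean_le hK0 hcl
  have m1 : Ex (XC (Dk V x₀ a) g) (fun h => Y h ^ 2) ≤ C := by
    refine hmb (Dk V x₀ a) g dk_subV hZD gne (fun x _ => ?_) fun x y hx hy hxy =>
      gf_lip W (by omega) lL lO hx hy hxy
    have := gf_bd W haR (lB x) Finset.univ
    rw [hg]
    push_cast
    linarith
  have m2 : Ex (XC (Dk V x₀ a) l'') (fun h => Y h ^ 2) ≤ C :=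
    hmb.lip dk_subV hZD lL fun x => by
      have := lB x
      push_cast
      linarith
  have e1 : K * (12 * ε) ≤ γ / 2 := by
    have : ε ≤ γ / (24 * K) := min_le_right _ _
    calc K * (12 * ε) ≤ K * (12 * (γ / (24 * K))) := by gcongr
      _ = γ / 2 := by field_simp; norm_num
  have e2 : (Ex (XC (Dk V x₀ a) g) (fun h => Y h ^ 2) +
      Ex (XC (Dk V x₀ a) l'') (fun h => Y h ^ 2)) / K ≤ γ / 2 := by
    rw [div_le_iff₀ hK0]
    have : γ / 2 * K = 2 * C + γ / 2 := by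
      rw [hK]; field_simp; ring
    rw [this]
    linarith
  linarith

end Vale.Agent.P153.R2.Gp
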