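import Vale.Agent.P153.R2.GAPS.GapsP

/-!
P153-R2, block GAPS (helper681), file 20: **S_gaps** for the products of the smeared heights.
-/

namespace Vale.Agent.P153.R2.Gp

open Finset MeasureTheory Filter Topology Relation Vale.Agent.P153 Vale.Agent.P153.F
  Vale.Agent.P153.F.Gh Vale.Agent.P153.F.X Vale.Agent.P153.F.X.LE
open Vale.Agent.P153.Topo (Conn)
open Vale.Agent.P153.F.SD (PW Lf)
open Vale.Agent.P153.F.Top (dp c1 c2)
open Vale.Agent.P145.PT (Sm)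
open Vale.Agent.P153.R2.LOC (ds ds_adj)
open Vale.Agent.P153.R2.SDAR (vv uu pt ts ls t0 l0 sbx ov tcell corr Bd Dmn Win pin NT gS FF Few
  Un S_gaps)
open Vale.Agent.P153.R2.RINS (XC Wt Yv)

variable {P : Measure (Pt → ℤ)} {b : PW} {K : Set (ℝ × ℝ)} {Rb r : ℝ} {lf : Fin 3 → ℝ} {M : ℕ}

theorem LocF.mul {F G : Hg → ℝ} (hF : LocF F) (hG : LocF G) : LocF fun h => F h * G h := by
  classical
  obtain ⟨Λ₁, h1⟩ := hF
  obtain ⟨Λ₂, h2⟩ := hG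
  refine ⟨Λ₁ ∪ Λ₂, fun h h' hh => ?_⟩
  dsimp only
  rw [h1 h h' fun x hx => hh x (Finset.mem_union_left _ hx),
    h2 h h' fun x hx => hh x (Finset.mem_union_right _ hx)]

theorem LocF.prod {ι : Type*} (l : List ι) {F : ι → Hg → ℝ} (hF : ∀ i, LocF (F i)) :
    LocF fun h => (l.map fun i => F i h).prod := by
  induction l with
  | nil => exact ⟨∅, fun _ _ _ => by simp⟩
  | cons a l ih =>
    have := LocF.mul (hF a) ih
    simpa only [List.map_cons, List.prod_cons] using this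

/-- Linear combinations. -/
theorem Ok.sub (hP : GFF.Plane P) {F G : ℝ → Hg → ℝ} {c : ℝ → ℝ} {C : ℝ} (hC : 0 ≤ C)
    (lF : ∀ δ, LocF (F δ)) (lG : ∀ δ, LocF (G δ)) (hc : ∀ δ : ℝ, 0 < δ → δ ≤ 1 / 2 → |c δ| ≤ C)
    (h1 : Ok P b K Rb r lf M F) (h2 : Ok P b K Rb r lf M G) :
    Ok P b K Rb r lf M (fun δ h => F δ h - c δ * G δ h) := by
  intro e he
  obtain ⟨w₁, hw₁, h1⟩ := h1 (e / 2) (by positivity)
  obtain ⟨w₂, hw₂, h2⟩ := h2 (e / (2 * (C + 1))) (by positivity)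
  refine ⟨min w₁ w₂, lt_min hw₁ hw₂, fun w hw0 hw Rp hRp => ?_⟩
  obtain ⟨δ₁, hδ₁, h1⟩ := h1 w hw0 (hw.trans (min_le_left _ _)) Rp hRp
  obtain ⟨δ₂, hδ₂, h2⟩ := h2 w hw0 (hw.trans (min_le_right _ _)) Rp hRp
  refine ⟨min (1 / 2) (min δ₁ δ₂), by positivity, fun δ hδ hδ' U η σ S H => ?_⟩
  obtain ⟨q0, q1⟩ := lt_min_iff.1 hδ'
  obtain ⟨q1, q2⟩ := lt_min_iff.1 q1
  obtain ⟨hS, e1⟩ := h1 δ hδ q1 U η σ S H
  obtain ⟨-, e2⟩ := h2 δ hδ q2 U η σ S H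
  refine ⟨hS, ?_⟩
  have i1 := gS_integrable hP hS η (lF δ)
  have i2 := gS_integrable hP hS η (lG δ)
  have hpos : 0 ≤ ∫ h, gS S η h ∂(muT P) := integral_nonneg fun h => gS_nonneg S η h
  have a1 : ∫ h, (F δ h - c δ * G δ h) * gS S η h ∂(muT P) =
      ∫ h, F δ h * gS S η h ∂(muT P) - c δ * ∫ h, G δ h * gS S η h ∂(muT P) := by
    rw [← integral_const_mul, ← integral_sub i1 (i2.const_mul _)]
    refine integral_congr_ae (Eventually.of_forall fun h => ?_)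
    dsimp only
    ring
  have a2 : Ex (Cfg U (exa U η)) (fun h => F δ h - c δ * G δ h) =
      Ex (Cfg U (exa U η)) (F δ) - c δ * Ex (Cfg U (exa U η)) (G δ) := by
    rw [Ex_sub, Ex_const_mul]
  rw [a1, a2]
  have a3 : ∫ h, F δ h * gS S η h ∂(muT P) - c δ * ∫ h, G δ h * gS S η h ∂(muT P) -
      (Ex (Cfg U (exa U η)) (F δ) - c δ * Ex (Cfg U (exa U η)) (G δ)) * ∫ h, gS S η h ∂(muT P) =
      (∫ h, F δ h * gS S η h ∂(muT P) - Ex (Cfg U (exa U η)) (F δ) * ∫ h, gS S η h ∂(muT P)) -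
      c δ * (∫ h, G δ h * gS S η h ∂(muT P) -
        Ex (Cfg U (exa U η)) (G δ) * ∫ h, gS S η h ∂(muT P)) := by ring
  rw [a3]
  refine (abs_sub _ _).trans ?_
  rw [abs_mul]
  have a4 := mul_le_mul (hc δ hδ q0.le) e2 (abs_nonneg _) hC
  have a5 : C * (e / (2 * (C + 1)) * ∫ h, gS S η h ∂(muT P)) ≤ e / 2 * ∫ h, gS S η h ∂(muT P) := by
    rw [← mul_assoc]
    refine mul_le_mul_of_nonneg_right ?_ hpos
    have : C * (e / (2 * (C + 1))) = e / 2 * (C / (C + 1)) := by field_simp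
    rw [this]
    have h3 : C / (C + 1) ≤ 1 := by
      rw [div_le_one (by linarith)]; linarith
    nlinarith
  linarith

/-- The shifted functional of one test function. -/
noncomputable def Sf (M : ℕ) (δ : ℝ) (f : ℝ × ℝ → ℝ) (h : Hg) : ℝ :=
  Lf δ f h - ((-(2 * (M : ℤ) + 3 + 1) : ℤ) : ℝ) * mass (SD.Wd δ f 0)

theorem Sf_loc (M : ℕ) (δ : ℝ) (f : ℝ × ℝ → ℝ) : LocF (Sf M δ f) :=
  lf_loc δ f fun y => y - ((-(2 * (M : ℤ) + 3 + 1) : ℤ) : ℝ) * mass (SD.Wd δ f 0)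

theorem Lf_loc (δ : ℝ) (f : ℝ × ℝ → ℝ) : LocF (Lf δ f) := lf_loc δ f fun y => y

/-- Products of shifted functionals. -/
theorem ok_sf (hP : GFF.Plane P) (hG : S_gap P) (hMom : S_mom P) (hE : S_emom P) (hR : S_rsw P)
    (hL : S_loc) (hF : S_conf) (hS : ∀ j, LOC.S_land (j + 1)) (hbs : b.x0 + b.y0 < b.s0)
    (hr : 0 < r) (hK : ∀ i, Disjoint K (sbx i (t0 b i) (lf i) r)) (hlf : ∀ i, l0 b i + r < lf i)
    {l : List (ℝ × ℝ → ℝ)} (hl : NT K l) :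
    Ok P b K Rb r lf M (fun δ h => (l.map fun f => Sf M δ f h).prod) := by
  have h1 := ok_ys hP hG hMom hE hR hL hF hS (Rb := Rb) M hbs hr hK hlf
    (f := fun i : Fin l.length => l[i.1]) (fun i => (hl _ (List.getElem_mem _)).1)
    (fun i => (hl _ (List.getElem_mem _)).2.1) (fun i => (hl _ (List.getElem_mem _)).2.2.1)
    (fun i => (hl _ (List.getElem_mem _)).2.2.2)
  have e : Ys M (fun i : Fin l.length => l[i.1]) =
      fun (δ : ℝ) (h : Hg) => (l.map fun f => Sf M δ f h).prod := by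
    funext δ h
    unfold Ys
    rw [← Fin.prod_univ_fun_getElem l fun f => Sf M δ f h]
    refine Finset.prod_congr rfl fun i _ => ?_
    rw [yv_eq]
    rfl
  rwa [e] at h1

/-- Mixed products. -/
theorem ok_mix (hP : GFF.Plane P) (hG : S_gap P) (hMom : S_mom P) (hE : S_emom P) (hR : S_rsw P)
    (hL : S_loc) (hF : S_conf) (hS : ∀ j, LOC.S_land (j + 1)) (hbs : b.x0 + b.y0 < b.s0)
    (hr : 0 < r) (hK : ∀ i, Disjoint K (sbx i (t0 b i) (lf i) r)) (hlf : ∀ i, l0 b i + r < lf i)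
    {l₂ : List (ℝ × ℝ → ℝ)} (h₂ : NT K l₂) : ∀ {l₁ : List (ℝ × ℝ → ℝ)}, NT K l₁ →
    Ok P b K Rb r lf M (fun δ h => (l₁.map fun f => Sf M δ f h).prod * FF δ l₂ h) := by
  induction l₂ with
  | nil =>
    intro l₁ h₁
    have := ok_sf (Rb := Rb) (M := M) hP hG hMom hE hR hL hF hS hbs hr hK hlf h₁
    unfold FF
    simpa only [List.map_nil, List.prod_nil, mul_one] using this
  | cons f l₂ ih =>
    intro l₁ h₁
    have hf := h₂ f List.mem_cons_self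
    have h₂' : NT K l₂ := fun g hg => h₂ g (List.mem_cons_of_mem _ hg)
    have h3 := ih h₂' (l₁ := f :: l₁) (fun g hg => by
      rcases List.mem_cons.1 hg with rfl | hg
      · exact hf
      · exact h₁ g hg)
    have h4 := ih h₂' h₁
    obtain ⟨C, hC, hm⟩ := mass_wd hf.1 hf.2.1 hf.2.2.2
    have lA : ∀ l : List (ℝ × ℝ → ℝ), ∀ δ, LocF fun h =>
        (l.map fun f => Sf M δ f h).prod * FF δ l₂ h := fun l δ =>
      LocF.mul (LocF.prod l fun f => Sf_loc M δ f) (LocF.prod l₂ fun f => Lf_loc δ f)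
    set s : ℝ := ((-(2 * (M : ℤ) + 3 + 1) : ℤ) : ℝ) with hs
    have h5 := Ok.sub (c := fun δ => -(s * mass (SD.Wd δ f 0))) (C := |s| * C) hP
      (by positivity) (lA (f :: l₁)) (lA l₁) (fun δ hδ hδ1 => ?_) h3 h4
    · refine (congrArg (Ok P b K Rb r lf M) ?_).mp h5
      funext δ h
      unfold FF
      simp only [List.map_cons, List.prod_cons]
      have : Sf M δ f h = Lf δ f h - s * mass (SD.Wd δ f 0) := rfl
      rw [this]
      ring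
    · obtain ⟨m1, m2⟩ := hm δ hδ hδ1
      rw [abs_neg, abs_mul, abs_of_nonneg m1]
      exact mul_le_mul_of_nonneg_left m2 (abs_nonneg _)

theorem ok_ff (hP : GFF.Plane P) (hG : S_gap P) (hMom : S_mom P) (hE : S_emom P) (hR : S_rsw P)
    (hL : S_loc) (hF : S_conf) (hS : ∀ j, LOC.S_land (j + 1)) (hbs : b.x0 + b.y0 < b.s0)
    (hr : 0 < r) (hK : ∀ i, Disjoint K (sbx i (t0 b i) (lf i) r)) (hlf : ∀ i, l0 b i + r < lf i)
    {l : List (ℝ × ℝ → ℝ)} (h : NT K l) : Ok P b K Rb r lf M (fun δ h => FF δ l h) := by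
  have := ok_mix (Rb := Rb) (M := M) hP hG hMom hE hR hL hF hS hbs hr hK hlf h (l₁ := [])
    (fun f hf => absurd hf List.not_mem_nil)
  simpa only [List.map_nil, List.prod_nil, one_mul] using this

/-- Finitely many observables. -/
theorem ok_list {L : List (List (ℝ × ℝ → ℝ))}
    (h : ∀ l ∈ L, Ok P b K Rb r lf M fun δ h => FF δ l h) (e : ℝ) (he : 0 < e) :
    ∃ w₁ : ℝ, 0 < w₁ ∧ ∀ w : ℝ, 0 < w → w ≤ w₁ → ∀ Rp : ℝ, Rb + 1 ≤ Rp →
      ∃ δ₀ : ℝ, 0 < δ₀ ∧ ∀ δ : ℝ, 0 < δ → δ < δ₀ →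
      ∀ (U : Set Pt) (η : Hg) (σ : Fin 3 → ℤ) (S : Finset Pt), Hy b K Rb r lf M w Rp δ U η σ S →
      ∀ l ∈ L, |∫ h, FF δ l h * gS S η h ∂(muT P) -
        Ex (Cfg U (exa U η)) (FF δ l) * ∫ h, gS S η h ∂(muT P)| ≤
          e * ∫ h, gS S η h ∂(muT P) := by
  induction L with
  | nil => exact ⟨1, one_pos, fun _ _ _ _ _ => ⟨1, one_pos, fun _ _ _ _ _ _ _ _ l hl =>
      absurd hl List.not_mem_nil⟩⟩
  | cons l L ih =>
    obtain ⟨w₁, hw₁, h1⟩ := ih fun l hl => h l (List.mem_cons_of_mem _ hl)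
    obtain ⟨w₂, hw₂, h2⟩ := h l List.mem_cons_self e he
    refine ⟨min w₁ w₂, lt_min hw₁ hw₂, fun w hw0 hw Rp hRp => ?_⟩
    obtain ⟨δ₁, hδ₁, h1⟩ := h1 w hw0 (hw.trans (min_le_left _ _)) Rp hRp
    obtain ⟨δ₂, hδ₂, h2⟩ := h2 w hw0 (hw.trans (min_le_right _ _)) Rp hRp
    refine ⟨min δ₁ δ₂, lt_min hδ₁ hδ₂, fun δ hδ hδ' U η σ S H l' hl' => ?_⟩
    obtain ⟨q1, q2⟩ := lt_min_iff.1 hδ'
    rcases List.mem_cons.1 hl' with rfl | hl'
    · exact (h2 δ hδ q2 U η σ S H).2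
    · exact h1 δ hδ q1 U η σ S H l' hl'

/-- **S_gaps**: closed law = open law. -/
theorem s_gaps (hP : GFF.Plane P) (hG : S_gap P) (hMom : S_mom P) (hE : S_emom P) (hR : S_rsw P)
    (hL : S_loc) (hF : S_conf) (hS : ∀ j, LOC.S_land (j + 1)) : S_gaps P := by
  intro b K Rb r lf M L hbs _ hNT hr hK hlf ε hε w₀ hw₀
  obtain ⟨w₁, hw₁, h⟩ := ok_list (P := P) (b := b) (K := K) (Rb := Rb) (r := r) (lf := lf) (M := M)
    (fun l hl => ok_ff hP hG hMom hE hR hL hF hS hbs hr hK hlf (hNT l hl)) ε hε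
  refine ⟨min w₀ w₁, lt_min hw₀ hw₁, min_le_left _ _, fun Rp hRp => ?_⟩
  obtain ⟨δ₀, hδ₀, h⟩ := h (min w₀ w₁) (lt_min hw₀ hw₁) (min_le_right _ _) Rp hRp
  exact ⟨δ₀, hδ₀, fun δ hδ hδ' U η σ S h1 h2 h3 h4 _ h6 l hl =>
    h δ hδ hδ' U η σ S ⟨h1, h2, h3, h4, h6⟩ l hl⟩

end Vale.Agent.P153.R2.Gp
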