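import Vale.Agent.P153.R2.GAPS.Conf1

/-!
P153-R2, block GAPS (helper681), file 19: **S_gaps** (closed law = open law).
-/

namespace Vale.Agent.P153.R2.Gp

open Finset MeasureTheory Filter Topology Relation Vale.Agent.P153 Vale.Agent.P153.F
  Vale.Agent.P153.F.Gh Vale.Agent.P153.F.X Vale.Agent.P153.F.X.LE
open Vale.Agent.P153.Topo (Conn)
open Vale.Agent.P153.F.SD (PW Lf)
open Vale.Agent.P153.F.Top (dp c1 c2)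
open Vale.Agent.P145.PT (Sm)
open Vale.Agent.P153.R2.LOC (ds ds_adj)
open Vale.Agent.P153.R2.SDAR (vv uu pt ts ls t0 l0 sbx ov tcell corr Bd Dmn Win pin NT gS FF Few
  Un S_gaps)
open Vale.Agent.P153.R2.RINS (XC Wt Yv Gib Bdy Qk Pk exists_least)

variable {P : Measure (Pt → ℤ)}

theorem mins {a₁ a₂ a₃ a₄ a₅ a₆ : ℝ} (h₁ : 0 < a₁) (h₂ : 0 < a₂) (h₃ : 0 < a₃) (h₄ : 0 < a₄)
    (h₅ : 0 < a₅) (h₆ : 0 < a₆) : ∃ d : ℝ, 0 < d ∧ ∀ x : ℝ, x < d →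
      x < a₁ ∧ x < a₂ ∧ x < a₃ ∧ x < a₄ ∧ x < a₅ ∧ x < a₆ :=
  ⟨min a₁ (min a₂ (min a₃ (min a₄ (min a₅ a₆)))),
    lt_min h₁ (lt_min h₂ (lt_min h₃ (lt_min h₄ (lt_min h₅ h₆)))), fun x hx => by
      simpa only [lt_min_iff] using hx⟩

theorem mins3 {a₁ a₂ a₃ : ℝ} (h₁ : 0 < a₁) (h₂ : 0 < a₂) (h₃ : 0 < a₃) :
    ∃ d : ℝ, 0 < d ∧ ∀ x : ℝ, x ≤ d → x ≤ a₁ ∧ x ≤ a₂ ∧ x ≤ a₃ :=
  ⟨min a₁ (min a₂ a₃), lt_min h₁ (lt_min h₂ h₃), fun x hx => by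
      simpa only [le_min_iff] using hx⟩

theorem ok_ys (hP : GFF.Plane P) (hG : S_gap P) (hMom : S_mom P) (hE : S_emom P) (hR : S_rsw P)
    (hL : S_loc) (hF : S_conf) (hS : ∀ j, LOC.S_land (j + 1)) {b : PW} {K : Set (ℝ × ℝ)}
    {Rb r : ℝ} {lf : Fin 3 → ℝ} (M : ℕ) (hbs : b.x0 + b.y0 < b.s0) (hr : 0 < r)
    (hK : ∀ i, Disjoint K (sbx i (t0 b i) (lf i) r)) (hlf : ∀ i, l0 b i + r < lf i)
    {k : ℕ} {f : Fin k → ℝ × ℝ → ℝ} (hs : ∀ i, Sm (f i)) (hc : ∀ i, HasCompactSupport (f i))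
    (hts : ∀ i, tsupport (f i) ⊆ K) (h0 : ∀ i z, 0 ≤ f i z) : Ok P b K Rb r lf M (Ys M f) := by
  intro e he
  set Rb' : ℝ := max Rb 0 with hRb'
  have hRb0 : 0 ≤ Rb' := le_max_right _ _
  obtain ⟨d₁, C₁, hd₁, hC₁, hm₁⟩ := wt_closed hP hMom hE hR hL hF hs hc h0 hRb0
    (-(2 * (M : ℤ) + 3 + 1)) (k + 1) (M + 4)
  obtain ⟨d₂, C₂, hd₂, hC₂, hm₂⟩ := wt_open hP hMom hE hR hL hF hs hc h0 (Rb' + 1)
    (ρ := 1 / 64) (by norm_num) (-(2 * (M : ℤ) + 3 + 1)) (k + 1) (2 * M + 1)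
  obtain ⟨ε, hε, hcore⟩ := core hS M k (hC₁.trans (le_max_left C₁ C₂)) he
  obtain ⟨A₂, hA₂, s₀, hs₀, hopen⟩ := open_qk hP hG hR hL hF hε
  obtain ⟨T₀, hT₀, s₁, hs₁, hcore⟩ := hcore A₂ hA₂
  obtain ⟨Q, hQ, hball⟩ := exists_ballQ b hRb0
  set r' : ℝ := min r 1 with hr'
  have hr'0 : 0 < r' := lt_min hr one_pos
  have hr'r : r' ≤ r := min_le_left _ _
  have hr'1 : r' ≤ 1 := min_le_right _ _
  have hT₀R : (1 : ℝ) ≤ T₀ := by exact_mod_cast hT₀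
  have hA₂R : (1 : ℝ) ≤ A₂ := by exact_mod_cast hA₂
  have hs₀R : (1 : ℝ) ≤ s₀ := by exact_mod_cast hs₀
  have hs₁R : (1 : ℝ) ≤ s₁ := by exact_mod_cast hs₁
  have hTp : 0 < 16 * ((T₀ : ℝ) + A₂) := by linarith
  obtain ⟨w₁, hw₁, hww⟩ := mins3 (a₁ := 1 / 16) (a₂ := r / 5) (a₃ := r' / (16 * (T₀ + A₂)))
    (by norm_num) (div_pos hr (by norm_num)) (div_pos hr'0 hTp)
  refine ⟨w₁, hw₁, fun w hw0 hw Rp hRp => ?_⟩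
  obtain ⟨hw1, hw2, hw3⟩ := hww w hw
  have hB0 : 0 < 16 * (((T₀ : ℝ) + A₂) * (2 * M + 6) + 1) := by
    have : (0 : ℝ) ≤ M := Nat.cast_nonneg M
    have h1 : 0 ≤ ((T₀ : ℝ) + A₂) * (2 * M + 6) := mul_nonneg (by linarith) (by linarith)
    linarith
  have hss : (0 : ℝ) < s₀ + s₁ := by linarith
  have hbs0 : 0 < (b.s0 - b.x0 - b.y0) / 2 := by linarith
  obtain ⟨δ₀, hδ₀, hδδ⟩ := mins hd₁ hd₂ (div_pos hr'0 hB0) (div_pos hw0 hss)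
    (div_pos hr'0 (by norm_num : (0 : ℝ) < 64)) hbs0
  refine ⟨δ₀, hδ₀, fun δ hδ hδ' U η σ S H => ?_⟩
  obtain ⟨q1, q2, q3, q4, q5, q6⟩ := hδδ δ hδ'
  rw [lt_div_iff₀ hB0] at q3
  rw [lt_div_iff₀ hss] at q4
  have hRb : 0 < Rb := (cell_vertex (K := K) hδ hbs (by linarith) hw0.le H.dmn).1
  have eRb : Rb' = Rb := max_eq_left hRb.le
  rw [eRb] at hm₁ hm₂ hQ hball
  obtain ⟨R, s, g2, g1, g4, g6, g7, g10, g11⟩ := scales M hr'0 hw0 hδ hs₀ hs₁ hT₀ hA₂ hw3 q3 q4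
    (by linarith)
  have hRR : (1 : ℝ) ≤ R := by exact_mod_cast g2
  exact one_conf (C₁ := C₁) (C₂ := C₂) (C := max C₁ C₂) hs hc hts h0 H hδ hbs (by linarith) hlf hK
    hRp hw0.le hw1 hw2 (by nlinarith) (by linarith) g2 g4 hs₀ hs₁ g6 g7 (by nlinarith)
    (by nlinarith) g10 g11 hball (le_max_left _ _) (le_max_right _ _)
    (hm₁ δ hδ q1.le) (hm₂ Q hQ δ hδ q2.le) hopen hcore

end Vale.Agent.P153.R2.Gp
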