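import Vale.Agent.P153.R2.GAPS.Side
import Vale.Agent.P153.R2.SDAD.Dlr
import Vale.Agent.P153.R2.Base.Basic

/-!
P153-R2, block GAPS (helper681), file 5: the Gibbs property of `muT P` conditioned on local pinned
events, in terms of the finite-volume laws `Cfg V (exa V ω)` of block BASE.
-/

namespace Vale.Agent.P153.R2.Gp

open Finset MeasureTheory Filter Topology Relation Vale.Agent.P153 Vale.Agent.P153.F
  Vale.Agent.P153.F.Gh Vale.Agent.P153.F.X Vale.Agent.P153.F.X.LE
open Vale.Agent.P153.GFF (Ht Pat hexa LocLim)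
open Vale.Agent.P153.Topo (Conn)
open Vale.Agent.P153.SDAD (ker ker_eq mem_FzF FzF ker_of_mem nbs bd_nbs ker_congr')

variable {P : Measure (Pt → ℤ)} {L : ℕ} {M : ℤ} {A : Set Hg} {F : Hg → ℝ} {V : Finset Pt}

/-- The finite-volume configurations with Lipschitz exact data. -/
theorem mem_cfg_exa {V : Set Pt} {ω h : Hg} (hω : Lip ω) :
    h ∈ Cfg V (exa V ω) ↔ Lip h ∧ ∀ x, x ∉ V → h x = ω x := by
  classical
  constructor
  · rintro ⟨h1, h2, h3⟩
    have h4 : ∀ x, x ∉ V → h x = ω x := fun x hx => by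
      have := h2 x
      rw [exa, if_neg hx] at this
      exact this
    refine ⟨⟨h1, fun x y hxy => ?_⟩, h4⟩
    by_cases hx : x ∈ V
    · exact h3 x hx y hxy
    · by_cases hy : y ∈ V
      · rw [abs_sub_comm]
        exact h3 y hy x hxy.symm
      · rw [h4 x hx, h4 y hy]
        exact hω.2 x y hxy
  · rintro ⟨h1, h2⟩
    refine ⟨h1.1, fun x => ?_, fun x _ y hxy => h1.2 x y hxy⟩
    by_cases hx : x ∈ V
    · rw [exa, if_pos hx]; trivial
    · rw [exa, if_neg hx]; exact h2 x hx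

theorem cfg_exa_eq {ω : Hg} (hω : Lip ω) :
    Cfg (V : Set Pt) (exa V ω) = ((FzF V ω : Finset Hg) : Set Hg) := by
  ext h
  rw [mem_cfg_exa hω, Finset.mem_coe, mem_FzF]
  rfl

/-- The kernel is the finite-volume average. -/
theorem ker_eq_Ex {ω : Hg} (hω : Lip ω) : ker V F ω = Ex (Cfg (V : Set Pt) (exa V ω)) F := by
  rw [cfg_exa_eq hω, Ex_eq_ev', ker_eq hω]
  rfl

theorem locF_ker (hF : LocF F) : LocF (ker V F) := by
  classical
  obtain ⟨Λ, hΛ⟩ := hF
  refine ⟨Λ ∪ nbs V, fun h h' hh => ?_⟩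
  refine ker_congr' (fun a b h1 h2 h3 => hΛ a b fun x hx => ?_) fun x hx =>
    hh x (Finset.mem_union_right _ (bd_nbs hx))
  by_cases h4 : x ∈ V
  · exact h1 x h4
  · rw [h2 x h4, h3 x h4]
    exact hh x (Finset.mem_union_left _ hx)

/-- **DLR**: for an event `A` which does not depend on the heights in `V`. -/
theorem dlr (hP : GFF.Plane P) (hA : DepS L A) (hp : PinB L M A)
    (hAV : ∀ a b : Hg, (∀ x, x ∉ V → a x = b x) → (a ∈ A ↔ b ∈ A)) (hF : LocF F) :
    ∫ h in A, F h ∂(muT P) = ∫ h in A, ker V F h ∂(muT P) := by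
  classical
  have hGb := gb_of_plane hP
  have hK : LocF (ker V F) := locF_ker hF
  -- a common box
  obtain ⟨Λ₁, h1⟩ := hF
  obtain ⟨Λ₂, h2⟩ := hK
  obtain ⟨L', hL'⟩ := exists_bL (Λ₁ ∪ Λ₂)
  set L'' := max L L' with hL''
  have hA' : DepS L'' A := hA.mono (le_max_left _ _)
  have hm : ∀ x, x ∈ bL L' → x ∈ bL L'' := fun x hx => bL_mono (le_max_right _ _) hx
  have d1 : DepB L'' F := fun h h' hh => h1 h h' fun x hx =>
    hh x (hm x (hL' (Finset.mem_union_left _ hx)))
  have d2 : DepB L'' (ker V F) := fun h h' hh => h2 h h' fun x hx =>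
    hh x (hm x (hL' (Finset.mem_union_right _ hx)))
  have hp' : PinB L'' M A := fun h hh hl => by
    have hl' : LipB L h := ⟨fun x hx => hl.1 x (bL_mono (le_max_left _ _) hx), fun x hx y hy =>
      hl.2 x (bL_mono (le_max_left _ _) hx) y (bL_mono (le_max_left _ _) hy)⟩
    obtain ⟨x, hx, h3⟩ := hp h hh hl'
    exact ⟨x, bL_mono (le_max_left _ _) hx, h3⟩
  have i1 := integrableOn_loc hP hA' hp' d1
  have i2 := integrableOn_loc hP hA' hp' d2
  have hmA := hA'.measurable
  have key : ∀ s : ℝ, 0 ≤ ∫ h, A.indicator (fun h => s * (F h - ker V F h)) h ∂(muT P) := by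
    intro s
    have d3 : DepB L'' (A.indicator fun h => s * (F h - ker V F h)) :=
      hA'.depB fun h h' hh => by simp only [d1 h h' hh, d2 h h' hh]
    refine integral_nonneg_of_frozen hGb V _ (bL L'') d3 ?_ fun ξ hξ => ?_
    · rw [integrable_indicator_iff hmA]
      exact (i1.sub i2).const_mul s
    · have e : ∀ g ∈ (finite_fz V ξ).toFinset, A.indicator (fun h => s * (F h - ker V F h)) g =
          if ξ ∈ A then s * (F g - ker V F ξ) else 0 := by
        intro g hg
        have hg' : g ∈ FzF V ξ := hg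
        obtain ⟨h3, h4⟩ := mem_FzF.1 hg'
        have h5 : g ∈ A ↔ ξ ∈ A := hAV g ξ h4
        by_cases h6 : ξ ∈ A
        · rw [Set.indicator_of_mem (h5.2 h6), if_pos h6, ker_of_mem hξ hg']
        · rw [Set.indicator_of_notMem fun h7 => h6 (h5.1 h7), if_neg h6]
      rw [Finset.sum_congr rfl e]
      by_cases h6 : ξ ∈ A
      · simp only [if_pos h6]
        rw [← Finset.mul_sum, Finset.sum_sub_distrib, Finset.sum_const, nsmul_eq_mul, ker_eq hξ]
        have h0 : (0 : ℝ) < #(FzF V ξ) := by exact_mod_cast SDAD.card_FzF_pos hξ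
        have e2 : (finite_fz V ξ).toFinset = FzF V ξ := rfl
        rw [e2, mul_div_cancel₀ _ h0.ne', sub_self, mul_zero]
      · simp only [if_neg h6, Finset.sum_const_zero, le_refl]
  have k1 := key 1
  have k2 := key (-1)
  rw [integral_indicator hmA, integral_const_mul, integral_sub i1 i2] at k1 k2
  linarith

/-- **DLR**, with the finite-volume laws. -/
theorem dlr_Ex (hP : GFF.Plane P) (hA : DepS L A) (hp : PinB L M A)
    (hAV : ∀ a b : Hg, (∀ x, x ∉ V → a x = b x) → (a ∈ A ↔ b ∈ A)) (hF : LocF F) :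
    ∫ h in A, F h ∂(muT P) = ∫ ω in A, Ex (Cfg (V : Set Pt) (exa V ω)) F ∂(muT P) := by
  rw [dlr hP hA hp hAV hF]
  refine integral_congr_ae (ae_restrict_of_ae ?_)
  filter_upwards [(gb_of_plane hP).lip] with ω hω
  exact ker_eq_Ex hω

/-- Integrability of the conditional averages. -/
theorem integrableOn_Ex (hP : GFF.Plane P) (hA : DepS L A) (hp : PinB L M A) (hF : LocF F) :
    IntegrableOn (fun ω => Ex (Cfg (V : Set Pt) (exa V ω)) F) A (muT P) := by
  classical
  obtain ⟨L', -, hd⟩ := (locF_ker (V := V) hF).exists ∅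
  have hp' : PinB (max L L') M A := fun h hh hl => by
    have hl' : LipB L h := ⟨fun x hx => hl.1 x (bL_mono (le_max_left _ _) hx), fun x hx y hy =>
      hl.2 x (bL_mono (le_max_left _ _) hx) y (bL_mono (le_max_left _ _) hy)⟩
    obtain ⟨x, hx, h3⟩ := hp h hh hl'
    exact ⟨x, bL_mono (le_max_left _ _) hx, h3⟩
  refine (integrableOn_loc hP (hA.mono (le_max_left _ _)) hp' (hd.mono (le_max_right _ _))).congr ?_
  refine ae_restrict_of_ae ?_
  filter_upwards [(gb_of_plane hP).lip] with ω hω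
  exact ker_eq_Ex hω

end Vale.Agent.P153.R2.Gp
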