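import Vale.Agent.P153.Bd5.B18
import Vale.Agent.P153.R2.Base.Defs

/-!
P153-R2, block GAPS (helper681), part (C), file 1: Holley's inequality and positive association for
the (infinite) measure `muT P` of the absolute odd heights, conditioned on local events which
bound some height.
-/

namespace Vale.Agent.P153.R2.Gp

open Finset MeasureTheory Filter Topology Vale.Agent.P153 Vale.Agent.P153.F Vale.Agent.P153.F.Gh
  Vale.Agent.P153.F.X Vale.Agent.P153.F.X.LE
open Vale.Agent.P153.GFF (Ht Pat hexa LocLim)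

/-- Odd and Lipschitz on the box `bL L`. -/
def LipB (L : ℕ) (h : Hg) : Prop :=
  (∀ x ∈ bL L, Odd (h x)) ∧ ∀ x ∈ bL L, ∀ y ∈ bL L, Adj x y → |h x - h y| ≤ 2

/-- `F` depends only on the heights in the box `bL L`. -/
def DepB (L : ℕ) (F : Hg → ℝ) : Prop := ∀ h h' : Hg, (∀ x ∈ bL L, h x = h' x) → F h = F h'

/-- The event `A` depends only on the heights in the box `bL L`. -/
def DepS (L : ℕ) (A : Set Hg) : Prop :=
  ∀ h h' : Hg, (∀ x ∈ bL L, h x = h' x) → (h ∈ A ↔ h' ∈ A)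

/-- On `A` some height in the box is at most `M` in absolute value. -/
def PinB (L : ℕ) (M : ℤ) (A : Set Hg) : Prop := ∀ h ∈ A, LipB L h → ∃ x ∈ bL L, |h x| ≤ M

theorem Lip.lipB {h : Hg} (hh : Lip h) (L : ℕ) : LipB L h :=
  ⟨fun x _ => hh.1 x, fun x _ y _ hxy => hh.2 x y hxy⟩

theorem DepB.mono {L L' : ℕ} (hL : L ≤ L') {F : Hg → ℝ} (hF : DepB L F) : DepB L' F :=
  fun h h' hh => hF h h' fun x hx => hh x (by rw [mem_bL] at hx ⊢; omega)

theorem DepS.mono {L L' : ℕ} (hL : L ≤ L') {A : Set Hg} (hA : DepS L A) : DepS L' A :=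
  fun h h' hh => hA h h' fun x hx => hh x (by rw [mem_bL] at hx ⊢; omega)

theorem DepS.inter {L : ℕ} {A B : Set Hg} (hA : DepS L A) (hB : DepS L B) : DepS L (A ∩ B) :=
  fun h h' hh => and_congr (hA h h' hh) (hB h h' hh)

theorem DepS.compl {L : ℕ} {A : Set Hg} (hA : DepS L A) : DepS L Aᶜ :=
  fun h h' hh => not_congr (hA h h' hh)

theorem DepS.depB {L : ℕ} {A : Set Hg} (hA : DepS L A) {F : Hg → ℝ} (hF : DepB L F) :
    DepB L (A.indicator F) := by
  classical
  intro h h' hh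
  by_cases h1 : h ∈ A
  · rw [Set.indicator_of_mem h1, Set.indicator_of_mem ((hA h h' hh).1 h1), hF h h' hh]
  · rw [Set.indicator_of_notMem h1, Set.indicator_of_notMem fun h2 => h1 ((hA h h' hh).2 h2)]

theorem DepB.measurable {L : ℕ} {F : Hg → ℝ} (hF : DepB L F) : Measurable F := by
  classical
  let g : ({x // x ∈ bL L} → ℤ) → ℝ := fun y => F (fun x => if hx : x ∈ bL L then y ⟨x, hx⟩ else 0)
  have hg : Measurable g := measurable_of_countable g
  have h1 : F = g ∘ (fun h : Hg => fun x : {x // x ∈ bL L} => h x) := by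
    funext ω
    apply hF
    intro x hx
    simp [hx]
  rw [h1]
  exact hg.comp (measurable_pi_lambda _ fun x => measurable_pi_apply _)

theorem DepS.measurable {L : ℕ} {A : Set Hg} (hA : DepS L A) : MeasurableSet A := by
  classical
  have h1 : Measurable (A.indicator fun _ => (1 : ℝ)) := (hA.depB fun _ _ _ => rfl).measurable
  have h2 : A = (A.indicator fun _ => (1 : ℝ)) ⁻¹' {1} := by
    ext h
    rw [Set.mem_preimage, Set.mem_singleton_iff]
    by_cases h3 : h ∈ A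
    · simp [h3]
    · simp [h3]
  rw [h2]
  exact h1 (measurableSet_singleton _)

theorem PinB.mono {L : ℕ} {M M' : ℤ} {A A' : Set Hg} (h : PinB L M A) (hA : A' ⊆ A) (hM : M ≤ M') :
    PinB L M' A' := fun a ha hl => by
  obtain ⟨x, hx, h1⟩ := h a (hA ha) hl
  exact ⟨x, hx, h1.trans hM⟩

/-- Local functions vanishing off a pinned event. -/
theorem lcl_ind {L : ℕ} {M : ℤ} {A : Set Hg} (hA : DepS L A) (hp : PinB L M A) {F : Hg → ℝ}
    (hF : DepB L F) : Lcl (bL L) (M + 8 * L) (A.indicator F) := by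
  classical
  refine ⟨hA.depB hF, fun h hodd hlip hne z hz => ?_⟩
  have hh : h ∈ A := by
    by_contra hcon
    exact hne (Set.indicator_of_notMem hcon _)
  obtain ⟨x, hx, h1⟩ := hp h hh ⟨hodd, hlip⟩
  have h4 := box_bdd hlip hz hx
  have h5 := abs_sub_abs_le_abs_sub (h z) (h x)
  linarith

theorem ex1_inf {D : Finset Pt} (H H' : Option {x // x ∈ D} → ℤ) :
    ex1 (H ⊓ H') = ex1 H ⊓ ex1 H' := by
  funext x
  by_cases hx : x ∈ D
  · rw [Pi.inf_apply, ex1_in hx, ex1_in hx, ex1_in hx]; rfl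
  · simp [ex1, hx]

theorem ex1_sup {D : Finset Pt} (H H' : Option {x // x ∈ D} → ℤ) :
    ex1 (H ⊔ H') = ex1 H ⊔ ex1 H' := by
  funext x
  by_cases hx : x ∈ D
  · rw [Pi.sup_apply, ex1_in hx, ex1_in hx, ex1_in hx]; rfl
  · simp [ex1, hx]

theorem ex1_mono {D : Finset Pt} {H H' : Option {x // x ∈ D} → ℤ} (h : H ≤ H') :
    ex1 H ≤ ex1 H' := by
  intro x
  by_cases hx : x ∈ D
  · rw [ex1_in hx, ex1_in hx]; exact h _
  · simp [ex1, hx]

theorem om_inf {D : Finset Pt} {M : ℤ} {H H' : Option {x // x ∈ D} → ℤ}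
    (h : H ∈ (gD D).Om M Set.univ) (h' : H' ∈ (gD D).Om M Set.univ) :
    H ⊓ H' ∈ (gD D).Om M Set.univ := by
  rw [(gD D).mem_Om] at h h' ⊢
  refine ⟨fun u => ?_, h.2.1.inf h'.2.1, fun u hu => absurd (Set.mem_univ u) hu⟩
  have h1 := abs_le.1 (h.1 u)
  have h2 := abs_le.1 (h'.1 u)
  rw [Pi.inf_apply, abs_le]
  exact ⟨le_inf h1.1 h2.1, inf_le_left.trans h1.2⟩

theorem om_sup {D : Finset Pt} {M : ℤ} {H H' : Option {x // x ∈ D} → ℤ}
    (h : H ∈ (gD D).Om M Set.univ) (h' : H' ∈ (gD D).Om M Set.univ) :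
    H ⊔ H' ∈ (gD D).Om M Set.univ := by
  rw [(gD D).mem_Om] at h h' ⊢
  refine ⟨fun u => ?_, h.2.1.sup h'.2.1, fun u hu => absurd (Set.mem_univ u) hu⟩
  have h1 := abs_le.1 (h.1 u)
  have h2 := abs_le.1 (h'.1 u)
  rw [Pi.sup_apply, abs_le]
  exact ⟨h1.1.trans le_sup_left, sup_le h1.2 h2.2⟩

theorem om_lipB {D : Finset Pt} {M : ℤ} {H : Option {x // x ∈ D} → ℤ} {L : ℕ} (hD : bL L ⊆ D)
    (h : H ∈ (gD D).Om M Set.univ) : LipB L (ex1 H) := by
  obtain ⟨-, ⟨hpar, hlip⟩, -⟩ := (gD D).mem_Om.1 h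
  refine ⟨fun x hx => ?_, fun x hx y hy hxy => ?_⟩
  · rw [ex1_in (hD hx)]
    obtain ⟨m, hm⟩ := hpar (some ⟨x, hD hx⟩)
    rw [gD_b_some] at hm
    exact ⟨m, by omega⟩
  · rw [ex1_in (hD hx), ex1_in (hD hy)]
    exact hlip _ _ (gD_R_some.2 hxy)

open Classical in
/-- The finite-volume inequality. -/
theorem fin_holley {D : Finset Pt} {M : ℤ} {L : ℕ} (hD : bL L ⊆ D) {A A' : Set Hg} {F : Hg → ℝ}
    (hF : Monotone F)
    (hinf : ∀ a ∈ A, ∀ b ∈ A', LipB L a → LipB L b → a ⊓ b ∈ A)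
    (hsup : ∀ a ∈ A, ∀ b ∈ A', LipB L a → LipB L b → a ⊔ b ∈ A') :
    (∑ H ∈ (gD D).Om M Set.univ, A.indicator F (ex1 H)) *
        (∑ H ∈ (gD D).Om M Set.univ, A'.indicator (fun _ => (1 : ℝ)) (ex1 H)) ≤
      (∑ H ∈ (gD D).Om M Set.univ, A'.indicator F (ex1 H)) *
        ∑ H ∈ (gD D).Om M Set.univ, A.indicator (fun _ => (1 : ℝ)) (ex1 H) := by
  set S := ((gD D).Om M Set.univ).filter (fun H => ex1 H ∈ A) with hS
  set T := ((gD D).Om M Set.univ).filter (fun H => ex1 H ∈ A') with hT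
  have e : ∀ (A : Set Hg) (F : Hg → ℝ), ∑ H ∈ (gD D).Om M Set.univ, A.indicator F (ex1 H) =
      ∑ H ∈ ((gD D).Om M Set.univ).filter (fun H => ex1 H ∈ A), F (ex1 H) := by
    intro A F
    rw [Finset.sum_filter]
    rfl
  rw [e, e, e, e, ← hS, ← hT]
  simp only [Finset.sum_const, nsmul_eq_mul, mul_one]
  rcases S.eq_empty_or_nonempty with h1 | h1
  · rw [h1]; simp
  rcases T.eq_empty_or_nonempty with h2 | h2
  · rw [h2]; simp
  have key := ev_le_ev S T h1 h2 (fun a ha b hb => ?_) (fun a ha b hb => ?_) (fun H => F (ex1 H))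
    (fun H H' hH => hF (ex1_mono hH))
  · have c1 : (0 : ℝ) < #S := by exact_mod_cast h1.card_pos
    have c2 : (0 : ℝ) < #T := by exact_mod_cast h2.card_pos
    unfold ev at key
    rw [div_le_div_iff₀ c1 c2] at key
    exact key
  · rw [hS, Finset.mem_filter] at ha ⊢
    rw [hT, Finset.mem_filter] at hb
    refine ⟨om_inf ha.1 hb.1, ?_⟩
    rw [ex1_inf]
    exact hinf _ ha.2 _ hb.2 (om_lipB hD ha.1) (om_lipB hD hb.1)
  · rw [hS, Finset.mem_filter] at ha
    rw [hT, Finset.mem_filter] at hb ⊢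
    refine ⟨om_sup ha.1 hb.1, ?_⟩
    rw [ex1_sup]
    exact hsup _ ha.2 _ hb.2 (om_lipB hD ha.1) (om_lipB hD hb.1)

open Classical in
/-- The finite-volume association. -/
theorem fin_fkg {D : Finset Pt} {M : ℤ} {L : ℕ} (hD : bL L ⊆ D) {A : Set Hg} {F G : Hg → ℝ}
    (hF : Monotone F) (hG : Monotone G)
    (hinf : ∀ a ∈ A, ∀ b ∈ A, LipB L a → LipB L b → a ⊓ b ∈ A)
    (hsup : ∀ a ∈ A, ∀ b ∈ A, LipB L a → LipB L b → a ⊔ b ∈ A) :
    (∑ H ∈ (gD D).Om M Set.univ, A.indicator F (ex1 H)) *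
        (∑ H ∈ (gD D).Om M Set.univ, A.indicator G (ex1 H)) ≤
      (∑ H ∈ (gD D).Om M Set.univ, A.indicator (fun h => F h * G h) (ex1 H)) *
        ∑ H ∈ (gD D).Om M Set.univ, A.indicator (fun _ => (1 : ℝ)) (ex1 H) := by
  set S := ((gD D).Om M Set.univ).filter (fun H => ex1 H ∈ A) with hS
  have e : ∀ (A : Set Hg) (F : Hg → ℝ), ∑ H ∈ (gD D).Om M Set.univ, A.indicator F (ex1 H) =
      ∑ H ∈ ((gD D).Om M Set.univ).filter (fun H => ex1 H ∈ A), F (ex1 H) := by
    intro A F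
    rw [Finset.sum_filter]
    rfl
  rw [e, e, e, e, ← hS]
  simp only [Finset.sum_const, nsmul_eq_mul, mul_one]
  rcases S.eq_empty_or_nonempty with h1 | h1
  · rw [h1]; simp
  have key := ev_mul_ge S h1 (fun a ha b hb => ?_) (fun a ha b hb => ?_) (fun H => F (ex1 H))
    (fun H => G (ex1 H)) (fun H H' hH => hF (ex1_mono hH)) (fun H H' hH => hG (ex1_mono hH))
  · have c1 : (0 : ℝ) < #S := by exact_mod_cast h1.card_pos
    unfold ev at key
    rw [div_mul_div_comm, div_le_div_iff₀ (by positivity) c1] at key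
    have h3 : (∑ a ∈ S, F (ex1 a)) * (∑ a ∈ S, G (ex1 a)) * (#S : ℝ) ≤
        ((∑ a ∈ S, F (ex1 a) * G (ex1 a)) * (#S : ℝ)) * (#S : ℝ) := by
      rw [mul_assoc (∑ a ∈ S, F (ex1 a) * G (ex1 a))]
      exact key
    exact le_of_mul_le_mul_right h3 c1
  · rw [hS, Finset.mem_filter] at ha hb ⊢
    refine ⟨om_inf ha.1 hb.1, ?_⟩
    rw [ex1_inf]
    exact hinf _ ha.2 _ hb.2 (om_lipB hD ha.1) (om_lipB hD hb.1)
  · rw [hS, Finset.mem_filter] at ha hb ⊢
    refine ⟨om_sup ha.1 hb.1, ?_⟩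
    rw [ex1_sup]
    exact hsup _ ha.2 _ hb.2 (om_lipB hD ha.1) (om_lipB hD hb.1)

variable {P : Measure (Pt → ℤ)} {L : ℕ} {M M' : ℤ} {A A' : Set Hg} {F G : Hg → ℝ}

/-- Integrability of local functions on pinned events. -/
theorem integrableOn_loc (hP : GFF.Plane P) (hA : DepS L A) (hp : PinB L M A) (hF : DepB L F) :
    IntegrableOn F A (muT P) := by
  classical
  have := hP.prob
  have hl := lcl_ind hA hp hF
  have hae : A.indicator F =ᵐ[muT P]
      fun h => ∑ c ∈ pt (bL L) (M + 8 * L), (Cyl (bL L) c).indicator (fun _ => A.indicator F c) h := by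
    filter_upwards [muT_lip hP.lip] with h hh
    rw [hl.eq_sum (fun x _ => hh.1 x) fun x _ y _ hxy => hh.2 x y hxy]
    refine Finset.sum_congr rfl fun c _ => ?_
    by_cases h3 : ∀ x ∈ bL L, h x = c x
    · rw [if_pos h3, Set.indicator_of_mem (show h ∈ Cyl (bL L) c from h3)]
    · rw [if_neg h3, Set.indicator_of_notMem (show h ∉ Cyl (bL L) c from h3)]
  rw [← integrable_indicator_iff hA.measurable]
  refine (integrable_congr hae).2 (integrable_finsetSum _ fun c hc => ?_)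
  rw [integrable_indicator_iff (measurable_cyl _ c)]
  refine integrableOn_const ?_
  rw [muT_cyl P (bL_nonempty L) (mem_pt.1 hc).1]
  exact measure_ne_top P _

theorem finite_pin (hP : GFF.Plane P) (hA : DepS L A) (hp : PinB L M A) : muT P A ≠ ⊤ := by
  have h1 := integrableOn_loc hP hA hp (F := fun _ => 1) fun _ _ _ => rfl
  rcases (integrableOn_const_iff (by simp)).1 h1 with h2 | h2
  · simp at h2
  · exact h2.ne

/-- **Holley's inequality** for the heights in the plane. -/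
theorem holley (hP : GFF.Plane P) (hA : DepS L A) (hA' : DepS L A') (hp : PinB L M A)
    (hp' : PinB L M' A') (hF : Monotone F) (hFd : DepB L F)
    (hinf : ∀ a ∈ A, ∀ b ∈ A', LipB L a → LipB L b → a ⊓ b ∈ A)
    (hsup : ∀ a ∈ A, ∀ b ∈ A', LipB L a → LipB L b → a ⊔ b ∈ A') :
    (∫ h in A, F h ∂(muT P)) * (muT P).real A' ≤ (∫ h in A', F h ∂(muT P)) * (muT P).real A := by
  classical
  have q : PinB L (max M M') A := hp.mono subset_rfl (le_max_left _ _)
  have q' : PinB L (max M M') A' := hp'.mono subset_rfl (le_max_right _ _)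
  have key := mul_le_lim hP (bL_nonempty L) (lcl_ind hA q hFd)
    (lcl_ind hA' q' (F := fun _ => 1) fun _ _ _ => rfl) (lcl_ind hA' q' hFd)
    (lcl_ind hA q (F := fun _ => 1) fun _ _ _ => rfl) ?_
  · rwa [integral_indicator hA.measurable, integral_indicator hA'.measurable,
      integral_indicator hA'.measurable, integral_indicator hA.measurable, integral_const,
      integral_const, smul_eq_mul, smul_eq_mul, mul_one, mul_one, measureReal_restrict_apply_univ,
      measureReal_restrict_apply_univ] at key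
  · obtain ⟨n₀, hn₀⟩ := _root_.Vale.Agent.P153.A.GibbsPf.large (bL L)
    filter_upwards [eventually_ge_atTop n₀] with n hn
    exact Eventually.of_forall fun M => fin_holley (fun x hx => (hn₀ n hn x hx).1) hF hinf hsup

/-- **Positive association** of the heights in the plane. -/
theorem fkg (hP : GFF.Plane P) (hA : DepS L A) (hp : PinB L M A) (hF : Monotone F)
    (hG : Monotone G) (hFd : DepB L F) (hGd : DepB L G)
    (hinf : ∀ a ∈ A, ∀ b ∈ A, LipB L a → LipB L b → a ⊓ b ∈ A)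
    (hsup : ∀ a ∈ A, ∀ b ∈ A, LipB L a → LipB L b → a ⊔ b ∈ A) :
    (∫ h in A, F h ∂(muT P)) * (∫ h in A, G h ∂(muT P)) ≤
      (∫ h in A, F h * G h ∂(muT P)) * (muT P).real A := by
  classical
  have hFG : DepB L fun h => F h * G h := fun h h' hh => by
    simp only [hFd h h' hh, hGd h h' hh]
  have key := mul_le_lim hP (bL_nonempty L) (lcl_ind hA hp hFd) (lcl_ind hA hp hGd)
    (lcl_ind hA hp hFG) (lcl_ind hA hp (F := fun _ => 1) fun _ _ _ => rfl) ?_
  · rwa [integral_indicator hA.measurable, integral_indicator hA.measurable,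
      integral_indicator hA.measurable, integral_indicator hA.measurable, integral_const,
      smul_eq_mul, mul_one, measureReal_restrict_apply_univ] at key
  · obtain ⟨n₀, hn₀⟩ := _root_.Vale.Agent.P153.A.GibbsPf.large (bL L)
    filter_upwards [eventually_ge_atTop n₀] with n hn
    exact Eventually.of_forall fun M => fin_fkg (fun x hx => (hn₀ n hn x hx).1) hF hG hinf hsup

/-! ### Single-site data -/

/-- Heights with the values in `I x` for `x ∈ S`. -/
def On (S : Finset Pt) (I : Pt → Set ℤ) : Set Hg := {h | ∀ x ∈ S, h x ∈ I x}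

theorem On.dep {S : Finset Pt} (hS : S ⊆ bL L) (I : Pt → Set ℤ) : DepS L (On S I) := by
  intro h h' hh
  constructor
  · intro h1 x hx
    rw [← hh x (hS hx)]
    exact h1 x hx
  · intro h1 x hx
    rw [hh x (hS hx)]
    exact h1 x hx

theorem On.pin {S : Finset Pt} (hS : S ⊆ bL L) {I : Pt → Set ℤ} {x : Pt} (hx : x ∈ S)
    (hM : ∀ a ∈ I x, |a| ≤ M) : PinB L M (On S I) :=
  fun _ ha _ => ⟨x, hS hx, hM _ (ha x hx)⟩

/-- Local function. -/
def LocF (F : Hg → ℝ) : Prop := ∃ Λ : Finset Pt, ∀ h h' : Hg, (∀ x ∈ Λ, h x = h' x) → F h = F h'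

theorem LocF.exists {F : Hg → ℝ} (hF : LocF F) (S : Finset Pt) : ∃ L : ℕ, S ⊆ bL L ∧ DepB L F := by
  classical
  obtain ⟨Λ, hΛ⟩ := hF
  obtain ⟨L, hL⟩ := exists_bL (S ∪ Λ)
  exact ⟨L, fun x hx => hL (Finset.mem_union_left _ hx), fun h h' hh => hΛ h h' fun x hx =>
    hh x (hL (Finset.mem_union_right _ hx))⟩

/-- The law of the heights in the plane with single-site data on the finite set `S` is increasing
in the data. -/
theorem data_mono (hP : GFF.Plane P) {S : Finset Pt} {I J : Pt → Set ℤ}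
    (hIJ : ∀ x ∈ S, SLe (I x) (J x)) {x x' : Pt} (hx : x ∈ S) (hx' : x' ∈ S)
    (hI : ∀ a ∈ I x, |a| ≤ M) (hJ : ∀ a ∈ J x', |a| ≤ M') (hF : Monotone F) (hFd : LocF F) :
    (∫ h in On S I, F h ∂(muT P)) * (muT P).real (On S J) ≤
      (∫ h in On S J, F h ∂(muT P)) * (muT P).real (On S I) := by
  obtain ⟨L, hL, hd⟩ := hFd.exists S
  refine holley hP (On.dep hL I) (On.dep hL J) (On.pin hL hx hI) (On.pin hL hx' hJ) hF hd ?_ ?_
  · intro a ha b hb _ _ y hy
    exact (hIJ y hy _ (ha y hy) _ (hb y hy)).1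
  · intro a ha b hb _ _ y hy
    exact (hIJ y hy _ (ha y hy) _ (hb y hy)).2

/-- Exact data. -/
theorem exact_mono (hP : GFF.Plane P) {S : Finset Pt} (hS : S.Nonempty) {η η' : Hg}
    (hη : ∀ x ∈ S, η x ≤ η' x) (hF : Monotone F) (hFd : LocF F) :
    (∫ h in Cyl S η, F h ∂(muT P)) * (muT P).real (Cyl S η') ≤
      (∫ h in Cyl S η', F h ∂(muT P)) * (muT P).real (Cyl S η) := by
  obtain ⟨x, hx⟩ := hS
  have e : ∀ η : Hg, Cyl S η = On S fun x => {η x} := fun η => rfl
  rw [e, e]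
  refine data_mono hP (fun y hy a ha b hb => ?_) hx hx (M := |η x|) (M' := |η' x|)
    (fun a ha => ?_) (fun a ha => ?_) hF hFd
  · rw [Set.mem_singleton_iff] at ha hb ⊢
    subst ha hb
    exact ⟨min_eq_left (hη y hy), max_eq_right (hη y hy)⟩
  · rw [Set.mem_singleton_iff] at ha
    rw [ha]
  · rw [Set.mem_singleton_iff] at ha
    rw [ha]

/-- Positive association for single-site data on a finite set. -/
theorem data_fkg (hP : GFF.Plane P) {S : Finset Pt} (I : Pt → Set ℤ) {x : Pt} (hx : x ∈ S)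
    (hI : ∀ a ∈ I x, |a| ≤ M) (hF : Monotone F) (hG : Monotone G) (hFd : LocF F) (hGd : LocF G) :
    (∫ h in On S I, F h ∂(muT P)) * (∫ h in On S I, G h ∂(muT P)) ≤
      (∫ h in On S I, F h * G h ∂(muT P)) * (muT P).real (On S I) := by
  obtain ⟨L₁, hL₁, hd₁⟩ := hFd.exists S
  obtain ⟨L₂, hL₂, hd₂⟩ := hGd.exists S
  have hL : S ⊆ bL (max L₁ L₂) := fun y hy => by
    have h1 := hL₁ hy
    rw [mem_bL] at h1 ⊢
    have h2 : (L₁ : ℤ) ≤ (max L₁ L₂ : ℕ) := by exact_mod_cast le_max_left _ _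
    omega
  refine fkg hP (On.dep hL I) (On.pin hL hx hI) hF hG (hd₁.mono (le_max_left _ _))
    (hd₂.mono (le_max_right _ _)) ?_ ?_
  · intro a ha b hb _ _ y hy
    rcases min_choice (a y) (b y) with h1 | h1
    · rw [Pi.inf_apply, h1]; exact ha y hy
    · rw [Pi.inf_apply, h1]; exact hb y hy
  · intro a ha b hb _ _ y hy
    rcases max_choice (a y) (b y) with h1 | h1
    · rw [Pi.sup_apply, h1]; exact ha y hy
    · rw [Pi.sup_apply, h1]; exact hb y hy

end Vale.Agent.P153.R2.Gp
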