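import Vale.Agent.P153.R2.GAPS.Three
import Vale.Agent.P153.R2.RINS.Comp

/-!
P153-R2, block GAPS (helper681), file 12: the extremal extensions near flat windows; the boundary
values of an open law; escaping clusters cross half annuli.
-/

namespace Vale.Agent.P153.R2.Gp

open Set Relation Vale.Agent.P153
open Vale.Agent.P153.Topo (Conn)
open Vale.Agent.P153.R2.LOC (ds ds_adj mem_bx_iff NO)
open Vale.Agent.P153.R2.SDAR (vv conn_seg)
open Vale.Agent.P153.R2.RINS

variable {V : Set Pt} {x₀ : Fin 3 → Pt} {R a : ℤ} {σ : Fin 3 → ℤ} {η l l' u ω h : Hg} {m : ℤ}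

theorem ds_self (x : Pt) : ds x x = 0 := by unfold ds; simp

theorem ds_nonneg (x y : Pt) : 0 ≤ ds x y := by
  unfold ds; exact le_max_of_le_left (abs_nonneg _)

theorem ds_comm (x y : Pt) : ds x y = ds y x := by
  unfold ds; rw [abs_sub_comm, abs_sub_comm y.2]

theorem ds_tri (x y z : Pt) : ds x z ≤ ds x y + ds y z := by
  unfold ds
  have h1 := abs_sub_le z.1 y.1 x.1
  have h2 := abs_sub_le z.2 y.2 x.2
  have h3 := le_max_left |y.1 - x.1| |y.2 - x.2|
  have h4 := le_max_right |y.1 - x.1| |y.2 - x.2|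
  have h5 := le_max_left |z.1 - y.1| |z.2 - y.2|
  have h6 := le_max_right |z.1 - y.1| |z.2 - y.2|
  exact max_le (by linarith) (by linarith)

open Classical in
/-- An upper bound for the least extension. -/
theorem least_gen (hmo : Odd m) (hl : IsLeast (Sm V η m) l) {c : Hg} (hc : ∀ x, Odd (c x))
    (hcL : ∀ x y, Adj x y → |c x - c y| ≤ 2)
    (hb : ∀ x ∈ V, ∀ y, y ∉ V → Adj x y → η y - 2 ≤ max (c x) (-m)) {x : Pt} (hx : x ∈ V) :
    l x ≤ max (c x) (-m) := by
  have hlL := IsLeast.lip hl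
  have hl0 := mem_XC.1 hl.1.1
  set f : Hg := fun x => if x ∈ V then min (l x) (max (c x) (-m)) else l x with hf
  have fin : ∀ x, x ∈ V → f x = min (l x) (max (c x) (-m)) := fun x hx => if_pos hx
  have fout : ∀ x, x ∉ V → f x = l x := fun x hx => if_neg hx
  have key : ∀ x y, x ∈ V → Adj x y → |f x - f y| ≤ 2 := by
    intro x y hx hxy
    have h1 := hlL x y ⟨hxy, Or.inl hx⟩
    have h0 : |(-m : ℤ) - -m| ≤ 2 := by simp
    by_cases hy : y ∈ V
    · rw [fin x hx, fin y hy]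
      exact lip_min h1 (lip_max (hcL x y hxy) h0)
    · rw [fin x hx, fout y hy, hl0.2.1 y hy]
      have h3 := hb x hx y hy hxy
      rw [hl0.2.1 y hy] at h1
      rw [abs_le] at *
      constructor
      · have := le_min (show η y - 2 ≤ l x by linarith [h1.1]) h3
        linarith
      · have : min (l x) (max (c x) (-m)) ≤ l x := min_le_left _ _
        linarith [h1.2]
  have hfm : f ∈ Sm V η m := by
    refine ⟨mem_XC.2 ⟨fun x => ?_, fun x hx => ?_, fun x y hxy => ?_⟩, fun x hx => ?_⟩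
    · by_cases hx : x ∈ V
      · rw [fin x hx]
        exact odd_min (hl0.1 x) (odd_max (hc x) hmo.neg)
      · rw [fout x hx]; exact hl0.1 x
    · rw [fout x hx]
      exact hl0.2.1 x hx
    · by_cases hx : x ∈ V
      · exact key x y hx hxy.1
      · by_cases hy : y ∈ V
        · rw [abs_sub_comm]
          exact key y x hy (Topo.adj_symm hxy.1)
        · exact absurd hxy.2 (by tauto)
    · have h1 := IsLeast.ge hl hx
      have h2 := IsLeast.le hl hx
      rw [fin x hx, abs_le]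
      exact ⟨le_min h1 (le_max_right _ _), (min_le_left _ _).trans h2⟩
  have := hl.2 hfm x
  rw [fin x hx] at this
  exact this.trans (min_le_right _ _)

/-- Near walls of height `w` the least extension is at most `w - 2`. -/
theorem least_wall (hmo : Odd m) (hl : IsLeast (Sm V η m) l) {w : ℤ} (hw : Odd w)
    (hwm : -m ≤ w - 2) (hη : ∀ y ∈ ebd V, η y ≤ m) {x : Pt} (hx : x ∈ V)
    (hwall : ∀ y ∈ ebd V, ds x y < m → η y = w) : l x ≤ w - 2 := by
  have h := least_gen hmo hl (c := fun z => max (w - 2) (2 * ds x z - m))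
    (fun z => odd_max ?_ ?_) (fun z z' hz => lip_max (by simp) ?_) (fun z hz y hy hzy => ?_) hx
  · rw [ds_self, max_eq_left (by linarith : 2 * 0 - m ≤ w - 2), max_eq_left hwm] at h
    exact h
  · obtain ⟨k, hk⟩ := hw; exact ⟨k - 1, by rw [hk]; ring⟩
  · obtain ⟨k, hk⟩ := hmo; exact ⟨ds x z - k - 1, by rw [hk]; ring⟩
  · have := ds_adj (x₀ := x) hz
    rw [abs_le] at this ⊢
    omega
  · have hye : y ∈ ebd V := adj_mem_ebd hz hy hzy
    have h1 := ds_adj (x₀ := x) hzy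
    rw [abs_le] at h1
    by_cases h2 : ds x y < m
    · rw [hwall y hye h2]
      exact le_max_of_le_left (le_max_left _ _)
    · have := hη y hye
      refine le_max_of_le_left (le_max_of_le_right ?_)
      omega

/-- The reflected least extension dominates. -/
theorem sum_wall {m' : ℤ} (hmo : Odd m') (hl : IsLeast (Sm V η m') l') (hh : h ∈ XC V η)
    (hhm : ∀ x ∈ V, h x ≤ m) (hm : m + 2 ≤ m') {w : ℤ} (hw1 : -1 ≤ w) {x : Pt} (hx : x ∈ V)
    (hwall : ∀ y ∈ ebd V, ds x y < m' → η y = w) : l' x + h x ≤ 2 * w := by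
  refine least_add hmo hl hh hhm hm hw1 (fun z => (ds x z).toNat) (fun z z' hz => ?_)
    (by rw [ds_self]; rfl) hx fun y hy hyd => hwall y hy ?_
  · have := ds_adj (x₀ := x) hz
    rw [abs_le] at this
    omega
  · have := ds_nonneg x y
    omega

/-- Boundary values for an open law: lower bound. -/
theorem open_low (hmo : Odd m) (hl : IsLeast (Sm V η m) l) (hω : Lip ω) {b : ℤ}
    (hη : ∀ y ∈ ebd V, η y ≤ m) (hw : ∀ y ∈ ebd V, ω y = η y ∨ ∃ i, ds (x₀ i) y + 1 ≤ b)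
    {x : Pt} (hx : x ∈ V) (hfar : ∀ i, b + m ≤ ds (x₀ i) x) : l x ≤ max (ω x) (-m) := by
  set q : Pt → ℤ := fun z => min (min (ds (x₀ 0) z) (ds (x₀ 1) z)) (ds (x₀ 2) z) with hq
  have hqi : ∀ i z, q z ≤ ds (x₀ i) z := by
    intro i z
    rw [hq]
    fin_cases i
    · exact (min_le_left _ _).trans (min_le_left _ _)
    · exact (min_le_left _ _).trans (min_le_right _ _)
    · exact min_le_right _ _
  have hqL : ∀ z z', Adj z z' → |q z - q z'| ≤ 1 := by
    intro z z' hz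
    have h0 := abs_le.1 (ds_adj (x₀ := x₀ 0) hz)
    have h1 := abs_le.1 (ds_adj (x₀ := x₀ 1) hz)
    have h2 := abs_le.1 (ds_adj (x₀ := x₀ 2) hz)
    rw [hq, abs_le]
    dsimp only
    omega
  have h := least_gen hmo hl (c := fun z => max (ω z) (m - 2 * max 0 (q z - b)))
    (fun z => odd_max (hω.1 z) ?_) (fun z z' hz => lip_max (hω.2 z z' hz) ?_)
    (fun z hz y hy hzy => ?_) hx
  · have h3 : b + m ≤ q x := by
      rw [hq]
      exact le_min (le_min (hfar 0) (hfar 1)) (hfar 2)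
    refine h.trans (max_le (max_le (le_max_left _ _) (le_max_of_le_right ?_)) (le_max_right _ _))
    have := le_max_right 0 (q x - b)
    linarith
  · obtain ⟨k, hk⟩ := hmo; exact ⟨k - max 0 (q z - b), by rw [hk]; ring⟩
  · have := abs_le.1 (hqL z z' hz)
    rw [abs_le]
    omega
  · have hye : y ∈ ebd V := adj_mem_ebd hz hy hzy
    rcases hw y hye with h1 | ⟨i, hi⟩
    · have := abs_le.1 (hω.2 z y hzy)
      refine le_max_of_le_left (le_max_of_le_left ?_)
      linarith [this.1]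
    · have h2 := abs_le.1 (ds_adj (x₀ := x₀ i) hzy)
      have h3 := hqi i z
      refine le_max_of_le_left (le_max_of_le_right ?_)
      rw [max_eq_left (by omega)]
      have := hη y hye
      linarith

/-- A site next to the domain without the half boxes is far from the fronts. -/
theorem ebd_far (W : Ws V x₀ R σ η) (haR : a ≤ R + 1) {y : Pt} (hy : y ∈ ebd (Dk V x₀ a))
    (i : Fin 3) : a ≤ ds (x₀ i) y := by
  obtain ⟨hy, z, hz, hzy⟩ := hy
  have h1 := abs_le.1 (ds_adj (x₀ := x₀ i) hzy)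
  have h2 : a < ds (x₀ i) z := by
    by_contra hcon
    push Not at hcon
    have h3 := (W.fl i z (by omega)).1 hz.1
    exact hz.2 (mem_Hb.2 ⟨i, h3.1, hcon, h3.2⟩)
  omega

/-- Boundary values of an open law. -/
theorem bdy_open (W : Ws V x₀ R σ η) (hmo : Odd m) (hm0 : 0 ≤ m) (hl : IsLeast (Sm V η m) l)
    (hu : IsLeast (Sm V (-η) m) (-u)) (hω : Lip ω) {b : ℤ} (hη : ∀ y ∈ ebd V, |η y| ≤ m)
    (hw : ∀ y ∈ ebd V, ω y = η y ∨ ∃ i, ds (x₀ i) y + 1 ≤ b) (hba : b + m ≤ a)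
    (haR : a ≤ R + 1) : Bdy V (Dk V x₀ a) η m l u ω := by
  have hfar : ∀ y ∈ ebd (Dk V x₀ a), ∀ i, a ≤ ds (x₀ i) y := fun y hy i => ebd_far W haR hy i
  have hsub : ∀ y ∈ ebd (Dk V x₀ a), y ∉ V → y ∈ ebd V := by
    rintro y ⟨-, z, hz, hzy⟩ hyV
    exact ⟨hyV, z, hz.1, hzy⟩
  have hoff : ∀ y ∈ ebd (Dk V x₀ a), y ∉ V → ω y = η y := by
    intro y hy hyV
    rcases hw y (hsub y hy hyV) with h | ⟨i, hi⟩
    · exact h
    · have := hfar y hy i
      omega
  refine ⟨hω.1, fun x y hxy => hω.2 x y hxy.1, hoff, fun y hy => ?_, fun y hy => ?_⟩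
  · by_cases hyV : y ∈ V
    · exact open_low hmo hl hω (fun y hy => (abs_le.1 (hη y hy)).2) hw hyV
        fun i => hba.trans (hfar y hy i)
    · rw [IsLeast.off hl hyV, ← hoff y hy hyV]
      exact le_max_left _ _
  · by_cases hyV : y ∈ V
    · have hω' : Lip (-ω) := by
        refine ⟨fun x => (hω.1 x).neg, fun x y hxy => ?_⟩
        rw [Pi.neg_apply, Pi.neg_apply, show -ω x - -ω y = -(ω x - ω y) by ring, abs_neg]
        exact hω.2 x y hxy
      have h := open_low (ω := -ω) (x₀ := x₀) hmo hu hω' (b := b)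
        (fun y hy => by
          have := (abs_le.1 (hη y hy)).1
          rw [Pi.neg_apply]
          linarith)
        (fun y hy => by
          rcases hw y hy with h | h
          · left; rw [Pi.neg_apply, Pi.neg_apply, h]
          · exact Or.inr h) hyV fun i => hba.trans (hfar y hy i)
      rw [Pi.neg_apply, Pi.neg_apply, max_neg_neg] at h
      linarith
    · have h1 := IsLeast.off hu hyV
      rw [Pi.neg_apply, Pi.neg_apply] at h1
      rw [hoff y hy hyV, show u y = η y by linarith]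
      exact min_le_left _ _

/-- A cluster which reaches the smaller domain crosses one of the half annuli. -/
theorem crs_of_gd (W : Ws V x₀ R σ η) {a a' ℓ : ℤ} (haa : a ≤ a') (haR : a' ≤ R + 1) {h : Hg}
    (hh : h ∉ gd ℓ V (Dk V x₀ a) (Dk V x₀ a')) :
    ∃ i, h ∈ Crs (Dk V x₀ a) (x₀ i) (a + 1) a' ℓ := by
  unfold gd at hh
  rw [Set.mem_ofPred_eq] at hh
  push Not at hh
  obtain ⟨x, hx, hxD⟩ := hh
  obtain ⟨z, hz, hzx⟩ := hx
  have hmem : ∀ y, y ∈ V \ Dk V x₀ a → ∃ i, ds (x₀ i) y ≤ a := by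
    rintro y ⟨h1, h2⟩
    have : y ∈ Hb x₀ a := by
      by_contra h3
      exact h2 ⟨h1, h3⟩
    obtain ⟨i, hi⟩ := mem_Hb.1 this
    exact ⟨i, hi.2.1⟩
  have key : x ∈ V \ Dk V x₀ a ∨ ∃ i, ∃ y ∈ Dk V x₀ a, ds (x₀ i) y ≤ a + 1 ∧
      Conn (Dk V x₀ a ∩ dn h ℓ) y x := by
    refine Conn.ind (S := (V \ Dk V x₀ a) ∪ (Dk V x₀ a ∩ dn h ℓ)) (fun x => x ∈ V \ Dk V x₀ a ∨
      ∃ i, ∃ y ∈ Dk V x₀ a, ds (x₀ i) y ≤ a + 1 ∧ Conn (Dk V x₀ a ∩ dn h ℓ) y x) (Or.inl hz) ?_ hzx
    rintro u v - huv hv ih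
    rcases hv with hv | hv
    · exact Or.inl hv
    · right
      rcases ih with ih | ⟨i, y, hy, hyρ, hyu⟩
      · obtain ⟨i, hi⟩ := hmem u ih
        have h1 := abs_le.1 (ds_adj (x₀ := x₀ i) huv)
        exact ⟨i, v, hv.1, by omega, Conn.refl hv⟩
      · exact ⟨i, y, hy, hyρ, hyu.tail huv hv⟩
  have hxa : x ∈ Dk V x₀ a := ⟨hxD.1, fun h1 => by
    obtain ⟨i, hi⟩ := mem_Hb.1 h1
    exact hxD.2 (mem_Hb.2 ⟨i, hi.1, hi.2.1.trans haa, hi.2.2⟩)⟩
  rcases key with h1 | ⟨i, y, hy, hyρ, hyx⟩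
  · exact absurd hxa h1.2
  · refine ⟨i, y, hy, hyρ, x, hxa, ?_, hyx⟩
    by_contra hcon
    push Not at hcon
    have h3 := (W.fl i x (by omega)).1 hxD.1
    exact hxD.2 (mem_Hb.2 ⟨i, h3.1, hcon, h3.2⟩)

theorem cru_of_gd (W : Ws V x₀ R σ η) {a a' ℓ : ℤ} (haa : a ≤ a') (haR : a' ≤ R + 1) {h : Hg}
    (hh : -h ∉ gd ℓ V (Dk V x₀ a) (Dk V x₀ a')) :
    ∃ i, h ∈ Cru (Dk V x₀ a) (x₀ i) (a + 1) a' (-ℓ) := by
  obtain ⟨i, hi⟩ := crs_of_gd W haa haR hh
  refine ⟨i, ?_⟩
  have e : -h = rf 0 h := by rw [rf_zero]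
  rw [e, rf_crs] at hi
  simpa using hi

end Vale.Agent.P153.R2.Gp
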