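import Vale.Agent.P153.R2.GAPS.Gibbs

/-!
P153-R2, block GAPS (helper681), file 6: moments of the law `muT P` conditioned on bounded data on
a finite set which contains a macroscopic annulus.
-/

namespace Vale.Agent.P153.R2.Gp

open Finset MeasureTheory Filter Topology Relation Vale.Agent.P153 Vale.Agent.P153.F
  Vale.Agent.P153.F.Gh Vale.Agent.P153.F.X Vale.Agent.P153.F.X.LE
open Vale.Agent.P153.GFF (Ht Pat hexa LocLim)
open Vale.Agent.P153.Topo (Conn)

variable {P : Measure (Pt → ℤ)} {F : Hg → ℝ}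

theorem cle_sup {S : Finset Pt} {L : ℕ} (hS : S ⊆ bL L) (hN : ∀ x ∈ S, ∀ y, Adj x y → y ∈ bL L)
    {J : Pt → Set ℤ} (hJ : ∀ x ∈ S, ∀ a ∈ J x, a ≤ -1) {a b : Hg} (ha : a ∈ On S J)
    (hb : b ∈ ClE S) (hla : LipB L a) : a ⊔ b ∈ ClE S := by
  have h1 := cls_bl.1 hb
  refine cls_bl.2 ⟨fun x hx => ?_, fun x hx => ?_⟩
  · have h2 := h1.1 x hx
    have h3 := hJ x hx _ (ha x hx)
    have h4 := neg_abs_le (b x)
    rw [h2] at h4
    rw [Pi.sup_apply, max_eq_right (by omega), h2]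
  · obtain ⟨y, hy, h2⟩ := h1.2 x hx
    refine ⟨y, hy, ?_⟩
    have h3 := hJ x hx _ (ha x hx)
    have h4 := abs_le.1 (hla.2 x (hS hx) y (hN x hx y hy) hy)
    obtain ⟨k, hk⟩ := hla.1 y (hN x hx y hy)
    rw [Pi.sup_apply]
    rcases (abs_eq zero_le_one).1 h2 with h5 | h5
    · rw [h5, max_eq_right (by omega)]; rfl
    · rcases lt_or_ge (a y) 0 with h6 | h6
      · rw [h5, max_eq_right (by omega)]; rfl
      · have h7 : a y = 1 := by omega
        rw [h5, h7]; rfl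

theorem cle_inf {S : Finset Pt} {L : ℕ} (hS : S ⊆ bL L) (hN : ∀ x ∈ S, ∀ y, Adj x y → y ∈ bL L)
    {J : Pt → Set ℤ} (hJ : ∀ x ∈ S, ∀ a ∈ J x, 1 ≤ a) {a b : Hg} (ha : a ∈ ClE S)
    (hb : b ∈ On S J) (hlb : LipB L b) : a ⊓ b ∈ ClE S := by
  have h1 := cls_bl.1 ha
  refine cls_bl.2 ⟨fun x hx => ?_, fun x hx => ?_⟩
  · have h2 := h1.1 x hx
    have h3 := hJ x hx _ (hb x hx)
    rw [Pi.inf_apply, min_eq_left ((le_abs_self _).trans (h2.le.trans h3)), h2]
  · obtain ⟨y, hy, h2⟩ := h1.2 x hx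
    refine ⟨y, hy, ?_⟩
    have h3 := hJ x hx _ (hb x hx)
    have h4 := abs_le.1 (hlb.2 x (hS hx) y (hN x hx y hy) hy)
    obtain ⟨k, hk⟩ := hlb.1 y (hN x hx y hy)
    rw [Pi.inf_apply]
    rcases (abs_eq zero_le_one).1 h2 with h5 | h5
    · rcases lt_or_ge (b y) 1 with h6 | h6
      · have h7 : b y = -1 := by omega
        rw [h5, h7]; rfl
      · rw [h5, min_eq_left h6]; rfl
    · rw [h5, min_eq_left (by omega)]; rfl

/-- Data at most minus one: increasing functions are smaller than given the closed event. -/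
theorem up_gen (hP : GFF.Plane P) {S : Finset Pt} {J : Pt → Set ℤ}
    (hJ : ∀ x ∈ S, ∀ a ∈ J x, a ≤ -1) {x₀ : Pt} (hx₀ : x₀ ∈ S) {M : ℤ}
    (hM : ∀ a ∈ J x₀, |a| ≤ M) (hF : Monotone F) (hFd : LocF F) :
    (∫ h in On S J, F h ∂(muT P)) * (muT P).real (ClE S) ≤
      (∫ h in ClE S, F h ∂(muT P)) * (muT P).real (On S J) := by
  classical
  obtain ⟨L₀, -, hd⟩ := hFd.exists ∅
  obtain ⟨L₁, hL1, hL2, -, -⟩ := exists_L S x₀ 0 ∅
  set L := max L₀ L₁ with hL
  have q : ∀ x, x ∈ bL L₁ → x ∈ bL L := fun x hx => bL_mono (le_max_right _ _) hx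
  have hS : S ⊆ bL L := fun x hx => q x (hL1 hx)
  have hN : ∀ x ∈ S, ∀ y, Adj x y → y ∈ bL L := fun x hx y hxy => q y (hL2 x hx y hxy)
  exact holley hP (On.dep hS J) (dep_cle hN hS) (M := M) (M' := 1)
    (On.pin hS hx₀ hM) (fun h hh _ => ⟨x₀, hS hx₀, ((cls_bl.1 hh).1 x₀ hx₀).le⟩) hF
    (hd.mono (le_max_left _ _)) (fun a ha b hb _ _ x hx => by
      have h2 := (cls_bl.1 hb).1 x hx
      have h3 := hJ x hx _ (ha x hx)
      have h4 := neg_abs_le (b x)
      rw [h2] at h4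
      rw [Pi.inf_apply, min_eq_left (by omega)]
      exact ha x hx)
    fun a ha b hb hla _ => cle_sup hS hN hJ ha hb hla

/-- Data at least one: decreasing functions are smaller than given the closed event. -/
theorem down_gen (hP : GFF.Plane P) {S : Finset Pt} {J : Pt → Set ℤ}
    (hJ : ∀ x ∈ S, ∀ a ∈ J x, 1 ≤ a) {x₀ : Pt} (hx₀ : x₀ ∈ S) {M : ℤ}
    (hM : ∀ a ∈ J x₀, |a| ≤ M) (hF : Antitone F) (hFd : LocF F) :
    (∫ h in On S J, F h ∂(muT P)) * (muT P).real (ClE S) ≤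
      (∫ h in ClE S, F h ∂(muT P)) * (muT P).real (On S J) := by
  classical
  obtain ⟨L₀, -, hd⟩ := hFd.exists ∅
  obtain ⟨L₁, hL1, hL2, -, -⟩ := exists_L S x₀ 0 ∅
  set L := max L₀ L₁ with hL
  have q : ∀ x, x ∈ bL L₁ → x ∈ bL L := fun x hx => bL_mono (le_max_right _ _) hx
  have hS : S ⊆ bL L := fun x hx => q x (hL1 hx)
  have hN : ∀ x ∈ S, ∀ y, Adj x y → y ∈ bL L := fun x hx y hxy => q y (hL2 x hx y hxy)
  have hd' : DepB L fun h => -F h := fun h h' hh => by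
    simp only [(hd.mono (le_max_left _ _)) h h' hh]
  have key := holley hP (dep_cle hN hS) (On.dep hS J) (M := 1) (M' := M)
    (fun h hh _ => ⟨x₀, hS hx₀, ((cls_bl.1 hh).1 x₀ hx₀).le⟩) (On.pin hS hx₀ hM)
    (F := fun h => -F h) (fun h h' hh => neg_le_neg (hF hh)) hd'
    (fun a ha b hb _ hlb => cle_inf hS hN hJ ha hb hlb) fun a ha b hb _ _ x hx => by
      have h2 := (cls_bl.1 ha).1 x hx
      have h3 := hJ x hx _ (hb x hx)
      rw [Pi.sup_apply, max_eq_right ((le_abs_self _).trans (h2.le.trans h3))]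
      exact hb x hx
  rw [integral_neg, integral_neg] at key
  linarith

/-! ### Linear forms -/

/-- The linear form with the coefficients `u`. -/
noncomputable def Xu (u : Pt →₀ ℝ) (h : Hg) : ℝ := u.sum fun v a => a * (h v : ℝ)

/-- The total mass. -/
noncomputable def mass (u : Pt →₀ ℝ) : ℝ := u.sum fun _ a => a

theorem xu_vm (u : Pt →₀ ℝ) (h : Hg) : (u.sum fun v a => a * vm h v) = Xu u h := rfl

theorem xu_loc (u : Pt →₀ ℝ) (g : ℝ → ℝ) : LocF fun h => g (Xu u h) := by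
  refine ⟨u.support, fun h h' hh => ?_⟩
  simp only
  congr 1
  unfold Xu Finsupp.sum
  exact Finset.sum_congr rfl fun x hx => by simp only [hh x hx]

theorem xu_mono {u : Pt →₀ ℝ} (hu : ∀ v, 0 ≤ u v) : Monotone (Xu u) := by
  intro h h' hh
  unfold Xu Finsupp.sum
  refine Finset.sum_le_sum fun x _ => mul_le_mul_of_nonneg_left ?_ (hu x)
  exact_mod_cast hh x

theorem xu_shift (u : Pt →₀ ℝ) (t : ℤ) (h : Hg) :
    Xu u (fun x => h x + 2 * t) = Xu u h + 2 * t * mass u := by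
  unfold Xu mass Finsupp.sum
  rw [Finset.mul_sum, ← Finset.sum_add_distrib]
  refine Finset.sum_congr rfl fun x _ => ?_
  push_cast
  ring

theorem pol_mul {R : ℝ → Prop} {f g : Top.Om → ℝ} (hf : Top.Pol R f) (hg : Top.Pol R g) :
    Top.Pol R (fun ω => f ω * g ω) := by
  induction hf with
  | mon l =>
    induction l with
    | nil => exact hg.of_eq fun ω => by simp
    | cons v l ih => exact (ih.cons v).of_eq fun ω => by simp; ring
  | zero => exact Top.Pol.zero.of_eq fun ω => by simp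
  | add _ _ h1 h2 => exact (h1.add h2).of_eq fun ω => by ring
  | smul c hc _ h1 => exact (h1.smul c hc).of_eq fun ω => by ring

theorem cone_xu {u : Pt →₀ ℝ} (hu : ∀ v, 0 ≤ u v) (k : ℕ) :
    Top.Cone fun ω : Top.Om => (u.sum fun v a => a * ω v) ^ k := by
  have h1 : Top.Cone fun ω : Top.Om => u.sum fun v a => a * ω v := by
    unfold Finsupp.sum
    exact Top.Pol.sum u.support (fun v ω => u v * ω v) fun v _ =>
      ((Top.Pol.mon (P := fun c => 0 ≤ c) [v]).of_eq (g := fun ω => ω v) fun ω => by simp).smul _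
        (hu v)
  induction k with
  | zero => exact (Top.Pol.one (P := fun c => 0 ≤ c)).of_eq fun ω => by simp
  | succ k ih => exact (pol_mul ih h1).of_eq fun ω => by ring

theorem mass_le {K : ℝ} (hK : 0 < K) {s : ℤ} (hs : 1 ≤ s) {p : Pt} {u : Pt →₀ ℝ}
    (hu : ∀ v, 0 ≤ u v ∧ u v ≤ K / (s : ℝ) ^ 2)
    (hsupp : ∀ v, u v ≠ 0 → |((v.1 - p.1 : ℤ) : ℝ)| ≤ K * s ∧ |((v.2 - p.2 : ℤ) : ℝ)| ≤ K * s) :
    0 ≤ mass u ∧ mass u ≤ K * (2 * K + 1) ^ 2 := by
  have hs0 : (1 : ℝ) ≤ s := by exact_mod_cast hs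
  refine ⟨Finset.sum_nonneg fun v _ => (hu v).1, ?_⟩
  set n : ℤ := ⌊K * s⌋ with hn
  have hn0 : 0 ≤ n := Int.floor_nonneg.2 (by positivity)
  have hn1 : (n : ℝ) ≤ K * s := Int.floor_le _
  have hsub : u.support ⊆ Finset.Icc (p.1 - n) (p.1 + n) ×ˢ Finset.Icc (p.2 - n) (p.2 + n) := by
    intro v hv
    obtain ⟨h1, h2⟩ := hsupp v (Finsupp.mem_support_iff.1 hv)
    have h3 : |v.1 - p.1| ≤ n := by
      rw [hn, Int.le_floor]
      push_cast at h1 ⊢
      exact h1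
    have h4 : |v.2 - p.2| ≤ n := by
      rw [hn, Int.le_floor]
      push_cast at h2 ⊢
      exact h2
    rw [abs_le] at h3 h4
    rw [Finset.mem_product, Finset.mem_Icc, Finset.mem_Icc]
    omega
  have hcard : (u.support.card : ℝ) ≤ (2 * n + 1) ^ 2 := by
    have h1 := Finset.card_le_card hsub
    rw [Finset.card_product, Int.card_Icc, Int.card_Icc] at h1
    have h2 : ((p.1 + n + 1 - (p.1 - n)).toNat : ℤ) = 2 * n + 1 := by omega
    have h3 : ((p.2 + n + 1 - (p.2 - n)).toNat : ℤ) = 2 * n + 1 := by omega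
    have h4 : (u.support.card : ℤ) ≤ (2 * n + 1) * (2 * n + 1) := by
      rw [← h2]
      nth_rw 2 [h2]
      rw [← h3]
      exact_mod_cast h1
    have h5 : ((u.support.card : ℤ) : ℝ) ≤ (((2 * n + 1) * (2 * n + 1) : ℤ) : ℝ) := by
      exact_mod_cast h4
    push_cast at h5
    nlinarith [h5]
  calc mass u ≤ ∑ _v ∈ u.support, K / (s : ℝ) ^ 2 := Finset.sum_le_sum fun v _ => (hu v).2
    _ = u.support.card * (K / (s : ℝ) ^ 2) := by rw [Finset.sum_const, nsmul_eq_mul]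
    _ ≤ (2 * K * s + 1) ^ 2 * (K / (s : ℝ) ^ 2) := by
        refine mul_le_mul_of_nonneg_right (hcard.trans ?_) (by positivity)
        have h6 : (0 : ℝ) ≤ 2 * n + 1 := by
          have : (0 : ℝ) ≤ n := by exact_mod_cast hn0
          linarith
        exact pow_le_pow_left₀ h6 (by linarith) 2
    _ ≤ (2 * K * s + s) ^ 2 * (K / (s : ℝ) ^ 2) := by
        refine mul_le_mul_of_nonneg_right (pow_le_pow_left₀ (by positivity) (by linarith) 2)
          (by positivity)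
    _ = K * (2 * K + 1) ^ 2 := by
        field_simp

/-- Moments given the closed event. -/
theorem mom_cle (hMom : S_mom P) (hE : S_emom P) (hR : S_rsw P) (hL : S_loc) :
    ∀ (K : ℝ) (k : ℕ), 0 < K → ∃ C : ℝ, 0 ≤ C ∧ ∃ s₀ : ℤ, 1 ≤ s₀ ∧ ∀ s, s₀ ≤ s → ∀ (p : Pt)
      (u : Pt →₀ ℝ), (∀ v, 0 ≤ u v ∧ u v ≤ K / (s : ℝ) ^ 2) →
      (∀ v, u v ≠ 0 → |((v.1 - p.1 : ℤ) : ℝ)| ≤ K * s ∧ |((v.2 - p.2 : ℤ) : ℝ)| ≤ K * s) →
      (∀ v, u v ≠ 0 → v ∉ X.bx p (8 * s)) → ∀ S : Finset Pt, HasAnn S p (4 * s) →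
      ∫ h in ClE S, Xu u h ^ (2 * k) ∂(muT P) ≤ C * (muT P).real (ClE S) := by
  intro K k hK
  obtain ⟨C, s₁, hs₁, hC⟩ := hMom K k hK
  obtain ⟨c₁, hc₁, r₁, hr₁, hr⟩ := hR
  obtain ⟨r₀, hr₀, hzr⟩ := exists_zr ⟨c₁, hc₁, r₁, hr₁, hr⟩ hL
  refine ⟨|C| / c₁, by positivity, max s₁ (max r₁ r₀), le_max_of_le_left hs₁,
    fun s hs p u hu hsupp haway S hS => ?_⟩
  have hs1 : s₁ ≤ s := (le_max_left _ _).trans hs
  have hs2 : r₁ ≤ s := (le_max_left _ _).trans ((le_max_right _ _).trans hs)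
  have hs3 : r₀ ≤ s := (le_max_right _ _).trans ((le_max_right _ _).trans hs)
  have hs4 : 1 ≤ s := hs₁.trans hs1
  have hSn := hS.nonempty (by linarith)
  have hfn := fn_cls hSn
  set A : Top.Om → ℝ := fun ω => (u.sum fun v a => a * ω v) ^ (2 * k) with hA
  have hAc : Top.Cone A := cone_xu (fun v => (hu v).1) _
  have hOn : X.On (X.bx p (8 * s))ᶜ A := by
    intro ω ω' hω
    simp only [hA]
    congr 1
    unfold Finsupp.sum
    refine Finset.sum_congr rfl fun v hv => ?_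
    simp only [hω v (haway v (Finsupp.mem_support_iff.1 hv))]
  have h1 := hE p s (X.ind (ClS S)) A hs4 hfn (ind_mono' fun B B' hB => cls_mono hB)
    (fun B hB => hzr _ (by linarith) p B (zr_of_cls (ind_ne hB) hS)) hAc hOn
  have h2 := hC s hs1 p u hu hsupp
  have h3 := (hr s hs2 p).1
  -- translate
  obtain ⟨L, hL1, hL2, -, -⟩ := exists_L S p 0 ∅
  have hdA := dep_cle hL2 hL1
  have e : ∀ G : Top.Om → ℝ, II P (X.ind (ClS S)) G = ∫ h in ClE S, G (vm h) ∂(muT P) := by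
    intro G
    unfold II
    rw [← integral_indicator hdA.measurable]
    congr 1
    funext h
    by_cases h4 : h ∈ ClE S
    · rw [Set.indicator_of_mem h4, ind_one (show ClS S (bl h) from h4), one_mul]
    · rw [Set.indicator_of_notMem h4, ind_zero (show ¬ ClS S (bl h) from h4), zero_mul]
  rw [e, e] at h1
  have e1 : ∫ h in ClE S, (1 : ℝ) ∂(muT P) = (muT P).real (ClE S) := by
    rw [integral_const, smul_eq_mul, mul_one, measureReal_restrict_apply_univ]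
  rw [e1] at h1
  have e2 : ∫ h in ClE S, A (vm h) ∂(muT P) = ∫ h in ClE S, Xu u h ^ (2 * k) ∂(muT P) := rfl
  rw [e2] at h1
  have h0 : 0 ≤ ∫ h in ClE S, Xu u h ^ (2 * k) ∂(muT P) :=
    integral_nonneg fun h => (even_two_mul k).pow_nonneg _
  have hm0 : 0 ≤ (muT P).real (ClE S) := measureReal_nonneg
  have h5 : (∫ h in ClE S, Xu u h ^ (2 * k) ∂(muT P)) * c₁ ≤ (muT P).real (ClE S) * |C| :=
    calc (∫ h in ClE S, Xu u h ^ (2 * k) ∂(muT P)) * c₁
        ≤ (∫ h in ClE S, Xu u h ^ (2 * k) ∂(muT P)) * II P (X.ind (Zr p s)) (fun _ => 1) :=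
          mul_le_mul_of_nonneg_left h3 h0
      _ ≤ (muT P).real (ClE S) * II P (X.ind (Zr p s)) A := h1
      _ ≤ (muT P).real (ClE S) * |C| :=
          mul_le_mul_of_nonneg_left (h2.trans (le_abs_self _)) hm0
  rw [div_mul_eq_mul_div, le_div_iff₀ hc₁]
  linarith

theorem locF_integrableOn (hP : GFF.Plane P) {A : Set Hg} {L : ℕ} {M : ℤ} (hA : DepS L A)
    (hp : PinB L M A) {G : Hg → ℝ} (hG : LocF G) : IntegrableOn G A (muT P) := by
  obtain ⟨L', -, hd⟩ := hG.exists ∅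
  have hp' : PinB (max L L') M A := fun h hh hl => by
    have hl' : LipB L h := ⟨fun x hx => hl.1 x (bL_mono (le_max_left _ _) hx), fun x hx y hy =>
      hl.2 x (bL_mono (le_max_left _ _) hx) y (bL_mono (le_max_left _ _) hy)⟩
    obtain ⟨x, hx, h3⟩ := hp h hh hl'
    exact ⟨x, bL_mono (le_max_left _ _) hx, h3⟩
  exact integrableOn_loc hP (hA.mono (le_max_left _ _)) hp' (hd.mono (le_max_right _ _))

theorem onS_integrable (hP : GFF.Plane P) {S : Finset Pt} {J : Pt → Set ℤ} {x₀ : Pt}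
    (hx₀ : x₀ ∈ S) {M : ℤ} (hM : ∀ a ∈ J x₀, |a| ≤ M) {G : Hg → ℝ} (hG : LocF G) :
    IntegrableOn G (On S J) (muT P) := by
  obtain ⟨L, hL⟩ := exists_bL S
  exact locF_integrableOn hP (On.dep hL J) (On.pin hL hx₀ hM) hG

theorem cle_integrable (hP : GFF.Plane P) {S : Finset Pt} (hS : S.Nonempty) {G : Hg → ℝ}
    (hG : LocF G) : IntegrableOn G (ClE S) (muT P) := by
  obtain ⟨x, hx⟩ := hS
  obtain ⟨L, hL1, hL2, -, -⟩ := exists_L S x 0 ∅
  exact locF_integrableOn hP (dep_cle hL2 hL1) (M := 1)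
    (fun h hh _ => ⟨x, hL1 hx, ((cls_bl.1 hh).1 x hx).le⟩) hG

/-- Shift of the heights in an integral over data. -/
theorem onS_shift {S : Finset Pt} (J : Pt → Set ℤ) (t : ℤ) (G : Hg → ℝ) (hG : Measurable G) :
    ∫ h in On S J, G h ∂(muT P) =
      ∫ h in On S (fun x => {a | a + 2 * t ∈ J x}), G (fun x => h x + 2 * t) ∂(muT P) := by
  obtain ⟨L, hL⟩ := exists_bL S
  have hm := (On.dep hL J).measurable
  have e : (fun (h : Hg) (x : Pt) => h x + 2 * t) ⁻¹' (On S J) =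
      On S (fun x => {a | a + 2 * t ∈ J x}) := rfl
  rw [← e, ← setIntegral_map hm (hG.aestronglyMeasurable) (measurable_sh t).aemeasurable, muT_sh]

theorem real_onS_shift {S : Finset Pt} (J : Pt → Set ℤ) (t : ℤ) :
    (muT P).real (On S (fun x => {a | a + 2 * t ∈ J x})) = (muT P).real (On S J) := by
  obtain ⟨L, hL⟩ := exists_bL S
  exact real_sh t (On.dep hL J).measurable

/-- **Moments of the open law**, uniformly in bounded data. -/
theorem mom_open (hP : GFF.Plane P) (hMom : S_mom P) (hE : S_emom P) (hR : S_rsw P) (hL : S_loc)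
    (hF : S_conf) :
    ∀ (K : ℝ) (k : ℕ), 0 < K → ∃ C : ℝ, 0 ≤ C ∧ ∃ s₀ : ℤ, 1 ≤ s₀ ∧ ∀ s, s₀ ≤ s → ∀ (p : Pt)
      (u : Pt →₀ ℝ), (∀ v, 0 ≤ u v ∧ u v ≤ K / (s : ℝ) ^ 2) →
      (∀ v, u v ≠ 0 → |((v.1 - p.1 : ℤ) : ℝ)| ≤ K * s ∧ |((v.2 - p.2 : ℤ) : ℝ)| ≤ K * s) →
      (∀ v, u v ≠ 0 → v ∉ X.bx p (8 * s)) → ∀ S : Finset Pt, HasAnn S p (4 * s) →
      ∀ m : ℤ, 0 ≤ m → ∀ J : Pt → Set ℤ, (∀ x ∈ S, ∀ a ∈ J x, |a| ≤ m) →
      ∫ h in On S J, Xu u h ^ (2 * k) ∂(muT P) ≤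
        C * (m + 1) ^ (2 * k) * (muT P).real (On S J) := by
  intro K k hK
  obtain ⟨C₁, hC₁, s₀, hs₀, hs⟩ := mom_cle hMom hE hR hL K k hK
  set D : ℝ := K * (2 * K + 1) ^ 2 with hD
  have hD0 : 0 ≤ D := by positivity
  refine ⟨2 * (2 ^ (2 * k) * (C₁ + (2 * D) ^ (2 * k))), by positivity, s₀, hs₀,
    fun s hs1 p u hu hsupp haway S hS m hm J hJ => ?_⟩
  have hs4 : 1 ≤ s := hs₀.trans hs1
  have hSn := hS.nonempty (by linarith)
  have hcl := hs s hs1 p u hu hsupp haway S hS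
  have hpos := cle_pos hP hR hF hSn
  obtain ⟨hm0, hmD⟩ := mass_le hK hs4 hu hsupp
  obtain ⟨x₀, hx₀⟩ := hSn
  have hmR : (0 : ℝ) ≤ m := by exact_mod_cast hm
  set B : ℝ := 2 * (m + 1) * D with hB
  have hB0 : 0 ≤ B := by positivity
  -- the generic bound
  have gen : ∀ (J' : Pt → Set ℤ) (G : Hg → ℝ), LocF G → (∀ h, G h ≤ (|Xu u h| + B) ^ (2 * k)) →
      (∫ h in On S J', G h ∂(muT P)) * (muT P).real (ClE S) ≤
        (∫ h in ClE S, G h ∂(muT P)) * (muT P).real (On S J') →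
      ∫ h in On S J', G h ∂(muT P) ≤
        2 ^ (2 * k) * (C₁ + B ^ (2 * k)) * (muT P).real (On S J') := by
    intro J' G hG hGb hcmp
    have h1 : ∫ h in ClE S, G h ∂(muT P) ≤ 2 ^ (2 * k) * (C₁ + B ^ (2 * k)) * (muT P).real (ClE S) := by
      have h2 : ∫ h in ClE S, G h ∂(muT P) ≤
          ∫ h in ClE S, 2 ^ (2 * k) * (Xu u h ^ (2 * k) + B ^ (2 * k)) ∂(muT P) := by
        refine integral_mono (cle_integrable hP ⟨x₀, hx₀⟩ hG) (cle_integrable hP ⟨x₀, hx₀⟩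
          (xu_loc u fun y => 2 ^ (2 * k) * (y ^ (2 * k) + B ^ (2 * k)))) fun h => ?_
        refine (hGb h).trans ((add_pow_le (abs_nonneg _) hB0 _).trans ?_)
        rw [(even_two_mul k).pow_abs]
        refine mul_le_mul_of_nonneg_right (pow_le_pow_right₀ (by norm_num) (by omega)) ?_
        exact add_nonneg ((even_two_mul k).pow_nonneg _) (pow_nonneg hB0 _)
      have i1 : IntegrableOn (fun h => Xu u h ^ (2 * k)) (ClE S) (muT P) :=
        cle_integrable hP ⟨x₀, hx₀⟩ (xu_loc u fun y => y ^ (2 * k))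
      have i2 : IntegrableOn (fun _ => B ^ (2 * k)) (ClE S) (muT P) :=
        cle_integrable hP ⟨x₀, hx₀⟩ (xu_loc u fun _ => B ^ (2 * k))
      rw [integral_const_mul, integral_add i1 i2, integral_const, smul_eq_mul,
        measureReal_restrict_apply_univ] at h2
      refine h2.trans ?_
      rw [mul_assoc]
      refine mul_le_mul_of_nonneg_left ?_ (by positivity)
      linarith
    refine le_of_mul_le_mul_right (hcmp.trans ((mul_le_mul_of_nonneg_right h1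
      measureReal_nonneg).trans_eq ?_)) hpos
    ring
  have hmR2 : 2 * ((m + 1 : ℤ) : ℝ) * mass u ≤ B := by
    rw [hB]
    push_cast
    exact mul_le_mul_of_nonneg_left hmD (by positivity)
  have hmR3 : 0 ≤ 2 * ((m + 1 : ℤ) : ℝ) * mass u := by
    push_cast
    positivity
  -- positive part
  have hp1 : ∫ h in On S J, max (Xu u h) 0 ^ (2 * k) ∂(muT P) ≤
      2 ^ (2 * k) * (C₁ + B ^ (2 * k)) * (muT P).real (On S J) := by
    rw [onS_shift J (m + 1) (fun h => max (Xu u h) 0 ^ (2 * k)) (by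
      obtain ⟨L, -, hd⟩ := (xu_loc u fun y => max y 0 ^ (2 * k)).exists ∅
      exact hd.measurable), ← real_onS_shift J (m + 1)]
    simp only [xu_shift]
    refine gen _ _ (xu_loc u fun y => max (y + 2 * ((m + 1 : ℤ) : ℝ) * mass u) 0 ^ (2 * k))
      (fun h => ?_) ?_
    · refine pow_le_pow_left₀ (le_max_right _ _) (max_le ?_ (by positivity)) _
      linarith [le_abs_self (Xu u h)]
    · refine up_gen hP (fun x hx a ha => ?_) hx₀ (M := 3 * m + 2) (fun a ha => ?_) ?_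
        (xu_loc u fun y => max (y + 2 * ((m + 1 : ℤ) : ℝ) * mass u) 0 ^ (2 * k))
      · have h1 := abs_le.1 (hJ x hx _ (show a + 2 * (m + 1) ∈ J x from ha))
        omega
      · have h1 := abs_le.1 (hJ x₀ hx₀ _ (show a + 2 * (m + 1) ∈ J x₀ from ha))
        rw [abs_le]
        omega
      · intro h h' hh
        refine pow_le_pow_left₀ (le_max_right _ _) (max_le_max ?_ le_rfl) _
        linarith [xu_mono (fun v => (hu v).1) hh]
  -- negative part
  have hp2 : ∫ h in On S J, max (-Xu u h) 0 ^ (2 * k) ∂(muT P) ≤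
      2 ^ (2 * k) * (C₁ + B ^ (2 * k)) * (muT P).real (On S J) := by
    rw [onS_shift J (-(m + 1)) (fun h => max (-Xu u h) 0 ^ (2 * k)) (by
      obtain ⟨L, -, hd⟩ := (xu_loc u fun y => max (-y) 0 ^ (2 * k)).exists ∅
      exact hd.measurable), ← real_onS_shift J (-(m + 1))]
    simp only [xu_shift]
    refine gen _ _ (xu_loc u fun y => max (-(y + 2 * ((-(m + 1) : ℤ) : ℝ) * mass u)) 0 ^ (2 * k))
      (fun h => ?_) ?_
    · refine pow_le_pow_left₀ (le_max_right _ _) (max_le ?_ (by positivity)) _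
      have h1 := neg_abs_le (Xu u h)
      push_cast at hmR2 ⊢
      linarith
    · refine down_gen hP (fun x hx a ha => ?_) hx₀ (M := 3 * m + 2) (fun a ha => ?_) ?_
        (xu_loc u fun y => max (-(y + 2 * ((-(m + 1) : ℤ) : ℝ) * mass u)) 0 ^ (2 * k))
      · have h1 := abs_le.1 (hJ x hx _ (show a + 2 * (-(m + 1)) ∈ J x from ha))
        omega
      · have h1 := abs_le.1 (hJ x₀ hx₀ _ (show a + 2 * (-(m + 1)) ∈ J x₀ from ha))
        rw [abs_le]
        omega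
      · intro h h' hh
        refine pow_le_pow_left₀ (le_max_right _ _) (max_le_max ?_ le_rfl) _
        linarith [xu_mono (fun v => (hu v).1) hh]
  -- together
  have hM : ∀ a ∈ J x₀, |a| ≤ m := hJ x₀ hx₀
  have i0 : IntegrableOn (fun h => Xu u h ^ (2 * k)) (On S J) (muT P) :=
    onS_integrable hP hx₀ hM (xu_loc u fun y => y ^ (2 * k))
  have i1 : IntegrableOn (fun h => max (Xu u h) 0 ^ (2 * k)) (On S J) (muT P) :=
    onS_integrable hP hx₀ hM (xu_loc u fun y => max y 0 ^ (2 * k))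
  have i2 : IntegrableOn (fun h => max (-Xu u h) 0 ^ (2 * k)) (On S J) (muT P) :=
    onS_integrable hP hx₀ hM (xu_loc u fun y => max (-y) 0 ^ (2 * k))
  have h1 : ∫ h in On S J, Xu u h ^ (2 * k) ∂(muT P) ≤
      ∫ h in On S J, (max (Xu u h) 0 ^ (2 * k) + max (-Xu u h) 0 ^ (2 * k)) ∂(muT P) := by
    refine integral_mono i0 (i1.add i2) fun h => ?_
    simp only
    rcases le_total 0 (Xu u h) with h2 | h2
    · rw [max_eq_left h2]
      have : 0 ≤ max (-Xu u h) 0 ^ (2 * k) := pow_nonneg (le_max_right _ _) _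
      linarith
    · rw [max_eq_left (neg_nonneg.2 h2), (even_two_mul k).neg_pow]
      have : 0 ≤ max (Xu u h) 0 ^ (2 * k) := pow_nonneg (le_max_right _ _) _
      linarith
  rw [integral_add i1 i2] at h1
  have h2 : B ^ (2 * k) = (2 * D) ^ (2 * k) * ((m : ℝ) + 1) ^ (2 * k) := by
    rw [← mul_pow, hB]
    congr 1
    ring
  have h3 : (1 : ℝ) ≤ ((m : ℝ) + 1) ^ (2 * k) := one_le_pow₀ (by linarith)
  have h4 : 2 ^ (2 * k) * (C₁ + B ^ (2 * k)) ≤
      2 ^ (2 * k) * (C₁ + (2 * D) ^ (2 * k)) * ((m : ℝ) + 1) ^ (2 * k) := by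
    rw [h2, mul_assoc]
    refine mul_le_mul_of_nonneg_left ?_ (by positivity)
    nlinarith [mul_le_mul_of_nonneg_left h3 hC₁]
  have h5 : 0 ≤ (muT P).real (On S J) := measureReal_nonneg
  nlinarith [mul_le_mul_of_nonneg_right h4 h5]

end Vale.Agent.P153.R2.Gp
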