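import Vale.Agent.P153.R2.GAPS.Core
import Vale.Agent.P153.R2.GAPS.CMom

/-!
P153-R2, block GAPS (helper681), file 16: the open law as a probability measure with the Gibbs
property; its escaping clusters.
-/

namespace Vale.Agent.P153.R2.Gp

open Finset MeasureTheory Filter Topology Relation Vale.Agent.P153 Vale.Agent.P153.F
  Vale.Agent.P153.F.Gh Vale.Agent.P153.F.X Vale.Agent.P153.F.X.LE
open Vale.Agent.P153.GFF (Ht Pat hexa LocLim)
open Vale.Agent.P153.Topo (Conn)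
open Vale.Agent.P153.R2.LOC (ds ds_adj mem_bx_iff NO)
open Vale.Agent.P153.R2.SDAR (vv)
open Vale.Agent.P153.R2.RINS (XC mem_XC DepOn Wt Yv Gib Bdy Lc Qk Sm gd Pk)

variable {P : Measure (Pt → ℤ)}

/-- The open law as a probability measure. -/
theorem exists_open (hP : GFF.Plane P) (hR : S_rsw P) (hF : S_conf) {M : ℕ} {η : Hg}
    (hη : SDAR.Bd M η) {S : Finset Pt} (hS : S.Nonempty) :
    ∃ Q : Measure Hg, IsProbabilityMeasure Q ∧ (∀ᵐ ω ∂Q, Lip ω ∧ ∀ x ∈ S, ω x = η x) ∧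
      (∀ F : Hg → ℝ, LocF F → Integrable F Q ∧
        (∫ h, F h ∂Q) * (muT P).real (On S fun x => {η x}) =
          ∫ h in On S (fun x => {η x}), F h ∂(muT P)) ∧
      (∀ B : Set Hg, Q.real B * (muT P).real (On S fun x => {η x}) =
        (muT P).real (On S (fun x => {η x}) ∩ B)) ∧
      ∀ V : Finset Pt, (∀ x ∈ S, x ∉ V) → ∀ F : Hg → ℝ, LocF F →
        Integrable (fun ω => Ex (Cfg (V : Set Pt) (exa V ω)) F) Q ∧
          ∫ h, F h ∂Q = ∫ ω, Ex (Cfg (V : Set Pt) (exa V ω)) F ∂Q := by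
  set A : Set Hg := On S fun x => {η x} with hA
  have hAm : MeasurableSet A := on_meas S _
  have hpos : 0 < (muT P).real A := on_pos hP hR hF hη hS
  obtain ⟨x₀, hx₀⟩ := hS
  obtain ⟨L, hL⟩ := exists_bL S
  have hpin := On.pin (I := fun x => {η x}) hL hx₀ (M := |η x₀|)
    (fun a ha => by rw [Set.mem_singleton_iff.1 ha])
  have hfin : muT P A ≠ ⊤ := finite_pin hP (On.dep hL _) hpin
  have h0 : muT P A ≠ 0 := fun h => by
    rw [measureReal_def, h] at hpos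
    simp at hpos
  set c : ENNReal := (muT P A)⁻¹ with hc
  have hcR : c.toReal = ((muT P).real A)⁻¹ := by rw [hc, ENNReal.toReal_inv]; rfl
  have hcT : c ≠ ⊤ := ENNReal.inv_ne_top.2 h0
  have hae : ∀ p : Hg → Prop, (∀ᵐ ω ∂(muT P).restrict A, p ω) →
      ∀ᵐ ω ∂(c • (muT P).restrict A), p ω := fun p hp =>
    Measure.ae_smul_measure hp c
  have hint : ∀ G : Hg → ℝ, (∫ h, G h ∂(c • (muT P).restrict A)) =
      ((muT P).real A)⁻¹ * ∫ h in A, G h ∂(muT P) := fun G => by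
    rw [integral_smul_measure, hcR, smul_eq_mul]
  have hreal : ∀ B : Set Hg, (c • (muT P).restrict A).real B =
      ((muT P).real A)⁻¹ * (muT P).real (A ∩ B) := fun B => by
    rw [measureReal_def, Measure.smul_apply, smul_eq_mul, ENNReal.toReal_mul, hcR,
      Measure.restrict_apply' hAm, Set.inter_comm]
    rfl
  refine ⟨c • (muT P).restrict A, ⟨?_⟩, hae _ ?_, fun F hFl => ⟨?_, ?_⟩, fun B => ?_,
    fun V hV F hFl => ⟨?_, ?_⟩⟩
  · rw [Measure.smul_apply, Measure.restrict_apply_univ, smul_eq_mul, hc,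
      ENNReal.inv_mul_cancel h0 hfin]
  · rw [ae_restrict_iff' hAm]
    filter_upwards [(gb_of_plane hP).lip] with ω hω hωA
    exact ⟨hω, fun x hx => hωA x hx⟩
  · exact (onS_integrable hP hx₀ (M := |η x₀|) (fun a ha => by
      rw [Set.mem_singleton_iff.1 ha]) hFl).smul_measure hcT
  · rw [hint, mul_comm, ← mul_assoc, mul_inv_cancel₀ hpos.ne', one_mul]
  · rw [hreal, mul_comm, ← mul_assoc, mul_inv_cancel₀ hpos.ne', one_mul]
  · exact (integrableOn_Ex hP (On.dep hL _) hpin hFl).smul_measure hcT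
  · rw [hint, hint, dlr_Ex (V := V) hP (On.dep hL _) hpin (fun a b hab => ?_) hFl]
    have : ∀ x ∈ S, a x = b x := fun x hx => hab x (hV x hx)
    constructor
    · intro h x hx
      rw [← this x hx]; exact h x hx
    · intro h x hx
      rw [this x hx]; exact h x hx

/-- The region behind the front, on the right of the corridor. -/
def Bh (i : Fin 3) (x₀ : Pt) (s R : ℤ) : Set Pt :=
  {x | vv i x₀ ≤ vv i x ∧ ds x₀ x ≤ R ∧ s ≤ x.1 - x₀.1 ∧ s ≤ x.1 - x₀.1 - (vv i x - vv i x₀)}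

/-- The centre of the annuli. -/
def pc (i : Fin 3) (x₀ : Pt) (s r : ℤ) : Pt := pq i (x₀.1 + 6 * r + s) (vv i x₀ + 2 * r)

theorem abs_vv (i : Fin 3) (x y : Pt) : |vv i x - vv i y| = |x.2 - y.2| := by
  unfold vv
  split_ifs
  · rfl
  · rw [show -x.2 - -y.2 = -(x.2 - y.2) by ring, abs_neg]

theorem bx_vv {i : Fin 3} {p x : Pt} {r : ℤ} (h : x ∈ F.X.bx p r) :
    |x.1 - p.1| ≤ r ∧ |vv i x - vv i p| ≤ r := ⟨h.1, by rw [abs_vv]; exact h.2⟩

theorem bx_pc_sub {i : Fin 3} {x₀ x : Pt} {s r R : ℤ} (hs : 0 ≤ s) (_ : 0 ≤ r)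
    (hR : s + 8 * r ≤ R) (hx : x ∈ F.X.bx (pc i x₀ s r) (2 * r)) : x ∈ Bh i x₀ s R := by
  obtain ⟨h1, h2⟩ := bx_vv (i := i) hx
  rw [pc, pq_fst, abs_le] at h1
  rw [pc, vv_pq, abs_le] at h2
  refine ⟨by omega, ?_, by omega, by omega⟩
  rw [ds_eq i]
  refine max_le ?_ ?_ <;> rw [abs_le] <;> omega

theorem bx_x₀_sub {i : Fin 3} {x₀ x : Pt} {s r ρ : ℤ} (hs : 0 ≤ s) (hr : 0 ≤ r)
    (hR : 2 * s + 1 + 6 * r ≤ ρ) (hx : ds x₀ x ≤ s + 1) : x ∈ F.X.bx (pc i x₀ s r) ρ := by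
  rw [ds_eq i] at hx
  obtain ⟨h1, h2⟩ := max_le_iff.1 hx
  rw [abs_le] at h1 h2
  refine ⟨?_, ?_⟩
  · rw [pc, pq_fst, abs_le]; omega
  · rw [← abs_vv i, pc, vv_pq, abs_le]; omega

theorem not_bx_of_ds {i : Fin 3} {x₀ x : Pt} {s r ρ a : ℤ} (hs : 0 ≤ s) (_ : 0 ≤ r)
    (hR : ρ + 6 * r + s ≤ a) (hx : a < ds x₀ x) : x ∉ F.X.bx (pc i x₀ s r) ρ := by
  intro h
  obtain ⟨h1, h2⟩ := bx_vv (i := i) h
  rw [pc, pq_fst, abs_le] at h1
  rw [pc, vv_pq, abs_le] at h2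
  rw [ds_eq i, lt_max_iff, lt_abs, lt_abs] at hx
  omega

theorem crs_esc {D : Set Pt} {i : Fin 3} {x₀ : Pt} {s r ρ ρ' a ℓ : ℤ} (hs : 0 ≤ s) (hr : 0 ≤ r)
    (h1 : 2 * s + 1 + 6 * r ≤ ρ) (h2 : ρ' + 6 * r + s ≤ a) {h : Hg}
    (hh : h ∈ Crs D x₀ (s + 1) a ℓ) : Esc {x | h x ≤ ℓ} (pc i x₀ s r) ρ ρ' := by
  obtain ⟨x, _, hxρ, y, _, hya, hxy⟩ := hh
  exact ⟨x, bx_x₀_sub hs hr h1 hxρ, y, not_bx_of_ds hs hr h2 hya, hxy.mono fun z hz => hz.2⟩

theorem cru_esc {D : Set Pt} {i : Fin 3} {x₀ : Pt} {s r ρ ρ' a ℓ : ℤ} (hs : 0 ≤ s) (hr : 0 ≤ r)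
    (h1 : 2 * s + 1 + 6 * r ≤ ρ) (h2 : ρ' + 6 * r + s ≤ a) {h : Hg}
    (hh : h ∈ Cru D x₀ (s + 1) a ℓ) : Esc {x | ℓ ≤ h x} (pc i x₀ s r) ρ ρ' := by
  obtain ⟨x, _, hxρ, y, _, hya, hxy⟩ := hh
  exact ⟨x, bx_x₀_sub hs hr h1 hxρ, y, not_bx_of_ds hs hr h2 hya, hxy.mono fun z hz => hz.2⟩

theorem real_three {A B : Set Hg} {E : Fin 3 → Set Hg} {e : ℝ}
    (hAE : A ∩ B ⊆ A ∩ ⋃ i, E i) (hfin : (muT P) A ≠ ⊤)
    (hE : ∀ i, (muT P).real (A ∩ E i) ≤ e * (muT P).real A) :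
    (muT P).real (A ∩ B) ≤ 3 * e * (muT P).real A := by
  have h1 : (muT P).real (A ∩ B) ≤ (muT P).real (A ∩ ⋃ i, E i) :=
    measureReal_mono hAE (ne_top_of_le_ne_top hfin (measure_mono Set.inter_subset_left))
  have h2 : A ∩ ⋃ i, E i = ⋃ i, A ∩ E i := Set.inter_iUnion _ _
  have h3 : (muT P).real (⋃ i, A ∩ E i) ≤ ∑ i, (muT P).real (A ∩ E i) :=
    measureReal_iUnion_fintype_le _
  rw [h2] at h1
  have h4 := Finset.sum_le_sum fun i (_ : i ∈ Finset.univ) => hE i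
  rw [Finset.sum_const, Finset.card_univ, Fintype.card_fin, nsmul_eq_mul] at h4
  push_cast at h4
  linarith

/-- **The open law.** -/
theorem open_qk (hP : GFF.Plane P) (hG : S_gap P) (hR : S_rsw P) (hL : S_loc) (hF : S_conf)
    {ε : ℝ} (hε : 0 < ε) :
    ∃ A₂ : ℤ, 1 ≤ A₂ ∧ ∃ s₀ : ℤ, 1 ≤ s₀ ∧ ∀ (V : Set Pt) (x₀ : Fin 3 → Pt) (σ : Fin 3 → ℤ)
      (η l u : Hg) (R s : ℤ) (M k : ℕ) (Z : Finset Pt) (φ : Fin k → Pt → ℝ) (C : ℝ)
      (S : Finset Pt), Ws V x₀ R σ η → SDAR.Bd M η → s₀ ≤ s → A₂ * s ≤ R →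
      IsLeast (Sm V η (2 * M + 3)) l → IsLeast (Sm V (-η) (2 * M + 3)) (-u) →
      (∀ x ∈ S, x ∉ V) → (∀ y ∈ ebd V, y ∈ S ∨ ∃ i, ds (x₀ i) y + 1 + (2 * M + 3) ≤ s) →
      (∀ i, ∀ x ∈ Bh i (x₀ i) s R, x ∈ S) →
      ∫ h in On S (fun x => {η x}), Wt (Yv (-(2 * M + 3 + 1)) Z φ h) ^ (k + 2) ∂(muT P) ≤
        C * (muT P).real (On S fun x => {η x}) →
      ∃ Q : Measure Hg, Qk V η (2 * M + 3) l u (Dk V x₀ s) (Dk V x₀ (A₂ * s)) Z φ C ε Q ∧
        ∀ F : Hg → ℝ, LocF F → (∫ h, F h ∂Q) * (muT P).real (On S fun x => {η x}) =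
          ∫ h in On S (fun x => {η x}), F h ∂(muT P) := by
  obtain ⟨n, hn3, s₀, hs₀, hc⟩ := circ hP hG hR hL hF (ε / 3) (by positivity) 1
  refine ⟨9 * 4 ^ (2 * n), by nlinarith [one_le_pow₀ (n := 2 * n) (by norm_num : (1 : ℤ) ≤ 4)],
    s₀, hs₀, fun V x₀ σ η l u R s M k Z φ C S W hη hs hAR hl hu hSV hw hB hm => ?_⟩
  obtain ⟨j, hj, hcj⟩ := hc s hs
  have hs1 : 1 ≤ s := hs₀.trans hs
  set r : ℤ := 4 ^ (j + 1) * s with hr
  set q : ℤ := 4 ^ (2 * n) * s with hq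
  have hr4 : 4 * s ≤ r := by
    have : (4 : ℤ) ^ 1 ≤ 4 ^ (j + 1) := pow_le_pow_right₀ (by norm_num) (by omega)
    rw [hr]
    exact mul_le_mul_of_nonneg_right (by simpa using this) (by omega)
  have hrq : r ≤ q := by
    have : (4 : ℤ) ^ (j + 1) ≤ 4 ^ (2 * n) := pow_le_pow_right₀ (by norm_num) (by omega)
    exact mul_le_mul_of_nonneg_right this (by omega)
  have hA2 : 9 * 4 ^ (2 * n) * s = 9 * q := by rw [hq]; ring
  rw [hA2] at hAR ⊢
  have hρ : (4 : ℤ) ^ (j + 4) * s = 64 * r := by rw [hr]; ring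
  -- the annuli
  have hann : ∀ i, HasAnn S (pc i (x₀ i) s r) (4 ^ (j + 1) * s) := fun i x hx _ =>
    hB i x (bx_pc_sub (by omega) (by omega) (by omega) hx)
  have hself : ∀ p : Pt, p ∈ F.X.bx p (2 * r) := fun p =>
    ⟨by rw [sub_self, abs_zero]; omega, by rw [sub_self, abs_zero]; omega⟩
  have hpmem : ∀ i, pc i (x₀ i) s r ∈ S := fun i => hB i _ (bx_pc_sub (by omega) (by omega)
    (by omega) (hself _))
  have hSne : S.Nonempty := ⟨_, hpmem 0⟩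
  obtain ⟨Q, hQp, hQae, hQint, hQreal, hQdlr⟩ := exists_open hP hR hF hη hSne
  have hpos : 0 < (muT P).real (On S fun x => {η x}) := on_pos hP hR hF hη hSne
  have hfin : muT P (On S fun x => {η x}) ≠ ⊤ := by
    intro h
    rw [measureReal_def, h] at hpos
    simp at hpos
  have hlocW : LocF fun h => Wt (Yv (-(2 * M + 3 + 1)) Z φ h) ^ (k + 2) :=
    ⟨Z, fun h h' hh => by
      have := RINS.Yv_dep (s := -(2 * M + 3 + 1)) (Z := Z) (φ := φ) h h' fun x hx => hh x hx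
      simp only [this]⟩
  have hmo : Odd (2 * (M : ℤ) + 3) := ⟨M + 1, by ring⟩
  have hDfin : (Dk V x₀ s).Finite := W.dk_fin
  refine ⟨Q, ⟨⟨hQp, ?_, ?_, ?_⟩, (hQint _ hlocW).1, ?_, ?_, ?_⟩, fun F hFl => (hQint F hFl).2⟩
  · filter_upwards [hQae] with ω hω
    refine bdy_open (b := s - (2 * M + 3)) W hmo (by omega) hl hu hω.1
      (fun y _ => (hη.2 y).trans (by omega)) (fun y hy => ?_) (by omega) (by omega)
    rcases hw y hy with h | ⟨i, hi⟩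
    · exact Or.inl (hω.2 y h)
    · exact Or.inr ⟨i, by omega⟩
  · rintro F ⟨U, hU, hFd⟩ _
    have := (hQdlr hDfin.toFinset (fun x hx h => hSV x hx ((hDfin.mem_toFinset.1 h).1)) F
      (depOn_locF hU hFd)).1
    rw [hDfin.coe_toFinset] at this
    exact this
  · rintro F ⟨U, hU, hFd⟩ _
    have := (hQdlr hDfin.toFinset (fun x hx h => hSV x hx ((hDfin.mem_toFinset.1 h).1)) F
      (depOn_locF hU hFd)).2
    rw [hDfin.coe_toFinset] at this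
    exact this
  · have h1 := (hQint _ hlocW).2
    rw [← h1] at hm
    exact le_of_mul_le_mul_right hm hpos
  · refine le_of_mul_le_mul_right ?_ hpos
    rw [hQreal]
    have h1 := real_three (P := P) (A := On S fun x => {η x})
      (B := {h | h ∉ gd (-(2 * M + 3 + 2)) V (Dk V x₀ s) (Dk V x₀ (9 * q))})
      (E := fun i => {h | Esc {x | h x ≤ (-(2 * (M : ℤ) + 2)) - 3} (pc i (x₀ i) s r)
        (4 ^ (j + 4) * s) (2 * (4 ^ (2 * n) * s))}) (e := ε / 3) ?_ hfin fun i => ?_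
    · linarith
    · rintro h ⟨hA, hh⟩
      refine ⟨hA, ?_⟩
      obtain ⟨i, hi⟩ := crs_of_gd W (by omega) (by omega) hh
      refine Set.mem_iUnion.2 ⟨i, ?_⟩
      have := crs_esc (i := i) (s := s) (r := r) (ρ := 4 ^ (j + 4) * s)
        (ρ' := 2 * (4 ^ (2 * n) * s)) (by omega) (by omega) (by rw [hρ]; omega)
        (by rw [← hq]; omega) hi
      rw [show (-(2 * (M : ℤ) + 2)) - 3 = -(2 * M + 3 + 2) by ring]
      exact this
    · refine ((hcj _ S (hann i) (-(2 * (M : ℤ) + 2)) ⟨-(M + 1), by ring⟩ _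
        ⟨_, hpmem 0, |η _|, fun a ha => by rw [Set.mem_singleton_iff.1 ha]⟩).1
        fun x _ a ha => ?_)
      rw [Set.mem_singleton_iff.1 ha]
      have := abs_le.1 (hη.2 x)
      omega
  · refine le_of_mul_le_mul_right ?_ hpos
    rw [hQreal]
    have h1 := real_three (P := P) (A := On S fun x => {η x})
      (B := {h | -h ∉ gd (-(2 * M + 3 + 2)) V (Dk V x₀ s) (Dk V x₀ (9 * q))})
      (E := fun i => {h | Esc {x | (2 * (M : ℤ) + 2) + 3 ≤ h x} (pc i (x₀ i) s r)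
        (4 ^ (j + 4) * s) (2 * (4 ^ (2 * n) * s))}) (e := ε / 3) ?_ hfin fun i => ?_
    · linarith
    · rintro h ⟨hA, hh⟩
      refine ⟨hA, ?_⟩
      obtain ⟨i, hi⟩ := cru_of_gd W (by omega) (by omega) hh
      refine Set.mem_iUnion.2 ⟨i, ?_⟩
      have := cru_esc (i := i) (s := s) (r := r) (ρ := 4 ^ (j + 4) * s)
        (ρ' := 2 * (4 ^ (2 * n) * s)) (by omega) (by omega) (by rw [hρ]; omega)
        (by rw [← hq]; omega) hi
      rw [show (2 * (M : ℤ) + 2) + 3 = - -(2 * M + 3 + 2) by ring]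
      exact this
    · refine ((hcj _ S (hann i) (2 * (M : ℤ) + 2) ⟨M + 1, by ring⟩ _
        ⟨_, hpmem 0, |η _|, fun a ha => by rw [Set.mem_singleton_iff.1 ha]⟩).2
        fun x _ a ha => ?_)
      rw [Set.mem_singleton_iff.1 ha]
      have := abs_le.1 (hη.2 x)
      omega

end Vale.Agent.P153.R2.Gp
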