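import Vale.Agent.P153.R2.GAPS.Circ

/-!
P153-R2, block GAPS (helper681), part (C), file 4: one-sided circuits for the measure `muT P`
conditioned on data bounded from one side on a finite set which contains a small annulus:
the statement `circ`.
-/

namespace Vale.Agent.P153.R2.Gp

open Finset MeasureTheory Filter Topology Relation Vale.Agent.P153 Vale.Agent.P153.F
  Vale.Agent.P153.F.Gh Vale.Agent.P153.F.X Vale.Agent.P153.F.X.LE
open Vale.Agent.P153.GFF (Ht Pat hexa LocLim)
open Vale.Agent.P153.Topo (Conn)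

variable {P : Measure (Pt → ℤ)}

theorem bL_mono {L L' : ℕ} (h : L ≤ L') {x : Pt} (hx : x ∈ bL L) : x ∈ bL L' := by
  have e1 : (L : ℤ) ≤ (L' : ℤ) := by exact_mod_cast h
  rw [mem_bL] at hx ⊢
  omega

open Classical in
theorem setIntegral_ind {A E : Set Hg} (hE : MeasurableSet E) :
    ∫ h in A, E.indicator (fun _ => (1 : ℝ)) h ∂(muT P) = (muT P).real (A ∩ E) := by
  rw [integral_indicator hE, Measure.restrict_restrict hE, integral_const, smul_eq_mul, mul_one,
    measureReal_restrict_apply_univ, Set.inter_comm]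

/-- Data at least one lower the probabilities of decreasing events, compared with the closed
event. -/
theorem down_core (hP : GFF.Plane P) {S : Finset Pt} {J : Pt → Set ℤ}
    (hJ : ∀ x ∈ S, ∀ a ∈ J x, 1 ≤ a) {x₀ : Pt} (hx₀ : x₀ ∈ S) {M : ℤ}
    (hM : ∀ a ∈ J x₀, |a| ≤ M) {L₀ : ℕ} {E : Set Hg} (hE : DepS L₀ E)
    (hanti : ∀ h h' : Hg, h ≤ h' → h' ∈ E → h ∈ E) :
    (muT P).real (On S J ∩ E) * (muT P).real (ClE S) ≤
      (muT P).real (ClE S ∩ E) * (muT P).real (On S J) := by
  classical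
  obtain ⟨L₁, hL1, hL2, -, -⟩ := exists_L S x₀ 0 ∅
  set L := max L₀ L₁ with hL
  have q : ∀ x, x ∈ bL L₁ → x ∈ bL L := fun x hx => bL_mono (le_max_right _ _) hx
  have hS : S ⊆ bL L := fun x hx => q x (hL1 hx)
  have hN : ∀ x ∈ S, ∀ y, Adj x y → y ∈ bL L := fun x hx y hxy => q y (hL2 x hx y hxy)
  have hEL : DepS L E := hE.mono (le_max_left _ _)
  have hF : Monotone fun h : Hg => -(E.indicator (fun _ => (1 : ℝ)) h) := by
    intro h h' hh
    simp only [neg_le_neg_iff]
    by_cases h1 : h' ∈ E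
    · rw [Set.indicator_of_mem h1, Set.indicator_of_mem (hanti h h' hh h1)]
    · rw [Set.indicator_of_notMem h1]
      exact Set.indicator_nonneg (fun _ _ => zero_le_one) _
  have hFd : DepB L fun h : Hg => -(E.indicator (fun _ => (1 : ℝ)) h) := fun h h' hh => by
    have := (hEL.depB (F := fun _ => (1 : ℝ)) fun _ _ _ => rfl) h h' hh
    simp only [this]
  have key := holley hP (dep_cle hN hS) (On.dep hS J) (M := 1) (M' := M)
    (fun h hh _ => ⟨x₀, hS hx₀, ((cls_bl.1 hh).1 x₀ hx₀).le⟩) (On.pin hS hx₀ hM) hF hFd ?_ ?_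
  · rw [integral_neg, integral_neg, setIntegral_ind hEL.measurable,
      setIntegral_ind hEL.measurable] at key
    linarith
  · intro a ha b hb hla hlb
    have h1 := cls_bl.1 ha
    refine cls_bl.2 ⟨fun x hx => ?_, fun x hx => ?_⟩
    · have h2 := h1.1 x hx
      have h3 := hJ x hx _ (hb x hx)
      rw [Pi.inf_apply, min_eq_left ((le_abs_self _).trans (h2.le.trans h3)), h2]
    · obtain ⟨y, hy, h2⟩ := h1.2 x hx
      refine ⟨y, hy, ?_⟩
      have h3 := hJ x hx _ (hb x hx)
      have h4 := abs_le.1 (hlb.2 x (hS hx) y (hN x hx y hy) hy)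
      obtain ⟨k, hk⟩ := hlb.1 y (hN x hx y hy)
      rw [Pi.inf_apply]
      rcases (abs_eq zero_le_one).1 h2 with h5 | h5
      · rcases lt_or_ge (b y) 1 with h6 | h6
        · have h7 : b y = -1 := by omega
          rw [h5, h7]; rfl
        · rw [h5, min_eq_left h6]; rfl
      · rw [h5, min_eq_left (by omega)]; rfl
  · intro a ha b hb _ _ x hx
    have h2 := (cls_bl.1 ha).1 x hx
    have h3 := hJ x hx _ (hb x hx)
    rw [Pi.sup_apply, max_eq_right ((le_abs_self _).trans (h2.le.trans h3))]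
    exact hb x hx

/-- Data at most minus one lower the probabilities of increasing events, compared with the closed
event. -/
theorem up_core (hP : GFF.Plane P) {S : Finset Pt} {J : Pt → Set ℤ}
    (hJ : ∀ x ∈ S, ∀ a ∈ J x, a ≤ -1) {x₀ : Pt} (hx₀ : x₀ ∈ S) {M : ℤ}
    (hM : ∀ a ∈ J x₀, |a| ≤ M) {L₀ : ℕ} {E : Set Hg} (hE : DepS L₀ E)
    (hmono : ∀ h h' : Hg, h ≤ h' → h ∈ E → h' ∈ E) :
    (muT P).real (On S J ∩ E) * (muT P).real (ClE S) ≤
      (muT P).real (ClE S ∩ E) * (muT P).real (On S J) := by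
  classical
  obtain ⟨L₁, hL1, hL2, -, -⟩ := exists_L S x₀ 0 ∅
  set L := max L₀ L₁ with hL
  have q : ∀ x, x ∈ bL L₁ → x ∈ bL L := fun x hx => bL_mono (le_max_right _ _) hx
  have hS : S ⊆ bL L := fun x hx => q x (hL1 hx)
  have hN : ∀ x ∈ S, ∀ y, Adj x y → y ∈ bL L := fun x hx y hxy => q y (hL2 x hx y hxy)
  have hEL : DepS L E := hE.mono (le_max_left _ _)
  have hF : Monotone fun h : Hg => E.indicator (fun _ => (1 : ℝ)) h := by
    intro h h' hh
    by_cases h1 : h ∈ E
    · simp only [Set.indicator_of_mem h1, Set.indicator_of_mem (hmono h h' hh h1), le_refl]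
    · simp only [Set.indicator_of_notMem h1]
      exact Set.indicator_nonneg (fun _ _ => zero_le_one) _
  have hFd : DepB L fun h : Hg => E.indicator (fun _ => (1 : ℝ)) h :=
    hEL.depB (F := fun _ => (1 : ℝ)) fun _ _ _ => rfl
  have key := holley hP (On.dep hS J) (dep_cle hN hS) (M := M) (M' := 1)
    (On.pin hS hx₀ hM) (fun h hh _ => ⟨x₀, hS hx₀, ((cls_bl.1 hh).1 x₀ hx₀).le⟩) hF hFd ?_ ?_
  · rwa [setIntegral_ind hEL.measurable, setIntegral_ind hEL.measurable] at key
  · intro a ha b hb _ _ x hx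
    have h2 := (cls_bl.1 hb).1 x hx
    have h3 := hJ x hx _ (ha x hx)
    have h4 := neg_abs_le (b x)
    rw [h2] at h4
    rw [Pi.inf_apply, min_eq_left (by omega)]
    exact ha x hx
  · intro a ha b hb hla hlb
    have h1 := cls_bl.1 hb
    refine cls_bl.2 ⟨fun x hx => ?_, fun x hx => ?_⟩
    · have h2 := h1.1 x hx
      have h3 := hJ x hx _ (ha x hx)
      have h4 := neg_abs_le (b x)
      rw [h2] at h4
      rw [Pi.sup_apply, max_eq_right (by omega), h2]
    · obtain ⟨y, hy, h2⟩ := h1.2 x hx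
      refine ⟨y, hy, ?_⟩
      have h3 := hJ x hx _ (ha x hx)
      have h4 := abs_le.1 (hla.2 x (hS hx) y (hN x hx y hy) hy)
      obtain ⟨k, hk⟩ := hla.1 y (hN x hx y hy)
      rw [Pi.sup_apply]
      rcases (abs_eq zero_le_one).1 h2 with h5 | h5
      · rw [h5, max_eq_right (by omega)]; rfl
      · rcases lt_or_ge (a y) 0 with h6 | h6
        · rw [h5, max_eq_right (by omega)]; rfl
        · have h7 : a y = 1 := by omega
          rw [h5, h7]; rfl

theorem measurable_sh (t : ℤ) : Measurable (fun (h : Hg) (x : Pt) => h x + 2 * t) :=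
  measurable_pi_iff.2 fun x =>
    (measurable_from_top (f := fun n : ℤ => n + 2 * t)).comp (measurable_pi_apply x)

/-- Invariance under even shifts of the heights. -/
theorem muT_sh (P : Measure (Pt → ℤ)) (t : ℤ) :
    (muT P).map (fun (h : Hg) (x : Pt) => h x + 2 * t) = muT P := by
  ext M hM
  rw [Measure.map_apply (measurable_sh t) hM, muT, Measure.sum_apply _ (measurable_sh t hM),
    Measure.sum_apply _ hM, ← (Equiv.addRight t).tsum_eq fun k => (P.map (odd k)) M]
  refine tsum_congr fun k => ?_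
  rw [Measure.map_apply (measurable_odd _) (measurable_sh t hM),
    Measure.map_apply (measurable_odd _) hM]
  congr 1
  ext φ
  simp only [Set.mem_preimage]
  have e : (fun x => odd k φ x + 2 * t) = odd ((Equiv.addRight t) k) φ := by
    funext x
    unfold odd
    simp only [Equiv.coe_addRight]
    ring
  rw [e]

theorem real_sh (t : ℤ) {A : Set Hg} (hA : MeasurableSet A) :
    (muT P).real ((fun (h : Hg) (x : Pt) => h x + 2 * t) ⁻¹' A) = (muT P).real A := by
  rw [← map_measureReal_apply (measurable_sh t) hA, muT_sh]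

/-- **One-sided circuits.** Given data `≥ c + 1` on a finite set `S` which contains the annulus
`(4 ^ (j + 1) s)` around `p`, the clusters of `{h ≤ c - 3}` of the box of radius `4 ^ (j + 4) s`
stay in the box of radius `2 · 4 ^ (2 n) s`; the same with `≤ c - 1` and `{h ≥ c + 3}`. -/
theorem circ (hP : GFF.Plane P) (hG : S_gap P) (hR : S_rsw P) (hL : S_loc) (hF : S_conf) :
    ∀ η : ℝ, 0 < η → ∀ N : ℕ, ∃ n : ℕ, N ≤ n ∧ ∃ s₀ : ℤ, 1 ≤ s₀ ∧ ∀ s, s₀ ≤ s → ∃ j < n,
      ∀ (p : Pt) (S : Finset Pt), HasAnn S p (4 ^ (j + 1) * s) → ∀ (c : ℤ), Even c →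
        ∀ J : Pt → Set ℤ, (∃ x ∈ S, ∃ M : ℤ, ∀ a ∈ J x, |a| ≤ M) →
        ((∀ x ∈ S, ∀ a ∈ J x, c + 1 ≤ a) →
          (muT P).real (On S J ∩ {h | Esc {x | h x ≤ c - 3} p (4 ^ (j + 4) * s)
            (2 * (4 ^ (2 * n) * s))}) ≤ η * (muT P).real (On S J)) ∧
        ((∀ x ∈ S, ∀ a ∈ J x, a ≤ c - 1) →
          (muT P).real (On S J ∩ {h | Esc {x | c + 3 ≤ h x} p (4 ^ (j + 4) * s)
            (2 * (4 ^ (2 * n) * s))}) ≤ η * (muT P).real (On S J)) := by
  intro η hη N
  obtain ⟨n, hn, s₀, hs₀, hs⟩ := circ_core hP hG hR hL hF η hη (max N 3)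
  have h3n : 3 ≤ n := (le_max_right _ _).trans hn
  refine ⟨n, (le_max_left _ _).trans hn, s₀, hs₀, fun s h1 => ?_⟩
  obtain ⟨j, hj, h2⟩ := hs s h1
  have hs3 : 1 ≤ s := hs₀.trans h1
  have hpow : ∀ i : ℕ, 1 ≤ (4 : ℤ) ^ i := fun i => one_le_pow₀ (by norm_num)
  have hps : ∀ i : ℕ, 1 ≤ 4 ^ i * s := fun i => by nlinarith [hpow i]
  have hle : 4 ^ (j + 4) * s ≤ 2 * (4 ^ (2 * n) * s) := by
    have h5 : (4 : ℤ) ^ (j + 4) ≤ 4 ^ (2 * n) := pow_le_pow_right₀ (by norm_num) (by omega)
    have h6 := mul_le_mul_of_nonneg_right h5 (by linarith : (0 : ℤ) ≤ s)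
    have h7 := hps (2 * n)
    linarith
  refine ⟨j, hj, fun p S hS c hc J hJ => ?_⟩
  obtain ⟨c', hc'⟩ := hc
  obtain ⟨x₀, hx₀, M, hM⟩ := hJ
  obtain ⟨L₀, -, -, hL3, -⟩ := exists_L S p (2 * (4 ^ (2 * n) * s) + 1) ∅
  set r : ℤ := 4 ^ (j + 4) * s with hr
  set R : ℤ := 2 * (4 ^ (2 * n) * s) with hRd
  -- shift by `-c`
  set J' : Pt → Set ℤ := fun x => {a | a + c ∈ J x} with hJ'
  have hpos := cle_pos hP hR hF (hS.nonempty (hps _))
  have hM' : ∀ a ∈ J' x₀, |a| ≤ M + |c| := by
    intro a ha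
    have h3 := hM _ (show a + c ∈ J x₀ from ha)
    have h4 := abs_sub_abs_le_abs_sub a (-c)
    rw [abs_neg, sub_neg_eq_add] at h4
    linarith
  obtain ⟨L₁, hL₁, -, -, -⟩ := exists_L S p 0 ∅
  have e0 : (fun (h : Hg) (x : Pt) => h x + 2 * (-c')) ⁻¹' (On S J') = On S J := by
    ext h
    simp only [Set.mem_preimage]
    refine forall_congr' fun x => forall_congr' fun _ => ?_
    show h x + 2 * (-c') + c ∈ J x ↔ h x ∈ J x
    rw [show h x + 2 * (-c') + c = h x by rw [hc']; ring]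
  have m0 : MeasurableSet (On S J') := (On.dep hL₁ J').measurable
  have fin : ∀ T T' : Set ℤ, (∀ a, a + 2 * (-c') ∈ T ↔ a ∈ T') →
      (muT P).real (On S J' ∩ {h | Esc {x | h x ∈ T} p r R}) ≤ η * (muT P).real (On S J') →
      (muT P).real (On S J ∩ {h | Esc {x | h x ∈ T'} p r R}) ≤ η * (muT P).real (On S J) := by
    intro T T' hT h3
    have e1 : (fun (h : Hg) (x : Pt) => h x + 2 * (-c')) ⁻¹' {h | Esc {x | h x ∈ T} p r R} =
        {h | Esc {x | h x ∈ T'} p r R} := by
      ext h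
      simp only [Set.mem_preimage, Set.mem_ofPred_eq]
      have : {x | h x + 2 * (-c') ∈ T} = {x | h x ∈ T'} := by
        ext x
        exact hT (h x)
      rw [this]
    have m1 := (dep_esc hle hL3 T).measurable
    rw [← real_sh (-c') (m0.inter m1), ← real_sh (-c') m0, Set.preimage_inter, e0, e1] at h3
    exact h3
  have div : ∀ E : Set Hg, (muT P).real (On S J' ∩ E) * (muT P).real (ClE S) ≤
      (muT P).real (ClE S ∩ E) * (muT P).real (On S J') →
      (muT P).real (ClE S ∩ E) ≤ η * (muT P).real (ClE S) →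
      (muT P).real (On S J' ∩ E) ≤ η * (muT P).real (On S J') := by
    intro E h3 h4
    refine le_of_mul_le_mul_right (h3.trans ?_) hpos
    have h5 := mul_le_mul_of_nonneg_right h4 (measureReal_nonneg (μ := muT P) (s := On S J'))
    linarith
  constructor
  · intro hlow
    refine fin {a | a ≤ -3} {a | a ≤ c - 3} (fun a => ?_) ?_
    · simp only [Set.mem_ofPred_eq]
      omega
    · refine div _ (down_core hP (fun x hx a ha => ?_) hx₀ hM' (dep_esc hle hL3 _) ?_)
        (h2 p S hS _ fun a ha => ?_)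
      · have := hlow x hx _ (show a + c ∈ J x from ha)
        linarith
      · intro h h' hh hE
        exact Esc.mono (fun x hx => (hh x).trans hx) hE
      · have h3 : a ≤ -3 := ha
        have h4 := neg_abs_le a
        intro h5
        rw [h5] at h4
        omega
  · intro hup
    refine fin {a | 3 ≤ a} {a | c + 3 ≤ a} (fun a => ?_) ?_
    · simp only [Set.mem_ofPred_eq]
      omega
    · refine div _ (up_core hP (fun x hx a ha => ?_) hx₀ hM' (dep_esc hle hL3 _) ?_)
        (h2 p S hS _ fun a ha => ?_)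
      · have := hup x hx _ (show a + c ∈ J x from ha)
        linarith
      · intro h h' hh hE
        exact Esc.mono (fun x hx => le_trans hx (hh x)) hE
      · have h3 : 3 ≤ a := ha
        have h4 := le_abs_self a
        intro h5
        rw [h5] at h4
        omega

end Vale.Agent.P153.R2.Gp
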