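import Vale.Agent.P153.R2.GAPS.Flat
import Vale.Agent.P153.R2.RINS.Fun

/-!
P153-R2, block GAPS (helper681), file 9: the reflection at a flat window, in total variation; three
windows.
-/

namespace Vale.Agent.P153.R2.Gp

open Set Relation Vale.Agent.P153
open Vale.Agent.P153.Topo (Conn)
open Vale.Agent.P153.R2.LOC (ds ds_adj mem_bx_iff NO)
open Vale.Agent.P153.R2.SDAR (vv conn_seg)
open Vale.Agent.P153.R2.RINS

/-- One flat window with a hull `N` and its data. -/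
structure Wd (i : Fin 3) (x₀ : Pt) (a R w : ℤ) (D N : Set Pt) (g : Hg) : Prop where
  fl : Fl i x₀ a (R + 1) D
  hull : N = HR i x₀ 0 a
  wall : ∀ y, y ∉ D → y ∉ N → ds x₀ y ≤ R + 1 → g y = w
  low : ∀ x ∈ N, g x ≤ w - 2

theorem Wd.disj {i : Fin 3} {x₀ : Pt} {a R w : ℤ} {D N : Set Pt} {g : Hg}
    (H : Wd i x₀ a R w D N g) (haR : a ≤ R) : Disjoint D N := by
  rw [Set.disjoint_left]
  intro x hx hxN
  rw [H.hull] at hxN
  have := (H.fl x (by linarith [hxN.2.1])).1 hx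
  linarith [hxN.2.1, this.1]

/-- A cluster of the hull which leaves the box crosses the half annulus. -/
theorem crs_of_clu {i : Fin 3} {x₀ : Pt} {a ρ R ℓ : ℤ} {D : Set Pt} {h : Hg} (haρ : a < ρ)
    (hρR : ρ < R) {x : Pt} (hx : x ∈ clu ℓ D (HR i x₀ 0 a) h) (hxR : R < ds x₀ x) :
    h ∈ Crs D x₀ ρ R ℓ := by
  obtain ⟨z, hz, hzx⟩ := hx
  have key : x ∈ HR i x₀ 0 a ∨ ∃ y ∈ D, ds x₀ y ≤ ρ ∧ Conn (D ∩ dn h ℓ) y x := by
    refine Conn.ind (S := HR i x₀ 0 a ∪ (D ∩ dn h ℓ)) (fun x => x ∈ HR i x₀ 0 a ∨ ∃ y ∈ D,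
      ds x₀ y ≤ ρ ∧ Conn (D ∩ dn h ℓ) y x) (Or.inl hz) ?_ hzx
    rintro u v - huv hv ih
    rcases hv with hv | hv
    · exact Or.inl hv
    · right
      rcases ih with ih | ⟨y, hy, hyρ, hyu⟩
      · have h1 := ds_adj (x₀ := x₀) huv
        rw [abs_le] at h1
        exact ⟨v, hv.1, by have := ih.2.1; omega, Conn.refl hv⟩
      · exact ⟨y, hy, hyρ, hyu.tail huv hv⟩
  rcases key with h1 | ⟨y, hy, hyρ, hyx⟩
  · have := h1.2.1
    omega
  · exact ⟨y, hy, hyρ, x, hyx.right_mem.1, hxR, hyx⟩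

theorem good_of_not_crs {i : Fin 3} {x₀ : Pt} {a ρ R w : ℤ} {D N T : Set Pt} {g h : Hg}
    (H : Wd i x₀ a R w D N g) (haρ : a < ρ) (hρR : ρ < R) (hT : ∀ x ∈ T, R < ds x₀ x)
    (hh : h ∉ Crs D x₀ ρ R (w - 2)) : h ∈ good w D N T g := by
  have hds : ∀ x ∈ clu (w - 2) D N h, ds x₀ x ≤ R := by
    intro x hx
    by_contra hcon
    push Not at hcon
    rw [H.hull] at hx
    exact hh (crs_of_clu haρ hρR hx hcon)
  refine ⟨fun x hx _ y hxy hyD hyN => ?_, fun x hx hxT => ?_⟩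
  · have h1 := ds_adj (x₀ := x₀) hxy
    rw [abs_le] at h1
    exact H.wall y hyD hyN (by have := hds x hx; omega)
  · have := hds x hx
    have := hT x hxT
    omega

/-- The reflected data. -/
noncomputable def fp (w : ℤ) (N : Set Pt) (g : Hg) : Hg := rf w (rfo w N g)

theorem fp_in {w : ℤ} {N : Set Pt} {g : Hg} {x : Pt} (hx : x ∈ N) : fp w N g x = 2 * w - g x := by
  unfold fp rf
  rw [rfo_in hx]

theorem fp_out {w : ℤ} {N : Set Pt} {g : Hg} {x : Pt} (hx : x ∉ N) : fp w N g x = g x := by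
  unfold fp rf
  rw [rfo_out hx]
  ring

/-- **One window.** -/
theorem step (hS : ∀ j, LOC.S_land (j + 1)) (j : ℕ) {ε : ℝ} (hε : 0 < ε) (hε1 : ε < 1) :
    ∃ t : ℤ, 1 ≤ t ∧ ∃ ρ₀ : ℤ, 1 ≤ ρ₀ ∧ ∀ (D N T : Set Pt) (g : Hg) (w : ℤ) (i : Fin 3) (x₀ : Pt)
      (a ρ R : ℤ), Odd w → (∀ x, Odd (g x)) → D.Finite → CC D → (XC D g).Nonempty →
      0 ≤ a → a < ρ → ρ₀ ≤ ρ → ρ < R → t * ρ ≤ R → Wd i x₀ a R w D N g →
      (∀ y ∈ ebd D, w - (2 * (j : ℤ) + 2) ≤ g y) → (∀ y ∈ ebd D, g y ≤ w + (2 * (j : ℤ) + 2)) →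
      (∀ x ∈ T, R < ds x₀ x) →
      (XC D (fp w N g)).Nonempty ∧ ∀ Ψ : Hg → ℝ, DepOn T Ψ → (∀ h, |Ψ h| ≤ 1) →
        |Ex (XC D (fp w N g)) Ψ - Ex (XC D g) Ψ| ≤ 4 * ε := by
  obtain ⟨t₁, ht₁, ρ₁, hρ₁, hm₁⟩ := cross_dn hS j hε
  obtain ⟨t₂, ht₂, ρ₂, hρ₂, hm₂⟩ := cross_up hS j hε
  refine ⟨max t₁ t₂, le_max_of_le_left ht₁, max ρ₁ ρ₂, le_max_of_le_left hρ₁,
    fun D N T g w i x₀ a ρ R hw hg hfin hcc hne ha haρ hρ hρR htR H hlo hhi hT => ?_⟩
  have hρ0 : 0 ≤ ρ := by omega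
  have hHull : Hull w D N g := ⟨hg, hw, H.disj (by omega), H.low⟩
  have ht1 : t₁ * ρ ≤ R := (mul_le_mul_of_nonneg_right (le_max_left _ _) hρ0).trans htR
  have ht2 : t₂ * ρ ≤ R := (mul_le_mul_of_nonneg_right (le_max_right _ _) hρ0).trans htR
  have hwall : ∀ y ∈ ebd D, ρ ≤ ds x₀ y → ds x₀ y ≤ R → g y = w ∧ y ∉ N := by
    intro y hy h1 h2
    have hyN : y ∉ N := by
      rw [H.hull]
      intro h3
      have := h3.2.1
      omega
    exact ⟨H.wall y hy.1 hyN (by omega), hyN⟩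
  have c1 : Pr (XC D g) (good w D N T g)ᶜ ≤ ε := by
    refine (Pr_mono fun h _ hh => ?_).trans (hm₁ D g w i x₀ a ρ R hw hfin hcc hne ha haρ
      ((le_max_left _ _).trans hρ) hρR ht1 H.fl hlo fun y hy h1 h2 => (hwall y hy h1 h2).1.ge)
    by_contra hcon
    exact hh (good_of_not_crs H haρ hρR hT hcon)
  -- nonemptiness
  have hne' : (XC D (fp w N g)).Nonempty := by
    by_contra hcon
    have h1 : ∀ h ∈ XC D g, h ∉ good w D N T g := fun h hh hgood =>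
      hcon ⟨rf w (Sr w D N h), rf_mem (Sr_mem hHull hh hgood)⟩
    have h2 : Pr (XC D g) (good w D N T g)ᶜ = 1 := by
      have h3 := Pr_add_compl (XC_finite hfin g) hne (good w D N T g)
      have h4 : Pr (XC D g) (good w D N T g) = 0 := by
        unfold Pr
        have : XC D g ∩ good w D N T g = ∅ := by
          ext h
          constructor
          · rintro ⟨h5, h6⟩; exact absurd h6 (h1 h h5)
          · intro h5; exact absurd h5 (Set.notMem_empty _)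
        rw [this]
        simp
      linarith
    linarith
  refine ⟨hne', fun Ψ hΨ h1 => ?_⟩
  have c2 : Pr (XC D (fp w N g)) {h | rf w h ∈ (good w D N T g)ᶜ} ≤ ε := by
    refine (Pr_mono fun h _ hh => ?_).trans (hm₂ D (fp w N g) w i x₀ a ρ R hw hfin hcc hne' ha haρ
      ((le_max_right _ _).trans hρ) hρR ht2 H.fl (fun y hy => ?_) fun y hy h1 h2 => ?_)
    · have h2 : rf w h ∈ Crs D x₀ ρ R (w - 2) := by
        by_contra hcon
        exact hh (good_of_not_crs H haρ hρR hT hcon)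
      rw [rf_crs, show 2 * w - (w - 2) = w + 2 by ring] at h2
      exact h2
    · by_cases hyN : y ∈ N
      · rw [fp_in hyN]
        linarith [hlo y hy]
      · rw [fp_out hyN]
        exact hhi y hy
    · obtain ⟨h3, h4⟩ := hwall y hy h1 h2
      rw [fp_out h4, h3]
  have key := tv_le hfin hHull (g' := fp w N g) (T := T) (fun x => rfl) hne hne' hΨ h1
  linarith

end Vale.Agent.P153.R2.Gp
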