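import Vale.Agent.P153.R2.GAPS.Step

/-!
P153-R2, block GAPS (helper681), file 10: three flat windows, one reflection after the other.
-/

namespace Vale.Agent.P153.R2.Gp

open Set Relation Vale.Agent.P153
open Vale.Agent.P153.Topo (Conn)
open Vale.Agent.P153.R2.LOC (ds ds_adj mem_bx_iff NO)
open Vale.Agent.P153.R2.SDAR (vv conn_seg)
open Vale.Agent.P153.R2.RINS
open scoped Classical

/-- Three flat windows, far apart. -/
structure Ws (V : Set Pt) (x₀ : Fin 3 → Pt) (R : ℤ) (σ : Fin 3 → ℤ) (η : Hg) : Prop where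
  fin : V.Finite
  cc : CC V
  fl : ∀ i, Fl i (x₀ i) 0 (R + 1) V
  wall : ∀ i y, y ∉ V → ds (x₀ i) y ≤ R + 1 → η y = σ i
  far : ∀ i k, i ≠ k → ∀ x, ds (x₀ i) x ≤ R + 1 → R + 1 < ds (x₀ k) x
  sg : ∀ i, σ i = 1 ∨ σ i = -1

/-- The union of the half boxes of radius `a`. -/
def Hb (x₀ : Fin 3 → Pt) (a : ℤ) : Set Pt := ⋃ i, HR i (x₀ i) 0 a

/-- The domain without the half boxes. -/
def Dk (V : Set Pt) (x₀ : Fin 3 → Pt) (a : ℤ) : Set Pt := V \ Hb x₀ a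

variable {V : Set Pt} {x₀ : Fin 3 → Pt} {R a : ℤ} {σ : Fin 3 → ℤ} {η l u : Hg}

theorem mem_Hb {x : Pt} : x ∈ Hb x₀ a ↔ ∃ i, x ∈ HR i (x₀ i) 0 a := Set.mem_iUnion

namespace Ws

theorem hr_sub (W : Ws V x₀ R σ η) (haR : a ≤ R + 1) (i : Fin 3) : HR i (x₀ i) 0 a ⊆ V :=
  fun x hx => (W.fl i x (hx.2.1.trans haR)).2 ⟨hx.1, hx.2.2⟩

theorem hr_disj (W : Ws V x₀ R σ η) (haR : a ≤ R + 1) {i k : Fin 3} (hik : i ≠ k) {x : Pt}
    (hx : x ∈ HR i (x₀ i) 0 a) : x ∉ HR k (x₀ k) 0 a := by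
  intro h
  have := W.far i k hik x (hx.2.1.trans haR)
  have := h.2.1
  omega

theorem dk_fin (W : Ws V x₀ R σ η) : (Dk V x₀ a).Finite := W.fin.subset Set.sdiff_subset

theorem dk_fl (W : Ws V x₀ R σ η) (ha : 0 ≤ a) (haR : a ≤ R + 1) (i : Fin 3) {R' : ℤ}
    (hR' : R' ≤ R) : Fl i (x₀ i) a (R' + 1) (Dk V x₀ a) := by
  intro x hx
  constructor
  · rintro ⟨h1, h2⟩
    have h3 := (W.fl i x (by omega)).1 h1
    refine ⟨?_, h3.2⟩
    by_contra hcon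
    push Not at hcon
    exact h2 (mem_Hb.2 ⟨i, h3.1, hcon, h3.2⟩)
  · rintro ⟨h1, h2⟩
    refine ⟨(W.fl i x (by omega)).2 ⟨by omega, h2⟩, fun h3 => ?_⟩
    obtain ⟨k, hk⟩ := mem_Hb.1 h3
    by_cases hik : k = i
    · subst hik
      have := hk.2.1
      omega
    · have := W.far k i hik x (hk.2.1.trans haR)
      omega

theorem hull_wall (W : Ws V x₀ R σ η) (haR : a ≤ R + 1) {i : Fin 3} {x : Pt}
    (hx : x ∈ HR i (x₀ i) 0 a) : ∃ y, y ∉ V ∧ Conn (Dk V x₀ a)ᶜ x y := by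
  obtain ⟨h1, h2, h3⟩ := hx
  rw [ds_eq i] at h2
  have h4 := max_le_iff.1 h2
  have h5 := abs_le.1 h4.2
  refine ⟨pq i x.1 (vv i (x₀ i)), fun hV => ?_, ?_⟩
  · have h6 := (W.fl i _ (by
      rw [ds_pq, sub_self, abs_zero]
      exact max_le (h4.1.trans haR) (by have := abs_nonneg (x.1 - (x₀ i).1); omega))).1 hV
    rw [vv_pq] at h6
    exact lt_irrefl _ h6.2
  · have h6 : Conn (Dk V x₀ a)ᶜ (pq i x.1 (vv i x)) (pq i x.1 (vv i (x₀ i))) := by
      refine conn_seg (f := fun n => pq i x.1 n) (fun n => adj_pq_v i _ n) fun z hz hz' => ?_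
      have hz1 : vv i x ≤ z ∧ z ≤ vv i (x₀ i) := by omega
      rintro ⟨h7, h8⟩
      have h9 : ds (x₀ i) (pq i x.1 z) ≤ a := by
        rw [ds_pq]
        refine max_le h4.1 ?_
        rw [abs_le]
        omega
      have h10 := (W.fl i _ (h9.trans haR)).1 h7
      exact h8 (mem_Hb.2 ⟨i, h10.1, h9, h10.2⟩)
    rwa [pq_vv] at h6

theorem dk_cc (W : Ws V x₀ R σ η) (haR : a ≤ R + 1) : CC (Dk V x₀ a) := by
  have hsub : Vᶜ ⊆ (Dk V x₀ a)ᶜ := fun x hx h => hx h.1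
  have key : ∀ x, x ∉ Dk V x₀ a → ∃ y, y ∉ V ∧ Conn (Dk V x₀ a)ᶜ x y := by
    intro x hx
    by_cases hV : x ∈ V
    · have : x ∈ Hb x₀ a := by
        by_contra h
        exact hx ⟨hV, h⟩
      obtain ⟨i, hi⟩ := mem_Hb.1 this
      exact W.hull_wall haR hi
    · exact ⟨x, hV, Conn.refl hx⟩
  intro x y hx hy
  obtain ⟨x', hx', c1⟩ := key x hx
  obtain ⟨y', hy', c2⟩ := key y hy
  exact (c1.trans ((W.cc x' y' hx' hy').mono hsub)).trans c2.symm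

theorem dk_ebd (_ : Ws V x₀ R σ η) {y : Pt} (hy : y ∈ ebd (Dk V x₀ a)) :
    y ∉ V ∨ ∃ i, y ∈ HR i (x₀ i) 0 a := by
  by_cases hV : y ∈ V
  · right
    have : y ∈ Hb x₀ a := by
      by_contra h
      exact hy.1 ⟨hV, h⟩
    exact mem_Hb.1 this
  · exact Or.inl hV

end Ws

/-- The data with some windows reflected. -/
noncomputable def gf (x₀ : Fin 3 → Pt) (a : ℤ) (σ : Fin 3 → ℤ) (l : Hg) (s : Finset (Fin 3)) : Hg :=
  fun x => if ∃ i ∈ s, x ∈ HR i (x₀ i) 0 a then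
    2 * (∑ i, if x ∈ HR i (x₀ i) 0 a then σ i else 0) - l x else l x

theorem gf_in (W : Ws V x₀ R σ η) (haR : a ≤ R + 1) {s : Finset (Fin 3)} {i : Fin 3} (hi : i ∈ s)
    {x : Pt} (hx : x ∈ HR i (x₀ i) 0 a) : gf x₀ a σ l s x = 2 * σ i - l x := by
  unfold gf
  rw [if_pos ⟨i, hi, hx⟩, Finset.sum_eq_single i (fun k _ hk => if_neg (W.hr_disj haR hk.symm hx))
    (fun h => absurd (Finset.mem_univ i) h), if_pos hx]

theorem gf_out {s : Finset (Fin 3)} {x : Pt} (hx : ∀ i ∈ s, x ∉ HR i (x₀ i) 0 a) :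
    gf x₀ a σ l s x = l x := by
  unfold gf
  rw [if_neg]
  rintro ⟨i, hi, h⟩
  exact hx i hi h

theorem gf_empty : gf x₀ a σ l ∅ = l := by
  funext x
  exact gf_out fun i hi => absurd hi (Finset.notMem_empty i)

theorem gf_insert (W : Ws V x₀ R σ η) (haR : a ≤ R + 1) {s : Finset (Fin 3)} {k : Fin 3}
    (hk : k ∉ s) : gf x₀ a σ l (insert k s) = fp (σ k) (HR k (x₀ k) 0 a) (gf x₀ a σ l s) := by
  funext x
  by_cases hx : x ∈ HR k (x₀ k) 0 a
  · rw [gf_in W haR (Finset.mem_insert_self k s) hx, fp_in hx, gf_out fun i hi hxi =>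
      W.hr_disj (i := k) (k := i) haR (fun h => hk (by rw [h]; exact hi)) hx hxi]
  · rw [fp_out hx]
    by_cases h : ∃ i ∈ s, x ∈ HR i (x₀ i) 0 a
    · obtain ⟨i, hi, hxi⟩ := h
      rw [gf_in W haR hi hxi, gf_in W haR (Finset.mem_insert_of_mem hi) hxi]
    · push Not at h
      rw [gf_out h, gf_out fun i hi => ?_]
      rcases Finset.mem_insert.1 hi with rfl | hi
      · exact hx
      · exact h i hi

theorem gf_odd (ho : ∀ x, Odd (l x)) (s : Finset (Fin 3)) (x : Pt) : Odd (gf x₀ a σ l s x) := by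
  unfold gf
  split_ifs
  · obtain ⟨k, hk⟩ := ho x
    exact ⟨(∑ i, if x ∈ HR i (x₀ i) 0 a then σ i else 0) - k - 1, by rw [hk]; ring⟩
  · exact ho x

theorem gf_bd (W : Ws V x₀ R σ η) (haR : a ≤ R + 1) {M : ℤ} {x : Pt} (hx : |l x| ≤ M)
    (s : Finset (Fin 3)) : |gf x₀ a σ l s x| ≤ M + 2 := by
  have h1 := abs_le.1 hx
  by_cases h : ∃ i ∈ s, x ∈ HR i (x₀ i) 0 a
  · obtain ⟨i, hi, hxi⟩ := h
    rw [gf_in W haR hi hxi, abs_le]
    rcases W.sg i with h2 | h2 <;> rw [h2] <;> constructor <;> linarith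
  · push Not at h
    rw [gf_out h]
    linarith

/-- **Three windows, total variation.** -/
theorem three_tv (hS : ∀ j, LOC.S_land (j + 1)) (M : ℤ) {ε : ℝ} (hε : 0 < ε) (hε1 : ε < 1) :
    ∃ t : ℤ, 1 ≤ t ∧ ∃ ρ₀ : ℤ, 1 ≤ ρ₀ ∧ ∀ (V T : Set Pt) (x₀ : Fin 3 → Pt) (σ : Fin 3 → ℤ)
      (η l : Hg) (a ρ R : ℤ), Ws V x₀ R σ η → (∀ x, Odd (l x)) →
      (XC (Dk V x₀ a) l).Nonempty → 0 ≤ a → a < ρ → ρ₀ ≤ ρ → ρ < R → t * ρ ≤ R →
      (∀ y, y ∉ V → l y = η y) → (∀ y ∈ ebd (Dk V x₀ a), |l y| ≤ M) →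
      (∀ i, ∀ x ∈ HR i (x₀ i) 0 a, l x ≤ σ i - 2) → (∀ x ∈ T, ∀ i, R < ds (x₀ i) x) →
      ∀ s : Finset (Fin 3), (XC (Dk V x₀ a) (gf x₀ a σ l s)).Nonempty ∧
      ∀ Ψ : Hg → ℝ, DepOn T Ψ → (∀ h, |Ψ h| ≤ 1) →
        |Ex (XC (Dk V x₀ a) (gf x₀ a σ l s)) Ψ - Ex (XC (Dk V x₀ a) l) Ψ| ≤ 4 * ε * s.card := by
  obtain ⟨t, ht, ρ₀, hρ₀, hst⟩ := step hS (M.toNat + 2) hε hε1
  refine ⟨t, ht, ρ₀, hρ₀, fun V T x₀ σ η l a ρ R W ho hne ha haρ hρ hρR htR hlη hlM hlow hT s => ?_⟩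
  have haR : a ≤ R + 1 := by omega
  induction s using Finset.induction_on with
  | empty =>
    rw [gf_empty]
    exact ⟨hne, fun Ψ _ _ => by simp⟩
  | insert k s hk ih =>
    obtain ⟨ih1, ih2⟩ := ih
    have hM0 : ∀ y ∈ ebd (Dk V x₀ a), |gf x₀ a σ l s y| ≤ M + 2 := fun y hy =>
      gf_bd W haR (hlM y hy) s
    have hWd : Wd k (x₀ k) a R (σ k) (Dk V x₀ a) (HR k (x₀ k) 0 a) (gf x₀ a σ l s) := by
      refine ⟨W.dk_fl ha haR k le_rfl, rfl, fun y hyD hyN hy => ?_, fun x hx => ?_⟩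
      · have hyV : y ∉ V := by
          intro hV
          have : y ∈ Hb x₀ a := by
            by_contra h
            exact hyD ⟨hV, h⟩
          obtain ⟨i, hi⟩ := mem_Hb.1 this
          by_cases hik : i = k
          · subst hik; exact hyN hi
          · have := W.far i k hik y (hi.2.1.trans haR)
            omega
        rw [gf_out fun i _ h => hyV (W.hr_sub haR i h), hlη y hyV]
        exact W.wall k y hyV hy
      · rw [gf_out fun i hi h => W.hr_disj (i := k) (k := i) haR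
          (fun e => hk (by rw [e]; exact hi)) hx h]
        exact hlow k x hx
    have hodd : Odd (σ k) := by
      rcases W.sg k with h | h <;> rw [h]
      · exact odd_one
      · exact ⟨-1, by norm_num⟩
    have hσ : -1 ≤ σ k ∧ σ k ≤ 1 := by rcases W.sg k with h | h <;> rw [h] <;> norm_num
    obtain ⟨h1, h2⟩ := hst (Dk V x₀ a) (HR k (x₀ k) 0 a) T (gf x₀ a σ l s) (σ k) k (x₀ k) a ρ R
      hodd (gf_odd ho s) W.dk_fin (W.dk_cc haR) ih1 ha haρ hρ hρR htR hWd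
      (fun y hy => by
        have := abs_le.1 (hM0 y hy)
        push_cast
        have : M ≤ M.toNat := Int.self_le_toNat M
        omega)
      (fun y hy => by
        have := abs_le.1 (hM0 y hy)
        push_cast
        have : M ≤ M.toNat := Int.self_le_toNat M
        omega)
      (fun x hx => hT x hx k)
    rw [gf_insert W haR hk]
    refine ⟨h1, fun Ψ hΨ hΨ1 => ?_⟩
    rw [Finset.card_insert_of_notMem hk]
    have h3 := h2 Ψ hΨ hΨ1
    have h4 := ih2 Ψ hΨ hΨ1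
    have h5 := abs_sub_le (Ex (XC (Dk V x₀ a) (fp (σ k) (HR k (x₀ k) 0 a) (gf x₀ a σ l s))) Ψ)
      (Ex (XC (Dk V x₀ a) (gf x₀ a σ l s)) Ψ) (Ex (XC (Dk V x₀ a) l) Ψ)
    push_cast
    linarith

/-- Truncation of a mean. -/
theorem mean_le {S S' : Set Hg} {Y : Hg → ℝ} {K e : ℝ} (hK : 0 < K)
    (h : |Ex S' (fun h => cl K (Y h)) - Ex S (fun h => cl K (Y h))| ≤ e) :
    Ex S' Y - Ex S Y ≤ e + (Ex S' (fun h => Y h ^ 2) + Ex S (fun h => Y h ^ 2)) / K := by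
  have h1 : Ex S' Y ≤ Ex S' (fun h => cl K (Y h)) + Ex S' (fun h => Y h ^ 2) / K := by
    have : Ex S' Y ≤ Ex S' (fun h => cl K (Y h) + Y h ^ 2 / K) := Ex_mono fun h _ => by
      have := abs_le.1 (cl_err hK (Y h))
      linarith
    rw [Ex_add] at this
    refine this.trans (le_of_eq ?_)
    congr 1
    rw [div_eq_mul_inv, mul_comm, ← Ex_const_mul]
    refine Ex_congr fun h _ => ?_
    rw [div_eq_mul_inv, mul_comm]
  have h2 : Ex S (fun h => cl K (Y h)) - Ex S (fun h => Y h ^ 2) / K ≤ Ex S Y := by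
    have : Ex S (fun h => cl K (Y h)) ≤ Ex S (fun h => Y h + Y h ^ 2 / K) := Ex_mono fun h _ => by
      have := abs_le.1 (cl_err hK (Y h))
      linarith
    rw [Ex_add] at this
    have e : Ex S (fun h => Y h ^ 2 / K) = Ex S (fun h => Y h ^ 2) / K := by
      rw [div_eq_mul_inv, mul_comm, ← Ex_const_mul]
      refine Ex_congr fun h _ => ?_
      rw [div_eq_mul_inv, mul_comm]
    linarith
  have h3 := (abs_le.1 h).2
  rw [add_div]
  linarith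

end Vale.Agent.P153.R2.Gp
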