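import Vale.Agent.P153.R2.GAPS.CMom
import Vale.Agent.P153.R2.GAPS.Lw

/-!
P153-R2, block GAPS (helper681), file 13: the functionals `Yv` of test functions; bounds for `Wt`
under closed and open laws; escaping clusters under closed laws.
-/

namespace Vale.Agent.P153.R2.Gp

open Finset MeasureTheory Filter Topology Relation Vale.Agent.P153 Vale.Agent.P153.F
  Vale.Agent.P153.F.Gh Vale.Agent.P153.F.X Vale.Agent.P153.F.X.LE
open Vale.Agent.P153.GFF (Ht Pat hexa LocLim)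
open Vale.Agent.P153.Topo (Conn)
open Vale.Agent.P145.PT (Sm TestOn)
open Vale.Agent.P153.F.SD (Lf PW)
open Vale.Agent.P153.F.Top (dp c1 c2)
open Vale.Agent.P153.R2.LOC (ds ds_adj mem_bx_iff NO)
open Vale.Agent.P153.R2.RINS (XC mem_XC XC_irr DepOn Wt Yv Wt_pow_le Xi abs_pow_eq gd cl abs_cl
  abs_le_Wt one_le_Wt Yv_mono Yv_dep XC_finite XC_le)

variable {P : Measure (Pt → ℤ)} {k : ℕ}

/-- The sites of the test functions. -/
noncomputable def Zf (δ : ℝ) (f : Fin k → ℝ × ℝ → ℝ) : Finset Pt :=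
  Finset.univ.biUnion fun i => (SD.Wd δ (f i) 0).support

/-- The weights. -/
noncomputable def ph (δ : ℝ) (f : Fin k → ℝ × ℝ → ℝ) (i : Fin k) (x : Pt) : ℝ := SD.Wd δ (f i) 0 x

theorem sum_Zf (δ : ℝ) (f : Fin k → ℝ × ℝ → ℝ) (i : Fin k) (g : Pt → ℝ) :
    ∑ x ∈ Zf δ f, ph δ f i x * g x = ∑ x ∈ (SD.Wd δ (f i) 0).support, SD.Wd δ (f i) 0 x * g x := by
  symm
  refine Finset.sum_subset (fun x hx => Finset.mem_biUnion.2 ⟨i, Finset.mem_univ _, hx⟩)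
    fun x _ hx => ?_
  rw [Finsupp.notMem_support_iff.1 hx, zero_mul]

theorem yv_eq (δ : ℝ) (f : Fin k → ℝ × ℝ → ℝ) (s : ℤ) (h : Hg) (i : Fin k) :
    Yv s (Zf δ f) (ph δ f) h i = Lf δ (f i) h - s * mass (SD.Wd δ (f i) 0) := by
  unfold Yv
  rw [sum_Zf δ f i fun x => ((h x - s : ℤ) : ℝ)]
  have e1 : Lf δ (f i) h = ∑ x ∈ (SD.Wd δ (f i) 0).support, SD.Wd δ (f i) 0 x * (h x : ℝ) := rfl
  have e2 : mass (SD.Wd δ (f i) 0) = ∑ x ∈ (SD.Wd δ (f i) 0).support, SD.Wd δ (f i) 0 x := rfl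
  rw [e1, e2, Finset.mul_sum, ← Finset.sum_sub_distrib]
  refine Finset.sum_congr rfl fun x _ => ?_
  push_cast
  ring

theorem ph_nonneg {δ : ℝ} (hδ : 0 < δ) {f : Fin k → ℝ × ℝ → ℝ} (hs : ∀ i, Sm (f i))
    (hc : ∀ i, HasCompactSupport (f i)) (h0 : ∀ i z, 0 ≤ f i z) (i : Fin k) (x : Pt) :
    0 ≤ ph δ f i x := by
  obtain ⟨K, hK⟩ := SD.exists_csts (hs i) (hc i)
  unfold ph
  rw [SD.Wd_apply hK hδ]
  have := h0 i (δ • GFF.pos (x + 0))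
  positivity

theorem mem_Zf {δ : ℝ} (hδ : 0 < δ) {f : Fin k → ℝ × ℝ → ℝ} (hs : ∀ i, Sm (f i))
    (hc : ∀ i, HasCompactSupport (f i)) {x : Pt} (hx : x ∈ Zf δ f) : ∃ i, f i (dp δ x) ≠ 0 := by
  obtain ⟨i, -, hi⟩ := Finset.mem_biUnion.1 hx
  obtain ⟨K, hK⟩ := SD.exists_csts (hs i) (hc i)
  have h1 := SD.Wd_supp hK hδ (Finsupp.mem_support_iff.1 hi)
  rw [add_zero, ← X.Sdx.dp_pos] at h1
  exact ⟨i, h1⟩

/-- The mass is bounded. -/
theorem mass_wd {f : ℝ × ℝ → ℝ} (hs : Sm f) (hc : HasCompactSupport f) (h0 : ∀ z, 0 ≤ f z) :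
    ∃ C : ℝ, 0 ≤ C ∧ ∀ δ : ℝ, 0 < δ → δ ≤ 1 / 2 →
      0 ≤ mass (SD.Wd δ f 0) ∧ mass (SD.Wd δ f 0) ≤ C := by
  obtain ⟨K, hK⟩ := SD.exists_csts hs hc
  have hK0 := hK.pos
  refine ⟨(4 * K) * (2 * (4 * K) + 1) ^ 2, by positivity, fun δ hδ hδ1 => ?_⟩
  obtain ⟨s, h1, h2, h3⟩ := exists_scale (ρ := 24) (by norm_num) 1 le_rfl hδ (by
    push_cast; norm_num; linarith)
  have hsR : (1 : ℝ) ≤ s := by exact_mod_cast h1
  have hs3 : √3 / 2 ≤ 1 := by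
    have : √3 ≤ 2 := by
      rw [show (2 : ℝ) = √4 by
        rw [show (4 : ℝ) = 2 ^ 2 by norm_num, Real.sqrt_sq (by norm_num)]]
      exact Real.sqrt_le_sqrt (by norm_num)
    linarith
  refine mass_le (K := 4 * K) (by positivity) h1 (p := (0, 0)) (fun v => ?_) fun v hv => ?_
  · rw [SD.Wd_apply hK hδ]
    have h4 := h0 (δ • GFF.pos (v + 0))
    refine ⟨by positivity, ?_⟩
    rw [le_div_iff₀ (by positivity)]
    have h5 : f (δ • GFF.pos (v + 0)) ≤ K := (le_abs_self _).trans (hK.bdd _)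
    calc √3 / 2 * δ ^ 2 * f (δ • GFF.pos (v + 0)) * (s : ℝ) ^ 2
        ≤ 1 * δ ^ 2 * K * (s : ℝ) ^ 2 := by gcongr
      _ = K * (δ * s) ^ 2 := by ring
      _ ≤ K * 1 ^ 2 := by
        have : 0 ≤ δ * s := by positivity
        gcongr
        linarith
      _ ≤ 4 * K := by linarith
  · have h5 := SD.Wd_supp hK hδ hv
    rw [add_zero, ← X.Sdx.dp_pos] at h5
    have h6 : ‖dp δ v‖ ≤ K := by
      rw [Prod.norm_def, sup_le_iff, Real.norm_eq_abs, Real.norm_eq_abs]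
      constructor
      · by_contra hcon
        exact h5 (hK.zero _ (Or.inl (not_le.1 hcon)))
      · by_contra hcon
        exact h5 (hK.zero _ (Or.inr (not_le.1 hcon)))
    have e0 : dp δ ((0, 0) : Pt) = 0 := by
      unfold dp; simp
    have h7 : dist (dp δ v) (dp δ ((0, 0) : Pt)) ≤ K := by
      rw [e0, dist_zero_right]
      exact h6
    obtain ⟨a1, a2⟩ := lat_dist_le hδ h7
    have h8 : 2 * K / δ ≤ 4 * K * s := by
      rw [div_le_iff₀ hδ]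
      nlinarith
    exact ⟨a1.trans h8, a2.trans h8⟩

/-- Pointwise bound for `Wt`. -/
theorem wt_pt {f : Fin k → ℝ × ℝ → ℝ} (hs : ∀ i, Sm (f i)) (hc : ∀ i, HasCompactSupport (f i))
    (h0 : ∀ i z, 0 ≤ f i z) (s : ℤ) (n : ℕ) : ∃ A B : ℝ, 0 ≤ A ∧ 0 ≤ B ∧ ∀ δ : ℝ, 0 < δ →
      δ ≤ 1 / 2 → ∀ h : Hg, Wt (Yv s (Zf δ f) (ph δ f) h) ^ (n + 1) ≤
        A + B * ∑ i, Lf δ (f i) h ^ (2 * (n + 1)) := by
  choose Cm hCm0 hCm using fun i => mass_wd (hs i) (hc i) (h0 i)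
  set c : ℝ := |(s : ℝ)| * ∑ i, Cm i with hcd
  have hc0 : 0 ≤ c := mul_nonneg (abs_nonneg _) (Finset.sum_nonneg fun i _ => hCm0 i)
  refine ⟨((k : ℝ) + 1) ^ n * (1 + k * (2 ^ (n + 1) * (1 + c ^ (n + 1)))),
    ((k : ℝ) + 1) ^ n * 2 ^ (n + 1), by positivity, by positivity, fun δ hδ hδ1 h => ?_⟩
  refine Wt_le_lin n _ (fun i => Lf δ (f i) h) c hc0 fun i => ?_
  rw [yv_eq]
  obtain ⟨m1, m2⟩ := hCm i δ hδ hδ1
  have h2 : |(s : ℝ) * mass (SD.Wd δ (f i) 0)| ≤ c := by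
    rw [abs_mul, abs_of_nonneg m1]
    refine mul_le_mul_of_nonneg_left (m2.trans ?_) (abs_nonneg _)
    exact Finset.single_le_sum (f := Cm) (fun i _ => hCm0 i) (Finset.mem_univ i)
  have h3 := abs_sub (Lf δ (f i) h) (s * mass (SD.Wd δ (f i) 0))
  linarith

/-- `Wt` under the closed laws. -/
theorem wt_closed (hP : GFF.Plane P) (hMom : S_mom P) (hE : S_emom P) (hR : S_rsw P)
    (hL : S_loc) (hF : S_conf) {f : Fin k → ℝ × ℝ → ℝ} (hs : ∀ i, Sm (f i))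
    (hc : ∀ i, HasCompactSupport (f i)) (h0 : ∀ i z, 0 ≤ f i z) {Rb : ℝ} (hRb : 0 ≤ Rb)
    (s : ℤ) (n M : ℕ) :
    ∃ d C : ℝ, 0 < d ∧ 0 ≤ C ∧ ∀ δ : ℝ, 0 < δ → δ ≤ d → ∀ (D : Set Pt) (g : Hg),
      (∀ x ∈ D, dp δ x ∈ Metric.ball (0 : ℝ × ℝ) Rb) → (∀ i x, f i (dp δ x) ≠ 0 → x ∈ D) →
      (XC D g).Nonempty → (∀ x, x ∉ D → |g x| ≤ 2 * M + 1) →
      (∀ x y, x ∉ D → y ∉ D → Adj x y → |g x - g y| ≤ 2) →
      Ex (XC D g) (fun h => Wt (Yv s (Zf δ f) (ph δ f) h) ^ (n + 1)) ≤ C := by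
  obtain ⟨A, B, hA, hB, hAB⟩ := wt_pt hs hc h0 s n
  choose d C hd hC hm using fun i =>
    closed_mom hP hMom hE hR hL hF (hs i) (hc i) hRb (n + 1) M
  obtain ⟨d', hd', hdd⟩ : ∃ d' : ℝ, 0 < d' ∧ ∀ i, d' ≤ d i := by
    rcases Nat.eq_zero_or_pos k with rfl | hk
    · exact ⟨1, one_pos, fun i => i.elim0⟩
    · have : Nonempty (Fin k) := ⟨⟨0, hk⟩⟩
      exact ⟨Finset.univ.inf' Finset.univ_nonempty d, (Finset.lt_inf'_iff _).2 fun i _ => hd i,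
        fun i => Finset.inf'_le _ (Finset.mem_univ i)⟩
  refine ⟨min d' (1 / 2), A + B * ∑ i, C i, by positivity,
    add_nonneg hA (mul_nonneg hB (Finset.sum_nonneg fun i _ => hC i)),
    fun δ hδ hδd D g hDb hfD hne hb hl => ?_⟩
  have h1 : Ex (XC D g) (fun h => Wt (Yv s (Zf δ f) (ph δ f) h) ^ (n + 1)) ≤
      Ex (XC D g) (fun h => A + B * ∑ i, Lf δ (f i) h ^ (2 * (n + 1))) :=
    Ex_mono fun h _ => hAB δ hδ (hδd.trans (min_le_right _ _)) h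
  have hfin : D.Finite := by
    refine (Top.lat_finite hδ Rb).subset fun x hx => ?_
    exact hDb x hx
  rw [Ex_add, Ex_const (XC_finite hfin g) hne, Ex_const_mul, Ex_sum] at h1
  refine h1.trans ?_
  have h2 : ∑ i, Ex (XC D g) (fun h => Lf δ (f i) h ^ (2 * (n + 1))) ≤ ∑ i, C i :=
    Finset.sum_le_sum fun i _ => hm i δ hδ ((hδd.trans (min_le_left _ _)).trans (hdd i)) D g hDb
      (hfD i) hne hb hl
  have := mul_le_mul_of_nonneg_left h2 hB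
  linarith

theorem wt_locF (δ : ℝ) (f : Fin k → ℝ × ℝ → ℝ) (s : ℤ) {G : (Fin k → ℝ) → ℝ} :
    LocF fun h => G (Yv s (Zf δ f) (ph δ f) h) :=
  ⟨Zf δ f, fun h h' hh => by
    have := Yv_dep (s := s) (Z := Zf δ f) (φ := ph δ f) h h' fun x hx => hh x hx
    simp only [this]⟩

/-- `Wt` under the open laws. -/
theorem wt_open (hP : GFF.Plane P) (hMom : S_mom P) (hE : S_emom P) (hR : S_rsw P)
    (hL : S_loc) (hF : S_conf) {f : Fin k → ℝ × ℝ → ℝ} (hs : ∀ i, Sm (f i))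
    (hc : ∀ i, HasCompactSupport (f i)) (h0 : ∀ i z, 0 ≤ f i z) (R : ℝ) {ρ : ℝ} (hρ : 0 < ρ)
    (s : ℤ) (n M : ℕ) :
    ∃ d C : ℝ, 0 < d ∧ 0 ≤ C ∧ ∀ Q : ℝ × ℝ, ‖Q‖ ≤ R → ∀ δ : ℝ, 0 < δ → δ ≤ d →
      ∀ (S : Finset Pt) (η : Hg),
      (∀ i x, dp δ x ∈ Metric.closedBall Q ρ → x ∈ S ∧ f i (dp δ x) = 0) →
      (∀ x, dp δ x ∈ Metric.closedBall Q ρ → x ∈ S) →
      (∀ x, |η x| ≤ M) →
      ∫ h in On S (fun x => {η x}), Wt (Yv s (Zf δ f) (ph δ f) h) ^ (n + 1) ∂(muT P) ≤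
        C * (muT P).real (On S fun x => {η x}) := by
  obtain ⟨A, B, hA, hB, hAB⟩ := wt_pt hs hc h0 s n
  choose d C hd hC hm using fun i => mom_fun hP hMom hE hR hL hF hρ (hs i) (hc i) R (n + 1) M
  obtain ⟨d', hd', hdd⟩ : ∃ d' : ℝ, 0 < d' ∧ ∀ i, d' ≤ d i := by
    rcases Nat.eq_zero_or_pos k with rfl | hk
    · exact ⟨1, one_pos, fun i => i.elim0⟩
    · have : Nonempty (Fin k) := ⟨⟨0, hk⟩⟩
      exact ⟨Finset.univ.inf' Finset.univ_nonempty d, (Finset.lt_inf'_iff _).2 fun i _ => hd i,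
        fun i => Finset.inf'_le _ (Finset.mem_univ i)⟩
  refine ⟨min d' (min (1 / 2) ρ), A + B * ∑ i, C i, by positivity,
    add_nonneg hA (mul_nonneg hB (Finset.sum_nonneg fun i _ => hC i)),
    fun Q hQ δ hδ hδd S η hS hS' hη => ?_⟩
  obtain ⟨p, hp⟩ := exists_near hδ Q
  have hpS : p ∈ S := hS' p (Metric.mem_closedBall.2
    (hp.trans (hδd.trans ((min_le_right _ _).trans (min_le_right _ _)))))
  have hint : ∀ G : Hg → ℝ, LocF G → IntegrableOn G (On S fun x => {η x}) (muT P) := fun G hG =>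
    onS_integrable hP hpS (M := |η p|) (fun a ha => by rw [Set.mem_singleton_iff.1 ha]) hG
  have i1 : ∀ i, IntegrableOn (fun h => Lf δ (f i) h ^ (2 * (n + 1))) (On S fun x => {η x})
    (muT P) := fun i => hint _ (lf_loc δ (f i) fun y => y ^ (2 * (n + 1)))
  have i2 : IntegrableOn (fun h => ∑ i, Lf δ (f i) h ^ (2 * (n + 1))) (On S fun x => {η x})
    (muT P) := integrable_finsetSum _ fun i _ => i1 i
  have i3 : IntegrableOn (fun _ : Hg => A) (On S fun x => {η x}) (muT P) :=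
    hint _ ⟨∅, fun _ _ _ => rfl⟩
  have h1 : ∫ h in On S (fun x => {η x}), Wt (Yv s (Zf δ f) (ph δ f) h) ^ (n + 1) ∂(muT P) ≤
      ∫ h in On S (fun x => {η x}), (A + B * ∑ i, Lf δ (f i) h ^ (2 * (n + 1))) ∂(muT P) :=
    integral_mono (hint _ (wt_locF δ f s (G := fun y => Wt y ^ (n + 1))))
      (i3.add (i2.const_mul B)) fun h =>
        hAB δ hδ (hδd.trans ((min_le_right _ _).trans (min_le_left _ _))) h
  rw [integral_add i3 (i2.const_mul B), integral_const, smul_eq_mul,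
    measureReal_restrict_apply_univ, integral_const_mul, integral_finsetSum _ fun i _ => i1 i] at h1
  refine h1.trans ?_
  have h2 : ∑ i, ∫ h in On S (fun x => {η x}), Lf δ (f i) h ^ (2 * (n + 1)) ∂(muT P) ≤
      ∑ i, C i * (muT P).real (On S fun x => {η x}) :=
    Finset.sum_le_sum fun i _ => hm i Q hQ δ hδ ((hδd.trans (min_le_left _ _)).trans (hdd i)) S _
      (fun x hx => hS i x hx) fun x _ a ha => by
        rw [Set.mem_singleton_iff.1 ha]; exact hη x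
  have h3 := mul_le_mul_of_nonneg_left h2 hB
  rw [← Finset.sum_mul] at h3
  linarith

end Vale.Agent.P153.R2.Gp
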