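import Vale.Agent.P153.R2.GAPS.OpenQ
import Vale.Agent.P153.R2.GAPS.Wts

/-!
P153-R2, block GAPS (helper681), file 17: geometry of the windows.
-/

namespace Vale.Agent.P153.R2.Gp

open Set Relation MeasureTheory Vale.Agent.P153
open Vale.Agent.P153.Topo (Conn)
open Vale.Agent.P153.F.SD (PW Lf)
open Vale.Agent.P153.F.Top (dp c1 c2)
open Vale.Agent.P153.R2.LOC (ds ds_adj)
open Vale.Agent.P153.R2.SDAR (vv uu pt uu_pt vv_pt ts ls t0 l0 sbx ov tcell corr Bd Dmn Win pin NT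
  ts_dpz ls_dpz c1_dpz c2_dpz uu_sub vv_sub dist_dp)

variable {b : PW} {δ w r Rb Rp : ℝ} {lf : Fin 3 → ℝ} {U : Set Pt} {η : Hg} {σ : Fin 3 → ℤ}
  {S : Finset Pt} {K : Set (ℝ × ℝ)} {R s D : ℤ} {i : Fin 3} {x y : Pt}

/-- The centre of the front. -/
noncomputable def xc (b : PW) (δ : ℝ) (lf : Fin 3 → ℝ) (i : Fin 3) : Pt :=
  pt i ⌊t0 b i / δ⌋ ⌈lf i / δ⌉

theorem uu_xc : uu i (xc b δ lf i) = ⌊t0 b i / δ⌋ := uu_pt _ _ _

theorem vv_xc : vv i (xc b δ lf i) = ⌈lf i / δ⌉ := vv_pt _ _ _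

theorem uu_bd (hδ : 0 < δ) : δ * uu i (xc b δ lf i) ≤ t0 b i ∧
    t0 b i < δ * uu i (xc b δ lf i) + δ := by
  rw [uu_xc]
  have h1 := Int.floor_le (t0 b i / δ)
  have h2 := Int.lt_floor_add_one (t0 b i / δ)
  rw [le_div_iff₀ hδ] at h1
  rw [div_lt_iff₀ hδ] at h2
  constructor <;> nlinarith

theorem vv_bd (hδ : 0 < δ) : lf i ≤ δ * vv i (xc b δ lf i) ∧
    δ * vv i (xc b δ lf i) < lf i + δ := by
  rw [vv_xc]
  have h1 := Int.le_ceil (lf i / δ)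
  have h2 := Int.ceil_lt_add_one (lf i / δ)
  rw [div_le_iff₀ hδ] at h1
  have h3 : (⌈lf i / δ⌉ : ℝ) - 1 < lf i / δ := by linarith
  rw [lt_div_iff₀ hδ] at h3
  constructor <;> nlinarith

theorem fr_iff (hδ : 0 < δ) : ls i (dp δ x) < lf i ↔ vv i x < vv i (xc b δ lf i) := by
  rw [vv_xc, Int.lt_ceil, lt_div_iff₀ hδ, ls_dpz, mul_comm]

theorem box_mem (hδ : 0 < δ) (h : ds (xc b δ lf i) x ≤ D) :
    |ts i (dp δ x) - t0 b i| ≤ δ * (2 * D + 1) ∧ |ls i (dp δ x) - lf i| ≤ δ * (D + 1) := by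
  obtain ⟨h1, h2⟩ := max_le_iff.1 h
  have a1 := uu_sub i h1 h2
  have a2 := vv_sub i (x := x) (y := xc b δ lf i) h2
  obtain ⟨b1, b2⟩ := uu_bd (b := b) (lf := lf) (i := i) hδ
  obtain ⟨b3, b4⟩ := vv_bd (b := b) (lf := lf) (i := i) hδ
  rw [ts_dpz, ls_dpz]
  have a1' : |(uu i x : ℝ) - uu i (xc b δ lf i)| ≤ 2 * D := by exact_mod_cast a1
  have a2' : |(vv i x : ℝ) - vv i (xc b δ lf i)| ≤ D := by exact_mod_cast a2
  rw [abs_le] at a1' a2' ⊢
  rw [abs_le]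
  refine ⟨⟨?_, ?_⟩, ?_, ?_⟩ <;> nlinarith

theorem far_aux (hbs : b.x0 + b.y0 < b.s0) (hlf : ∀ i, l0 b i + r < lf i) {ρ ρ' : ℝ} {i k : Fin 3}
    (hik : i ≠ k) {z : ℝ × ℝ} (h1 : |ts i z - t0 b i| ≤ ρ) (h2 : |ls i z - lf i| ≤ ρ')
    (h3 : |ts k z - t0 b k| ≤ ρ) (h4 : |ls k z - lf k| ≤ ρ') (hρ : 2 * ρ + ρ' ≤ r)
    (hρ' : ρ' ≤ r) : False := by
  have k0 := hlf 0
  have k1 := hlf 1
  have k2 := hlf 2
  rw [abs_le] at h1 h2 h3 h4
  fin_cases i <;> fin_cases k <;> simp [ts, ls, t0, l0] at * <;> linarith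

theorem corr_aux (hbs : b.x0 + b.y0 < b.s0) (hlf : ∀ i, l0 b i + r < lf i) {ρ ρ' : ℝ} {i k : Fin 3}
    (hik : i ≠ k) {z : ℝ × ℝ} (h1 : |ts i z - t0 b i| ≤ ρ) (h2 : |ls i z - lf i| ≤ ρ')
    (h3 : |ts k z - t0 b k| ≤ w) (h4 : l0 b k ≤ ls k z) (hρ : ρ + ρ' + w ≤ r)
    (hρ' : ρ' ≤ r) : False := by
  have k0 := hlf 0
  have k1 := hlf 1
  have k2 := hlf 2
  rw [abs_le] at h1 h2 h3
  fin_cases i <;> fin_cases k <;> simp [ts, ls, t0, l0] at * <;> linarith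

theorem xc_far (hδ : 0 < δ) (hbs : b.x0 + b.y0 < b.s0) (hlf : ∀ i, l0 b i + r < lf i)
    (hD : 0 ≤ D) (hr : δ * (5 * D + 3) ≤ r) {i k : Fin 3} (hik : i ≠ k) {x : Pt}
    (hx : ds (xc b δ lf i) x ≤ D) : D < ds (xc b δ lf k) x := by
  by_contra hcon
  push Not at hcon
  obtain ⟨h1, h2⟩ := box_mem hδ hx
  obtain ⟨h3, h4⟩ := box_mem hδ hcon
  have hDR : (0 : ℝ) ≤ D := by exact_mod_cast hD
  exact far_aux hbs hlf hik h1 h2 h3 h4 (by nlinarith) (by nlinarith)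

/-- The windows. -/
theorem ws_mk (hδ : 0 < δ) (hbs : b.x0 + b.y0 < b.s0) (hlf : ∀ i, l0 b i + r < lf i)
    (hR0 : 0 ≤ R) (hR : δ * (5 * (R + 1) + 3) ≤ r) (hU : Dmn δ Rb (K ∪ tcell b w) U)
    (hσ : ∀ i, σ i = 1 ∨ σ i = -1) (hW : ∀ i, Win b δ i (lf i) w r (σ i) U η) :
    Ws U (xc b δ lf) R σ η := by
  have hRR : (0 : ℝ) ≤ R := by exact_mod_cast hR0
  have hflat : ∀ i x, ds (xc b δ lf i) x ≤ R + 1 → dp δ x ∈ sbx i (t0 b i) (lf i) r := by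
    intro i x hx
    obtain ⟨h1, h2⟩ := box_mem hδ hx
    push_cast at h1 h2
    exact ⟨h1.trans (by nlinarith), h2.trans (by nlinarith)⟩
  refine ⟨hU.fin, hU.cc, fun i x hx => ?_, fun i y hy hyR => ?_, fun i k hik x hx =>
    xc_far hδ hbs hlf (by omega) (by push_cast; exact hR) hik hx, hσ⟩
  · rw [((hW i).flat x (hflat i x hx)).1, fr_iff (b := b) hδ]
    refine ⟨fun h => ⟨?_, h⟩, fun h => h.2⟩
    rw [ds_eq i]
    apply lt_max_of_lt_right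
    rw [lt_abs]
    omega
  · have h1 := (hW i).flat y (hflat i y hyR)
    refine h1.2 ?_
    by_contra hcon
    push Not at hcon
    exact hy (h1.1.2 hcon)

/-- The sites of the test functions. -/
theorem z_far (hδ : 0 < δ) (hR0 : 0 ≤ R) (hR : δ * (5 * (R + 1) + 3) ≤ r)
    (hK : ∀ i, Disjoint K (sbx i (t0 b i) (lf i) r)) (hx : dp δ x ∈ K) (i : Fin 3) :
    R < ds (xc b δ lf i) x := by
  by_contra hcon
  push Not at hcon
  obtain ⟨h1, h2⟩ := box_mem hδ hcon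
  have hRR : (0 : ℝ) ≤ R := by exact_mod_cast hR0
  exact Set.disjoint_left.1 (hK i) hx ⟨h1.trans (by nlinarith), h2.trans (by nlinarith)⟩

theorem adj_coord (hxy : Adj x y) : |x.1 - y.1| ≤ 1 ∧ |x.2 - y.2| ≤ 1 := by
  have h := Topo.adj_iff.1 hxy
  constructor <;> rw [abs_le] <;> omega

/-- The exact data behind the front. -/
theorem bh_mem (hδ : 0 < δ) (hbs : b.x0 + b.y0 < b.s0) (hlf : ∀ i, l0 b i + r < lf i)
    (hR0 : 1 ≤ R) (hR : δ * (5 * (R + 1) + 3) ≤ r) (hwr : w ≤ r / 5) (hR1 : δ * (R + 1) ≤ 1 / 2)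
    (hU : Dmn δ Rb (K ∪ tcell b w) U) (hW : ∀ i, Win b δ i (lf i) w r (σ i) U η)
    (hRp : Rb + 1 ≤ Rp) (hs : w < δ * (s - 1)) (hx : x ∈ Bh i (xc b δ lf i) s R) :
    x ∈ pin b δ w Rp U := by
  obtain ⟨h1, h2, h3, h4⟩ := hx
  have hRR : (1 : ℝ) ≤ R := by exact_mod_cast hR0
  obtain ⟨b1, b2⟩ := box_mem hδ h2
  have hbox : dp δ x ∈ sbx i (t0 b i) (lf i) r :=
    ⟨b1.trans (by nlinarith), b2.trans (by nlinarith)⟩
  have hfl := (hW i).flat x hbox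
  refine ⟨?_, fun hxU => ?_, ?_⟩
  · -- the ball
    set z : Pt := pq i (xc b δ lf i).1 (vv i (xc b δ lf i) - 1) with hz
    have hzds : ds (xc b δ lf i) z ≤ 1 := by
      rw [hz, ds_pq]
      refine max_le (by rw [sub_self, abs_zero]; exact zero_le_one) ?_
      rw [abs_le]; omega
    obtain ⟨c1', c2'⟩ := box_mem hδ hzds
    push_cast at c1' c2'
    have hzU : z ∈ U := by
      refine (((hW i).flat z ⟨c1'.trans (by nlinarith), c2'.trans (by nlinarith)⟩).1).2 ?_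
      rw [fr_iff (b := b) hδ, hz, vv_pq]
      omega
    have hzb := hU.bdd z hzU
    have h5 := max_le_iff.1 ((ds_tri z (xc b δ lf i) x).trans (add_le_add
      ((ds_comm _ _).trans_le hzds) h2))
    have h6 := dist_dp (δ := δ) (x := x) (y := z) (D := 1 + R) hδ.le h5.1 h5.2
    push_cast at h6
    rw [mem_ball_zero_iff] at hzb
    rw [mem_closedBall_zero_iff]
    have h7 : ‖dp δ x‖ ≤ ‖dp δ z‖ + dist (dp δ x) (dp δ z) := by
      rw [dist_eq_norm]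
      have := norm_sub_norm_le (dp δ x) (dp δ z)
      linarith
    linarith
  · have := (fr_iff (b := b) (lf := lf) hδ).1 (hfl.1.1 hxU)
    omega
  · rintro ⟨k, hk1, hk2⟩
    by_cases hik : i = k
    · subst hik
      obtain ⟨d1, d2⟩ := uu_bd (b := b) (lf := lf) (i := i) hδ
      rw [ts_dpz, abs_le] at hk1
      have key : s ≤ |uu i x - uu i (xc b δ lf i)| ∧ (i ≠ 1 → uu i (xc b δ lf i) + s ≤ uu i x) ∧
          (i = 1 → uu i x ≤ uu i (xc b δ lf i) - s) := by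
        unfold uu
        unfold vv at h1 h4
        rw [le_abs]
        fin_cases i <;> simp at * <;> omega
      by_cases hi : i = 1
      · have h5 := key.2.2 hi
        have h6 : (uu i x : ℝ) ≤ uu i (xc b δ lf i) - s := by exact_mod_cast h5
        nlinarith
      · have h5 := key.2.1 hi
        have h6 : (uu i (xc b δ lf i) : ℝ) + s ≤ uu i x := by exact_mod_cast h5
        nlinarith
    · exact corr_aux hbs hlf hik b1 b2 hk1 hk2 (by nlinarith) (by nlinarith)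

/-- The walls of the domain are exact data or near the centres of the fronts. -/
theorem ebd_pin (hδ : 0 < δ) (hδ1 : δ ≤ 1 / 2) (hw : δ ≤ w)
    (hU : Dmn δ Rb (K ∪ tcell b w) U) (hW : ∀ i, Win b δ i (lf i) w r (σ i) U η)
    (hRp : Rb + 1 ≤ Rp) {n : ℤ} (hn : 0 ≤ n) (hs : w / δ + 1 + n ≤ s) (hy : y ∈ ebd U) :
    y ∈ pin b δ w Rp U ∨ ∃ i, ds (xc b δ lf i) y + n ≤ s := by
  obtain ⟨hyU, z, hz, hzy⟩ := hy
  by_cases hc : dp δ y ∈ corr b w
  · right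
    obtain ⟨i, h1, h2⟩ := hc
    refine ⟨i, ?_⟩
    have h3 : lf i ≤ ls i (dp δ y) := by
      by_contra hcon
      push Not at hcon
      exact hyU ((hW i).front y (h1.trans (by linarith)) h2 hcon)
    obtain ⟨a1, a2⟩ := adj_coord hzy
    have h4 : ls i (dp δ z) < lf i := by
      refine (hW i).sealed z hz ?_
      have h5 := SDAR.ts_sub hδ.le i a1 a2
      have h6 := abs_sub_le (ts i (dp δ z)) (ts i (dp δ y)) (t0 b i)
      push_cast at h5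
      linarith
    rw [fr_iff (b := b) hδ] at h4
    have h5 : ¬ ls i (dp δ y) < lf i := not_lt.2 h3
    rw [fr_iff (b := b) hδ] at h5
    have h6 := abs_le.1 (vv_sub i (x := z) (y := y) a2)
    have h7 : vv i y = vv i (xc b δ lf i) := by omega
    obtain ⟨b1, b2⟩ := uu_bd (b := b) (lf := lf) (i := i) hδ
    rw [ts_dpz, abs_le] at h1
    have e1 : |y.1 - (xc b δ lf i).1| = |uu i y - uu i (xc b δ lf i)| := by
      clear h1 h2 h3 h4 h5 h6 b1 b2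
      unfold vv at h7
      unfold uu
      fin_cases i
      · simp
      · simp only [Fin.mk_one, Fin.isValue, one_ne_zero, ↓reduceIte]
        rw [show -y.1 - -(xc b δ lf 1).1 = -(y.1 - (xc b δ lf 1).1) by ring, abs_neg]
      · simp only [Fin.reduceFinMk, Fin.isValue, Fin.reduceEq, ↓reduceIte] at h7 ⊢
        congr 1
        omega
    have e2 : ds (xc b δ lf i) y = |uu i y - uu i (xc b δ lf i)| := by
      rw [ds_eq i, h7, sub_self, abs_zero, e1, max_eq_left (abs_nonneg _)]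
    have h8 : (|uu i y - uu i (xc b δ lf i)| : ℝ) ≤ w / δ + 1 := by
      have h9 : δ * |(uu i y : ℝ) - uu i (xc b δ lf i)| ≤ w + δ := by
        rw [← abs_of_pos hδ, ← abs_mul, abs_of_pos hδ, abs_le]
        constructor <;> nlinarith
      rw [div_add_one hδ.ne', le_div_iff₀ hδ, mul_comm]
      exact h9
    have h9 : ((ds (xc b δ lf i) y + n : ℤ) : ℝ) ≤ s := by
      rw [e2]
      push_cast
      linarith
    exact_mod_cast h9
  · left
    refine ⟨?_, hyU, hc⟩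
    obtain ⟨a1, a2⟩ := adj_coord hzy
    have hzb := hU.bdd z hz
    have h6 := dist_dp (δ := δ) (x := z) (y := y) (D := 1) hδ.le a1 a2
    push_cast at h6
    rw [mem_ball_zero_iff] at hzb
    rw [mem_closedBall_zero_iff]
    have h7 : ‖dp δ y‖ ≤ ‖dp δ z‖ + dist (dp δ z) (dp δ y) := by
      rw [dist_eq_norm]
      have := norm_sub_norm_le (dp δ y) (dp δ z)
      rw [norm_sub_rev] at this
      linarith
    linarith

/-- A vertex of the cell. -/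
theorem cell_vertex (hδ : 0 < δ) (hbs : b.x0 + b.y0 < b.s0) (hδb : 2 * δ ≤ b.s0 - b.x0 - b.y0)
    (hw : 0 ≤ w) (hU : Dmn δ Rb (K ∪ tcell b w) U) : 0 < Rb ∧ b.y0 ≤ 2 * Rb / √3 := by
  set x : Pt := (⌈b.x0 / δ⌉, ⌈b.y0 / δ⌉) with hx
  have h1 := Int.le_ceil (b.x0 / δ)
  have h2 := Int.ceil_lt_add_one (b.x0 / δ)
  have h3 := Int.le_ceil (b.y0 / δ)
  have h4 := Int.ceil_lt_add_one (b.y0 / δ)
  rw [div_le_iff₀ hδ] at h1 h3
  have h2' : (⌈b.x0 / δ⌉ : ℝ) - 1 < b.x0 / δ := by linarith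
  have h4' : (⌈b.y0 / δ⌉ : ℝ) - 1 < b.y0 / δ := by linarith
  rw [lt_div_iff₀ hδ] at h2' h4'
  have e1 : c1 (dp δ x) = δ * ⌈b.x0 / δ⌉ := c1_dpz δ x
  have e2 : c2 (dp δ x) = δ * ⌈b.y0 / δ⌉ := c2_dpz δ x
  have hxU : x ∈ U := by
    refine hU.sub (Or.inr ⟨?_, ?_, ?_⟩)
    · rw [e1]; nlinarith
    · rw [e2]; nlinarith
    · rw [e1, e2]; nlinarith
  have h5 := hU.bdd x hxU
  rw [mem_ball_zero_iff, Prod.norm_def, sup_lt_iff, Real.norm_eq_abs, Real.norm_eq_abs] at h5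
  have h3p : (0 : ℝ) < √3 := by positivity
  refine ⟨(abs_nonneg _).trans_lt h5.1, ?_⟩
  have e3 : c2 (dp δ x) = 2 * (dp δ x).2 / √3 := by
    unfold c2; ring
  rw [le_div_iff₀ h3p]
  rw [e3] at e2
  have h6 : b.y0 ≤ 2 * (dp δ x).2 / √3 := by rw [e2]; nlinarith
  rw [le_div_iff₀ h3p] at h6
  linarith [(abs_lt.1 h5.2).2]

theorem exists_ballQ (b : PW) {Rb : ℝ} (hRb : 0 ≤ Rb) : ∃ Q : ℝ × ℝ, ‖Q‖ ≤ Rb + 1 ∧
    ∀ z ∈ Metric.closedBall Q (1 / 64), Rb ≤ ‖z‖ ∧ ‖z‖ ≤ Rb + 1 ∧ 1 / 16 < |c1 z - b.x0| ∧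
      2 * Rb / √3 < c2 z := by
  have h3p : (0 : ℝ) < √3 := by positivity
  have h31 : (1 : ℝ) ≤ √3 := by
    rw [show (1 : ℝ) = √1 by simp]
    exact Real.sqrt_le_sqrt (by norm_num)
  have key : ∀ a : ℝ, |a| ≤ 1 / 4 → 1 / 8 ≤ |a - (Rb + 1 / 2) / √3 - b.x0| →
      ∃ Q : ℝ × ℝ, ‖Q‖ ≤ Rb + 1 ∧
      ∀ z ∈ Metric.closedBall Q (1 / 64), Rb ≤ ‖z‖ ∧ ‖z‖ ≤ Rb + 1 ∧ 1 / 16 < |c1 z - b.x0| ∧
        2 * Rb / √3 < c2 z := by
    intro a ha hab
    have ha' := abs_le.1 ha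
    refine ⟨(a, Rb + 1 / 2), ?_, fun z hz => ?_⟩
    · rw [Prod.norm_def, sup_le_iff, Real.norm_eq_abs, Real.norm_eq_abs, abs_le, abs_le]
      refine ⟨⟨?_, ?_⟩, ?_, ?_⟩ <;> linarith
    · rw [Metric.mem_closedBall, dist_eq_norm, Prod.norm_def, sup_le_iff, Real.norm_eq_abs,
        Real.norm_eq_abs] at hz
      simp only [Prod.fst_sub, Prod.snd_sub] at hz
      obtain ⟨z1, z2⟩ := hz
      rw [abs_le] at z1 z2
      have hz2 : Rb ≤ z.2 := by linarith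
      refine ⟨?_, ?_, ?_, ?_⟩
      · rw [Prod.norm_def, le_sup_iff]
        right
        rw [Real.norm_eq_abs]
        exact hz2.trans (le_abs_self _)
      · rw [Prod.norm_def, sup_le_iff, Real.norm_eq_abs, Real.norm_eq_abs, abs_le, abs_le]
        refine ⟨⟨?_, ?_⟩, ?_, ?_⟩ <;> linarith
      · have e : c1 z - b.x0 = (a - (Rb + 1 / 2) / √3 - b.x0) +
            ((z.1 - a) - (z.2 - (Rb + 1 / 2)) / √3) := by
          unfold c1; ring
        have h1 : |(z.1 - a) - (z.2 - (Rb + 1 / 2)) / √3| ≤ 1 / 32 := by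
          have h2 : |(z.2 - (Rb + 1 / 2)) / √3| ≤ 1 / 64 := by
            rw [abs_div, abs_of_pos h3p, div_le_iff₀ h3p]
            have : |z.2 - (Rb + 1 / 2)| ≤ 1 / 64 := abs_le.2 z2
            nlinarith
          have h3 : |z.1 - a| ≤ 1 / 64 := abs_le.2 z1
          have h4 := abs_sub (z.1 - a) ((z.2 - (Rb + 1 / 2)) / √3)
          linarith
        have h2 := abs_sub_abs_le_abs_sub (a - (Rb + 1 / 2) / √3 - b.x0)
          (-((z.1 - a) - (z.2 - (Rb + 1 / 2)) / √3))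
        rw [abs_neg, sub_neg_eq_add, ← e] at h2
        linarith
      · have e : c2 z = 2 * z.2 / √3 := by unfold c2; ring
        rw [e]
        refine (div_lt_div_iff_of_pos_right h3p).2 ?_
        linarith
  by_cases h : 1 / 8 ≤ |0 - (Rb + 1 / 2) / √3 - b.x0|
  · exact key 0 (by norm_num) h
  · push Not at h
    refine key (1 / 4) (by rw [abs_of_pos (by norm_num)]) ?_
    have h1 := abs_lt.1 h
    rw [le_abs]
    left
    linarith

/-- The ball of the moments. -/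
theorem ball_pin (hδ : 0 < δ) (hbs : b.x0 + b.y0 < b.s0) (hδb : 2 * δ ≤ b.s0 - b.x0 - b.y0)
    (hw0 : 0 ≤ w) (hw : w ≤ 1 / 16) (hU : Dmn δ Rb (K ∪ tcell b w) U) (hRp : Rb + 1 ≤ Rp)
    {z : ℝ × ℝ} (hz : Rb ≤ ‖z‖ ∧ ‖z‖ ≤ Rb + 1 ∧ 1 / 16 < |c1 z - b.x0| ∧ 2 * Rb / √3 < c2 z)
    (hx : dp δ x = z) : x ∈ pin b δ w Rp U := by
  obtain ⟨z1, z2, z3, z4⟩ := hz
  have hy := (cell_vertex hδ hbs hδb hw0 hU).2
  refine ⟨?_, fun hxU => ?_, ?_⟩
  · rw [mem_closedBall_zero_iff, hx]; linarith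
  · have := hU.bdd x hxU
    rw [mem_ball_zero_iff, hx] at this
    linarith
  · rintro ⟨i, h1, h2⟩
    rw [hx] at h1 h2
    rw [lt_abs] at z3
    rw [abs_le] at h1
    fin_cases i <;> simp [ts, ls, t0, l0] at h1 h2
    · rcases z3 with z3 | z3 <;> linarith [h1.1, h1.2]
    · linarith
    · linarith

end Vale.Agent.P153.R2.Gp
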